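import Mathlib
import Crest.Agent.N265.Br.Base
import Crest.Agent.R270.Crv4_110

/-!
# Row 265, bridge, part 2 (helper42): curves on a smooth proper variety and places

`ξ : V.X`, `K = κ(ξ)`.

* `E ξ f`    : the value of `f ∈ loc ξ` in `K` (junk `0` otherwise);
* `Rg ξ y`   : the local ring at `y` of the closure of `ξ`, inside `K`;
* `Cen Q y`  : `y ≠ ξ` is the centre of the place `Q`; `cen_unique`, `exists_cen`;
* `conductor`: locally uniform conductors;
* `exists_ctx` : `κ(ξ)` is a function field of one variable for a prime divisor of a surface.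
-/

set_option autoImplicit false
set_option linter.unusedSectionVars false

open AlgebraicGeometry CategoryTheory Order TopologicalSpace Topology Filter
open Crest.AlgGeometry.Prelude
open Crest.Agent.R274.Br179
open Crest.Agent.R270.Dic327 (exists_frac exists_point_of_prime spec_of_van)
open Crest.Agent.R270.Len1_790 Crest.Agent.R270.Crv_110
open Crest.Agent.R013.RR7_948

namespace Crest.Agent.N265.Br

universe u

noncomputable section

open IsLocalRing

section Ev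

variable {k : Type u} [Field k] {W : IntegralKScheme k}

/-- evaluation at `ξ` -/
def ev (ξ : W.X) : locA W ξ →ₐ[k] W.ResField ξ :=
  { toRingHom := ((W.X.residue ξ).hom.comp (stE ξ).symm.toRingHom)
    commutes' := by
      intro c
      have h1 : (stE ξ).symm (⟨algebraMap k W.FnField c, const_mem_loc W ξ c⟩ : loc ξ) =
          algebraMap k (W.Stalk ξ) c := by
        apply (stE ξ).injective
        rw [RingEquiv.apply_symm_apply]
        apply Subtype.ext
        show algebraMap k W.FnField c = algebraMap (W.Stalk ξ) W.FnField (algebraMap k _ c)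
        rw [← IsScalarTower.algebraMap_apply]
      exact congrArg (W.X.residue ξ).hom h1 }

theorem ev_zero (ξ : W.X) (f : locA W ξ) : ev ξ f = 0 ↔ (f : W.FnField) ∈ van ξ := by
  show (W.X.residue ξ).hom ((stE ξ).symm f) = 0 ↔ _
  have h1 : ((f : W.FnField)) = algebraMap (W.Stalk ξ) W.FnField ((stE ξ).symm f) := by
    have h2 := (stE ξ).apply_symm_apply f
    conv_lhs => rw [← h2]
    rfl
  rw [h1, algebraMap_mem_van]
  exact IsLocalRing.residue_eq_zero_iff _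

theorem ev_surjective (ξ : W.X) : Function.Surjective (ev ξ) := by
  intro y
  obtain ⟨a, rfl⟩ := IsLocalRing.residue_surjective (R := W.Stalk ξ) y
  refine ⟨stE ξ a, ?_⟩
  show (W.X.residue ξ).hom ((stE ξ).symm (stE ξ a)) = _
  rw [RingEquiv.symm_apply_apply]
  rfl

open Classical in
/-- the value of a function at `ξ` -/
def E (ξ : W.X) (f : W.FnField) : W.ResField ξ := if h : f ∈ loc ξ then ev ξ ⟨f, h⟩ else 0

variable {ξ : W.X}

theorem E_eq {f : W.FnField} (h : f ∈ loc ξ) : E ξ f = ev ξ ⟨f, h⟩ := dif_pos h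

theorem E_add {f g : W.FnField} (hf : f ∈ loc ξ) (hg : g ∈ loc ξ) :
    E ξ (f + g) = E ξ f + E ξ g := by
  rw [E_eq hf, E_eq hg, E_eq (add_mem hf hg), ← map_add]; rfl

theorem E_sub {f g : W.FnField} (hf : f ∈ loc ξ) (hg : g ∈ loc ξ) :
    E ξ (f - g) = E ξ f - E ξ g := by
  rw [E_eq hf, E_eq hg, E_eq (sub_mem hf hg), ← map_sub]; rfl

theorem E_mul {f g : W.FnField} (hf : f ∈ loc ξ) (hg : g ∈ loc ξ) :
    E ξ (f * g) = E ξ f * E ξ g := by
  rw [E_eq hf, E_eq hg, E_eq (mul_mem hf hg), ← map_mul]; rfl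

theorem E_smul (c : k) {f : W.FnField} (hf : f ∈ loc ξ) : E ξ (c • f) = c • E ξ f := by
  rw [E_eq hf, E_eq (smul_mem_loc c hf), ← map_smul]; rfl

theorem E_one : E ξ 1 = 1 := by
  rw [E_eq (one_mem _)]; exact map_one (ev ξ)

theorem E_zero : E ξ 0 = 0 := by
  rw [E_eq (zero_mem _)]; exact map_zero (ev ξ)

theorem E_const (c : k) : E ξ (algebraMap k W.FnField c) = algebraMap k _ c := by
  rw [E_eq (const_mem_loc W ξ c)]; exact (ev ξ).commutes c

theorem E_eq_zero {f : W.FnField} (hf : f ∈ loc ξ) : E ξ f = 0 ↔ f ∈ van ξ := by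
  rw [E_eq hf, ev_zero]

theorem E_pow {f : W.FnField} (hf : f ∈ loc ξ) (m : ℕ) : E ξ (f ^ m) = E ξ f ^ m := by
  rw [E_eq hf, E_eq (pow_mem hf m), ← map_pow]; rfl

theorem E_inv {f : W.FnField} (hf : f ∈ loc ξ) (hf' : f ∉ van ξ) : E ξ f⁻¹ = (E ξ f)⁻¹ := by
  refine eq_inv_of_mul_eq_one_left ?_
  rw [← E_mul (inv_mem_loc hf hf') hf, inv_mul_cancel₀ (ne_zero_of_notMem_van hf'), E_one]

theorem exists_E (a : W.ResField ξ) : ∃ f ∈ loc ξ, E ξ f = a := by
  obtain ⟨⟨f, hf⟩, rfl⟩ := ev_surjective ξ a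
  exact ⟨f, hf, E_eq hf⟩

/-- values of the functions of a subalgebra of `loc ξ` -/
def val (ξ : W.X) (A : Subalgebra k W.FnField) (h : A ≤ locA W ξ) : Subalgebra k (W.ResField ξ) :=
  ((ev ξ).comp (Subalgebra.inclusion h)).range

theorem mem_val {A : Subalgebra k W.FnField} {h : A ≤ locA W ξ} {a : W.ResField ξ} :
    a ∈ val ξ A h ↔ ∃ f ∈ A, E ξ f = a := by
  constructor
  · rintro ⟨⟨f, hf⟩, rfl⟩
    exact ⟨f, hf, E_eq (h hf)⟩
  · rintro ⟨f, hf, rfl⟩
    exact ⟨⟨f, hf⟩, (E_eq (h hf)).symm⟩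

/-- the local ring at `y` of the closure of `ξ` -/
def Rg {y : W.X} (h : ξ ⤳ y) : Subalgebra k (W.ResField ξ) :=
  val ξ (locA W y) fun _ hf => loc_le h hf

theorem mem_Rg {y : W.X} {h : ξ ⤳ y} {a : W.ResField ξ} :
    a ∈ Rg h ↔ ∃ f ∈ loc y, E ξ f = a := mem_val

instance isLocalRing_Rg {y : W.X} (h : ξ ⤳ y) : IsLocalRing (Rg h) := by
  have : IsLocalRing (locA W y) := isLocalRing_loc y
  exact IsLocalRing.of_surjective' ((ev ξ).comp (Subalgebra.inclusion
    (show locA W y ≤ locA W ξ from fun _ hf => loc_le h hf))).rangeRestrict.toRingHom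
    (AlgHom.rangeRestrict_surjective _)

theorem inv_notMem_Rg {y : W.X} (h : ξ ⤳ y) {f : W.FnField} (hf : f ∈ van y)
    (h0 : E ξ f ≠ 0) : (E ξ f)⁻¹ ∉ Rg h := by
  intro hcon
  obtain ⟨g, hg, hg'⟩ := mem_Rg.1 hcon
  have hf1 := van_subset_loc y hf
  have h1 : E ξ (g * f - 1) = 0 := by
    rw [E_sub (mul_mem (loc_le h hg) (loc_le h hf1)) (one_mem _), E_mul (loc_le h hg) (loc_le h hf1),
      hg', inv_mul_cancel₀ h0, E_one, sub_self]
  have h2 : g * f - 1 ∈ loc y := sub_mem (mul_mem hg hf1) (one_mem _)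
  have h3 := van_spec h h2 ((E_eq_zero (loc_le h h2)).1 h1)
  have h4 := add_mem_van (mul_mem_van hg hf) (mul_mem_van (neg_mem (one_mem _)) h3)
  apply one_notMem_van y
  convert h4 using 1
  ring

/-- the coordinate ring of an affine chart of the closure of `ξ` -/
def chA {U : W.X.Opens} (hx : ξ ∈ U) : Subalgebra k (W.ResField ξ) :=
  val ξ (regA W (U : Set W.X)) fun _ hf => mem_reg.1 hf _ hx

theorem mem_chA {U : W.X.Opens} {hx : ξ ∈ U} {a : W.ResField ξ} :
    a ∈ chA hx ↔ ∃ f ∈ reg (U : Set W.X), E ξ f = a := mem_val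

theorem frac_chA {U : W.X.Opens} (hU : IsAffineOpen U) (hx : ξ ∈ U) :
    IsFractionRing (chA hx) (W.ResField ξ) := by
  refine IsFractionRing.of_field _ _ fun z => ?_
  obtain ⟨f, hf, rfl⟩ := exists_E z
  obtain ⟨g, hg, s, hs, hsx, hfs⟩ := exists_frac hU hx hf
  have hs1 := mem_reg.1 hs _ hx
  have hs' : E ξ s ≠ 0 := fun h0 => hsx ((E_eq_zero hs1).1 h0)
  refine ⟨⟨_, mem_chA.2 ⟨g, hg, rfl⟩⟩, ⟨_, mem_chA.2 ⟨s, hs, rfl⟩⟩, ?_⟩
  show _ = E ξ g / E ξ s
  rw [eq_div_iff hs', ← E_mul hf hs1, mul_comm, hfs]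

theorem chA_le {U : W.X.Opens} (hx : ξ ∈ U) {y : W.X} (h : ξ ⤳ y) (hy : y ∈ U) :
    chA hx ≤ Rg h := by
  intro a ha
  obtain ⟨f, hf, rfl⟩ := mem_chA.1 ha
  exact mem_Rg.2 ⟨f, mem_reg.1 hf _ hy, rfl⟩

theorem Rg_loc {U : W.X.Opens} (hU : IsAffineOpen U) (hx : ξ ∈ U) {y : W.X} (h : ξ ⤳ y)
    (hy : y ∈ U) : ∀ a ∈ Rg h, ∃ s ∈ chA hx, s ≠ 0 ∧ s⁻¹ ∈ Rg h ∧ a * s ∈ chA hx := by
  intro a ha
  obtain ⟨f, hf, rfl⟩ := mem_Rg.1 ha
  obtain ⟨g, hg, s, hs, hsp, hfs⟩ := exists_frac hU hy hf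
  have hs1 := mem_reg.1 hs _ hy
  have hsx : s ∉ van ξ := fun h0 => hsp (van_spec h hs1 h0)
  refine ⟨E ξ s, mem_chA.2 ⟨s, hs, rfl⟩, fun h0 => hsx ((E_eq_zero (loc_le h hs1)).1 h0), ?_, ?_⟩
  · rw [← E_inv (loc_le h hs1) hsx]
    exact mem_Rg.2 ⟨_, inv_mem_loc hs1 hsp, rfl⟩
  · rw [← E_mul (loc_le h hf) (loc_le h hs1), mul_comm, hfs]
    exact mem_chA.2 ⟨g, hg, rfl⟩

/-- charts of a curve have Krull dimension at most one -/
theorem krullDim_chart {U : W.X.Opens} (hU : IsAffineOpen U) (hx : ξ ∈ U)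
    (hξ : Order.height ξ ≤ 1) : ringKrullDim (chA hx) ≤ 1 := by
  have hne : Nonempty U := ⟨⟨ξ, hx⟩⟩
  let evU : reg (U : Set W.X) →+* chA hx :=
    ((ev ξ).comp (Subalgebra.inclusion (show regA W (U : Set W.X) ≤ locA W ξ from
      fun _ hf => mem_reg.1 hf _ hx))).rangeRestrict.toRingHom
  have hsurj : Function.Surjective evU := AlgHom.rangeRestrict_surjective
    ((ev ξ).comp (Subalgebra.inclusion (show regA W (U : Set W.X) ≤ locA W ξ from
      fun _ hf => mem_reg.1 hf _ hx)))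
  have hzero : ∀ f : reg (U : Set W.X), (f : W.FnField) ∈ van ξ → evU f = 0 := fun f hf =>
    Subtype.ext ((ev_zero ξ ⟨f.1, mem_reg.1 f.2 _ hx⟩).2 hf)
  have key : ∀ Q : PrimeSpectrum (chA hx), ∃ x ∈ U, ∀ f : reg (U : Set W.X),
      evU f ∈ Q.asIdeal ↔ (f : W.FnField) ∈ van x := by
    intro Q
    have : (Q.asIdeal.comap evU).IsPrime := Ideal.IsPrime.comap _
    obtain ⟨x, hxU, h⟩ := exists_point_of_prime hU (Q.asIdeal.comap evU)
    exact ⟨x, hxU, fun f => h f⟩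
  choose c hcU hc using key
  have hspec : ∀ Q, ξ ⤳ c Q := by
    intro Q
    refine spec_of_van hU hx (hcU Q) fun f hf hfv => ?_
    refine (hc Q ⟨f, hf⟩).1 ?_
    rw [hzero ⟨f, hf⟩ hfv]
    exact Ideal.zero_mem _
  have hle : ∀ Q Q' : PrimeSpectrum (chA hx), c Q ⤳ c Q' ↔ Q ≤ Q' := by
    intro Q Q'
    constructor
    · intro h y hy
      obtain ⟨f, rfl⟩ := hsurj y
      have h1 := (hc Q f).1 hy
      exact (hc Q' f).2 (van_spec h (mem_reg.1 f.2 _ (hcU Q')) h1)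
    · intro h
      refine spec_of_van hU (hcU Q) (hcU Q') fun f hf hfv => ?_
      exact (hc Q' ⟨f, hf⟩).1 (h ((hc Q ⟨f, hf⟩).2 hfv))
  let Φ : PrimeSpectrum (chA hx) → (Set.Iic ξ)ᵒᵈ := fun Q =>
    OrderDual.toDual ⟨c Q, by
      rw [Set.mem_Iic, Scheme.le_iff_specializes]
      exact hspec Q⟩
  have hmono : StrictMono Φ := by
    intro Q Q' hQ
    refine lt_iff_le_not_ge.2 ⟨?_, fun hle' => ?_⟩
    · refine OrderDual.toDual_le_toDual.2 ?_
      refine Subtype.mk_le_mk.2 ?_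
      rw [Scheme.le_iff_specializes]
      exact (hle _ _).2 hQ.le
    · have h1 := Subtype.mk_le_mk.1 (OrderDual.toDual_le_toDual.1 hle')
      rw [Scheme.le_iff_specializes, hle] at h1
      exact hQ.not_ge h1
  have h1 := Order.krullDim_le_of_strictMono Φ hmono
  rw [Order.krullDim_orderDual, ← Order.height_eq_krullDim_Iic] at h1
  refine h1.trans ?_
  exact_mod_cast hξ

theorem isClosed_of_const {p : W.X}
    (hp : ∀ f ∈ loc p, ∃ c : k, f - algebraMap k W.FnField c ∈ van p) :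
    IsClosed ({p} : Set W.X) := by
  refine Crest.Agent.R274.Int2_375.isClosed_of_height
    (Crest.Agent.R274.Int2_375.isClosed_iff_height.2 fun q hq => ?_)
  by_contra hcon
  obtain ⟨U, hU, hqU⟩ := exists_affine q
  have hpU : p ∈ U := hq.mem_open U.isOpen hqU
  obtain ⟨s, hs, hsq, hsp⟩ := exists_sep hU hpU hqU hcon
  obtain ⟨c, hc⟩ := hp s (mem_reg.1 hs p hpU)
  have h1 : s - algebraMap k W.FnField c ∈ loc q :=
    sub_mem (mem_reg.1 hs q hqU) (const_mem_loc _ q c)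
  have h2 := van_spec hq h1 hc
  have h3 : algebraMap k W.FnField c ∈ van q := by
    have h4 := mul_mem_van (neg_mem (one_mem (loc q))) h2
    have h5 := add_mem_van hsq h4
    convert h5 using 1
    ring
  by_cases hc0 : c = 0
  · rw [hc0, map_zero, sub_zero] at hc
    exact hsp hc
  · have h6 := mul_mem_van (const_mem_loc _ q c⁻¹) h3
    rw [← map_mul, inv_mul_cancel₀ hc0, map_one] at h6
    exact one_notMem_van q h6

/-- `y ≠ ξ` is the centre of the place `Q` -/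
def Cen (Q : Pl k (W.ResField ξ)) (y : W.X) : Prop :=
  ξ ⤳ y ∧ y ≠ ξ ∧ ∀ f ∈ loc y, Q.v (E ξ f) ≤ 1

end Ev

variable {k : Type u} [Field k] {n : ℕ} {V : SmPr k n} {ξ : V.X}

theorem fg_chA {U : V.X.Opens} (hU : IsAffineOpen U) (hx : ξ ∈ U) :
    (chA (W := V.toIntegralKScheme) hx).FG := by
  rw [chA, val, ← Algebra.map_top]
  exact Subalgebra.FG.map _ ((Subalgebra.fg_iff_finiteType _).1 (fg_reg V hU hx)).out

theorem essFT {y : V.X} (h : ξ ⤳ y) : EssFT (Rg (W := V.toIntegralKScheme) h) := by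
  obtain ⟨U, hU, hy⟩ := exists_affine y
  have hx : ξ ∈ U := h.mem_open U.isOpen hy
  exact ⟨chA hx, fg_chA hU hx, frac_chA hU hx, chA_le hx h hy, Rg_loc hU hx h hy⟩

theorem exists_van {X : Scheme.{u}} [IsIntegral X] {ξ y : X} (h : ξ ⤳ y) (hne : y ≠ ξ) :
    ∃ s ∈ van y, s ∉ van ξ := by
  obtain ⟨U, hU, hy⟩ := exists_affine y
  have hx : ξ ∈ U := h.mem_open U.isOpen hy
  obtain ⟨s, -, hs1, hs2⟩ := exists_sep hU hx hy fun h' => hne (h'.antisymm h).eq
  exact ⟨s, hs1, hs2⟩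

section Ctx

variable [Algebra (RatFunc k) (V.ResField ξ)] [IsScalarTower k (RatFunc k) (V.ResField ξ)]
  [FiniteDimensional (RatFunc k) (V.ResField ξ)] [Algebra.IsSeparable (RatFunc k) (V.ResField ξ)]

theorem Cen.le {Q : Pl k (V.ResField ξ)} {y : V.X} (hc : Cen (W := V.toIntegralKScheme) Q y) :
    ∀ r ∈ Rg (W := V.toIntegralKScheme) hc.1, r ∈ OQ Q := by
  intro r hr
  obtain ⟨f, hf, rfl⟩ := mem_Rg.1 hr
  exact hc.2.2 f hf

theorem Cen.lt {Q : Pl k (V.ResField ξ)} {y : V.X} (hc : Cen (W := V.toIntegralKScheme) Q y)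
    {f : V.FnField} (hf : f ∈ van y) : Q.v (E (W := V.toIntegralKScheme) ξ f) < 1 := by
  by_cases h0 : E (W := V.toIntegralKScheme) ξ f = 0
  · rw [h0, map_zero]; exact zero_lt_one
  · exact (((dom_iff_le (essFT hc.1) Q).2 hc.le) _
      (mem_Rg.2 ⟨f, van_subset_loc y hf, rfl⟩)).2 h0 (inv_notMem_Rg hc.1 hf h0)

theorem cen_unique {Q : Pl k (V.ResField ξ)} {y y' : V.X}
    (hc : Cen (W := V.toIntegralKScheme) Q y) (hc' : Cen (W := V.toIntegralKScheme) Q y') :
    y = y' := by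
  have : IsLocalRing (OQ Q).toSubring := inferInstanceAs (IsLocalRing (OQ Q))
  have key : ∀ p : V.X, (hp : Cen (W := V.toIntegralKScheme) Q p) →
      ∀ (f : V.X.functionField) (hf : f ∈ loc p),
      ∃ hO : (ev (W := V.toIntegralKScheme) ξ).toRingHom ⟨f, loc_le hp.1 hf⟩ ∈ (OQ Q).toSubring,
        f ∈ van p → ¬ IsUnit (⟨_, hO⟩ : (OQ Q).toSubring) := by
    intro p hp f hf
    have h1 : (ev (W := V.toIntegralKScheme) ξ).toRingHom ⟨f, loc_le hp.1 hf⟩ =
        E (W := V.toIntegralKScheme) ξ f := (E_eq (loc_le hp.1 hf)).symm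
    refine ⟨by rw [h1]; exact hp.2.2 f hf, fun hv hu => ?_⟩
    obtain ⟨⟨b, hb⟩, hab⟩ := hu.exists_right_inv
    have h2 : (ev (W := V.toIntegralKScheme) ξ).toRingHom ⟨f, loc_le hp.1 hf⟩ * b = 1 :=
      congrArg Subtype.val hab
    rw [h1] at h2
    have h3 := congrArg Q.v h2
    rw [map_mul, map_one] at h3
    have h4 := hp.lt hv
    have h5 : Q.v b ≤ 1 := hb
    have h6 := mul_lt_one_of_lt_of_le h4 h5
    rw [h3] at h6
    exact lt_irrefl _ h6
  exact sep (OQ Q).toSubring (ev (W := V.toIntegralKScheme) ξ).toRingHom hc.1 hc'.1 (key y hc)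
    (key y' hc')

theorem mem_nrm_Rg {y : V.X} (h : ξ ⤳ y) (hne : y ≠ ξ) {a : V.ResField ξ}
    (ha : ∀ Q : Pl k (V.ResField ξ), Cen (W := V.toIntegralKScheme) Q y → Q.v a ≤ 1) :
    a ∈ nrm (Rg (W := V.toIntegralKScheme) h) := by
  rw [mem_nrm_iff_OQ]
  intro Q hQ
  exact ha Q ⟨h, hne, fun f hf => hQ _ (mem_Rg.2 ⟨f, hf, rfl⟩)⟩

variable [CharZero k]

theorem exists_cen {y : V.X} (h : ξ ⤳ y) (hne : y ≠ ξ) :
    ∃ Q : Pl k (V.ResField ξ), Cen (W := V.toIntegralKScheme) Q y := by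
  by_contra hcon
  push Not at hcon
  obtain ⟨c, hc, hc0, hcc⟩ := (essFT h).conductor
  obtain ⟨s, hs, hsξ⟩ := exists_van h hne
  have hs0 : E (W := V.toIntegralKScheme) ξ s ≠ 0 :=
    fun h0 => hsξ ((E_eq_zero (loc_le h (van_subset_loc y hs))).1 h0)
  apply inv_notMem_Rg h hs hs0
  have h1 := hcc (c⁻¹ * (E (W := V.toIntegralKScheme) ξ s)⁻¹)
    (mem_nrm_Rg h hne fun Q hQ => (hcon Q hQ).elim)
  rwa [← mul_assoc, mul_inv_cancel₀ hc0, one_mul] at h1

/-- **locally uniform conductors** -/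
theorem conductor (x : V.X) : ∃ c : V.ResField ξ, c ≠ 0 ∧ ∀ᶠ y in 𝓝 x, ∀ h : ξ ⤳ y,
    ∀ a : V.ResField ξ, (∀ Q : Pl k (V.ResField ξ), Cen (W := V.toIntegralKScheme) Q y →
      Q.v a ≤ Q.v c) → a ∈ Rg (W := V.toIntegralKScheme) h := by
  by_cases hx : ξ ⤳ x
  · obtain ⟨U, hU, hxU⟩ := exists_affine x
    have hξ : ξ ∈ U := hx.mem_open U.isOpen hxU
    obtain ⟨c, -, hc0, hcc⟩ := (EssFT.of_fg (fg_chA hU hξ) (frac_chA hU hξ)).conductor
    refine ⟨c, hc0, ?_⟩
    filter_upwards [U.isOpen.mem_nhds hxU] with y hy h a ha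
    by_cases hne : y = ξ
    · subst hne
      obtain ⟨f, hf, rfl⟩ := exists_E a
      exact mem_Rg.2 ⟨f, hf, rfl⟩
    have h1 : c⁻¹ * a ∈ nrm (Rg (W := V.toIntegralKScheme) h) := by
      refine mem_nrm_Rg h hne fun Q hQ => ?_
      have hc1 : Q.v c ≠ 0 := (Valuation.ne_zero_iff _).2 hc0
      rw [map_mul, map_inv₀, inv_mul_le_one₀ (zero_lt_iff.2 hc1)]
      exact ha Q hQ
    obtain ⟨s, hs, hs0, hsi, hsa⟩ := exists_int _ _ (chA_le hξ h hy) (Rg_loc hU hξ h hy) _ h1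
    have h2 := chA_le hξ h hy (hcc _ hsa)
    have h3 : a = s⁻¹ * (c * (s * (c⁻¹ * a))) := by field_simp
    rw [h3]
    exact mul_mem hsi h2
  · refine ⟨1, one_ne_zero, ?_⟩
    have h1 : (closure ({ξ} : Set V.X))ᶜ ∈ 𝓝 x :=
      isClosed_closure.isOpen_compl.mem_nhds fun h => hx (specializes_iff_mem_closure.2 h)
    filter_upwards [h1] with y hy h
    exact (hy (specializes_iff_mem_closure.1 h)).elim

end Ctx

/-! ### surfaces -/

section Surf

variable [IsAlgClosed k] {V : SmPr k 2} {ξ : V.X}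

theorem not_isClosed (hξ : coheight ξ = 1) : ¬ IsClosed ({ξ} : Set V.X) := by
  intro h
  have := coheight_closed V h
  rw [hξ] at this
  norm_num at this

theorem eq_of_spec {y z : V.X} (hξ : coheight ξ = 1) (h : ξ ⤳ y) (hne : y ≠ ξ) (hz : y ⤳ z) :
    z = y := by
  by_contra hcon
  have h1 := coheight_succ_le_of_specializes h hne.symm
  have h2 := coheight_succ_le_of_specializes hz (Ne.symm hcon)
  have h3 := coheight_le V z
  rw [hξ] at h1
  have h4 : (1 + 1 + 1 : ℕ∞) ≤ 2 := le_trans (le_trans (add_le_add_left h1 1) h2) h3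
  norm_num at h4

theorem height_le (hξ : coheight ξ = 1) : Order.height ξ ≤ 1 := by
  rw [show (1 : ℕ∞) = ((1 : ℕ) : ℕ∞) from rfl, Order.height_le_coe_iff]
  intro y hy
  have h1 : ξ ⤳ y := hy.le
  have h2 : Order.height y = 0 := by
    rw [Crest.Agent.R274.Int2_375.isClosed_iff_height]
    intro z hz
    rw [eq_of_spec hξ h1 hy.ne hz]
  rw [h2]
  norm_num

theorem exists_spec (hξ : coheight ξ = 1) : ∃ y, ξ ⤳ y ∧ y ≠ ξ := by
  by_contra hcon
  push Not at hcon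
  exact not_isClosed hξ (Crest.Agent.R274.Int2_375.isClosed_singleton_iff.2 hcon)

/-- the residue field of a prime divisor is a function field of one variable -/
theorem exists_ctx [CharZero k] (hξ : coheight ξ = 1) :
    ∃ (_ : Algebra (RatFunc k) (V.ResField ξ)) (_ : IsScalarTower k (RatFunc k) (V.ResField ξ)),
      FiniteDimensional (RatFunc k) (V.ResField ξ) ∧
        Algebra.IsSeparable (RatFunc k) (V.ResField ξ) := by
  obtain ⟨y, hy⟩ : ∃ y : V.ResField ξ, Transcendental k y := by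
    by_contra hcon
    push Not at hcon
    refine not_isClosed hξ (isClosed_of_const (W := V.toIntegralKScheme) fun f hf => ?_)
    have h1 : IsAlgebraic k (E (W := V.toIntegralKScheme) ξ f) := not_not.1 (hcon _)
    obtain ⟨c, hc⟩ := minpoly.mem_range_of_degree_eq_one k _
      (IsAlgClosed.degree_eq_one_of_irreducible k (minpoly.irreducible h1.isIntegral))
    refine ⟨c, ?_⟩
    rw [← E_eq_zero (sub_mem hf (const_mem_loc _ ξ c)), E_sub hf (const_mem_loc _ ξ c), E_const,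
      hc, sub_self]
  obtain ⟨U, hU, hξU⟩ := exists_affine ξ
  exact exists_ratAlg' (chA hξU) (fg_chA hU hξU) (frac_chA hU hξU)
    (krullDim_chart hU hξU (height_le hξ)) hy

end Surf

end

end Crest.Agent.N265.Br
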