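import Mathlib
import Crest.Agent.N265.Br.Curve

/-!
# Row 265, bridge, part 3 (helper42): Cousin data

`W` integral, locally factorial, compact. `D : W.X → ℤ` a Weil divisor.

* `sO D y`  : the stalk of `O(D)` at `y` inside the function field; `LocEq D τ y` : local equations;
* `Cous D`  : Cousin data (global sections of `K / O(D)`), `Bd D` : the trivial ones;
  `H¹(O(D)) = Cous D / Bd D`;
* `cous_sub` : the basic criterion for lowering `D` by a prime divisor.
-/

set_option autoImplicit false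
set_option linter.unusedSectionVars false

open AlgebraicGeometry CategoryTheory Order TopologicalSpace Topology Filter
open Crest.AlgGeometry.Prelude
open Crest.Agent.R274.Br179

namespace Crest.Agent.N265.Br

universe u

noncomputable section

/-! ### topology and linear algebra -/

theorem exists_finite_of_local {X : Type*} [TopologicalSpace X] [CompactSpace X] {δ : Type*}
    (P : X → δ → Prop) (h : ∀ x, ∃ d, ∀ᶠ y in 𝓝 x, P y d) :
    ∃ T : Set δ, T.Finite ∧ ∀ y, ∃ d ∈ T, P y d := by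
  choose d hd using h
  obtain ⟨t, ht⟩ := CompactSpace.elim_nhds_subcover (fun x => {y | P y (d x)}) hd
  refine ⟨d '' (t : Set X), t.finite_toSet.image _, fun y => ?_⟩
  have hy : y ∈ ⋃ x ∈ t, {y | P y (d x)} := by rw [ht]; trivial
  simp only [Set.mem_iUnion] at hy
  obtain ⟨x, hx, hxy⟩ := hy
  exact ⟨d x, ⟨x, hx, rfl⟩, hxy⟩

theorem ev_avoid {X : Type*} [TopologicalSpace X] {T : Set X} (hT : T.Finite) {x : X}
    (h : ∀ z ∈ T, ¬ z ⤳ x) : ∀ᶠ y in 𝓝 x, ∀ z ∈ T, ¬ z ⤳ y := by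
  rw [hT.eventually_all]
  intro z hz
  have h1 : (closure ({z} : Set X))ᶜ ∈ 𝓝 x :=
    isClosed_closure.isOpen_compl.mem_nhds fun h' => h z hz (specializes_iff_mem_closure.2 h')
  filter_upwards [h1] with y hy h'
  exact hy (specializes_iff_mem_closure.1 h')

theorem of_spec {X : Type*} [TopologicalSpace X] {x z : X} (h : z ⤳ x) {P : X → Prop}
    (hP : ∀ᶠ y in 𝓝 x, P y) : P z :=
  (hP.filter_mono h).self_of_nhds

theorem exists_fd_pull {k M M' : Type*} [Field k] [AddCommGroup M] [Module k M] [AddCommGroup M']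
    [Module k M'] (Φ : M →ₗ[k] M') (N W₁ : Submodule k M') [FiniteDimensional k W₁]
    (h : ∀ x, Φ x ∈ N ⊔ W₁) :
    ∃ W : Submodule k M, FiniteDimensional k W ∧ N.comap Φ ⊔ W = ⊤ := by
  let q : M →ₗ[k] M' ⧸ N := N.mkQ.comp Φ
  have hr : LinearMap.range q ≤ W₁.map N.mkQ := by
    rintro _ ⟨x, rfl⟩
    obtain ⟨a, ha, b, hb, hab⟩ := Submodule.mem_sup.1 (h x)
    refine ⟨b, hb, ?_⟩
    show N.mkQ b = N.mkQ (Φ x)
    rw [← hab, map_add, Submodule.mkQ_apply N a, (Submodule.Quotient.mk_eq_zero N).2 ha, zero_add]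
  have hfd : FiniteDimensional k (LinearMap.range q) := Submodule.finiteDimensional_of_le hr
  obtain ⟨W, hW⟩ := (LinearMap.ker q).exists_isCompl
  have hk : LinearMap.ker q = N.comap Φ := by
    rw [LinearMap.ker_comp, Submodule.ker_mkQ]
  refine ⟨W, ?_, by rw [← hk]; exact hW.sup_eq_top⟩
  exact ((Submodule.quotientEquivOfIsCompl _ _ hW).symm.trans
    q.quotKerEquivRange).symm.finiteDimensional

/-- chains between `B` and `B ⊔ W` are stationary -/
theorem stationary {k M : Type*} [Field k] [AddCommGroup M] [Module k M] (B W : Submodule k M)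
    [FiniteDimensional k W] (N : ℕ → Submodule k M) (hN : Monotone N) (h1 : ∀ n, B ≤ N n)
    (h2 : ∀ n, N n ≤ B ⊔ W) : ∃ n₁, ∀ n, n₁ ≤ n → N n = N n₁ := by
  let f : ℕ →o Submodule k W := ⟨fun n => (N n).comap W.subtype,
    fun a b hab => Submodule.comap_mono (hN hab)⟩
  obtain ⟨n₁, hn₁⟩ := monotone_stabilizes_iff_noetherian.2 inferInstance f
  refine ⟨n₁, fun n hn => le_antisymm ?_ (hN hn)⟩
  intro x hx
  obtain ⟨b, hb, w, hw, rfl⟩ := Submodule.mem_sup.1 (h2 n hx)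
  have h3 : w ∈ N n := by
    have := sub_mem hx (h1 n hb)
    rwa [add_sub_cancel_left] at this
  have h4 : (⟨w, hw⟩ : W) ∈ f n := h3
  rw [← hn₁ n hn] at h4
  exact add_mem (h1 n₁ hb) h4

variable {k : Type u} [Field k] {W : IntegralKScheme k} [LocFact W.X] [CompactSpace W.X]

/-! ### stalks of `O(D)` -/

/-- the stalk of `O(D)` at `y` -/
def sO (D : W.X → ℤ) (y : W.X) : Submodule k W.FnField := secD W D {z | z ⤳ y}

theorem mem_sO {D : W.X → ℤ} {y : W.X} {f : W.FnField} :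
    f ∈ sO D y ↔ ∀ z, z ⤳ y → f = 0 ∨ 0 ≤ Scheme.ord (X := W.X) f z + D z := Iff.rfl

theorem sO_spec {D : W.X → ℤ} {y z : W.X} (h : z ⤳ y) : sO D y ≤ sO D z :=
  secD_anti fun _ hw => Specializes.trans hw h

theorem sO_mono {D D' : W.X → ℤ} (h : D ≤ D') (y : W.X) : sO D y ≤ sO D' y :=
  secD_mono fun z _ => h z

theorem sO_zero {y : W.X} {f : W.FnField} : f ∈ sO (0 : W.X → ℤ) y ↔ f ∈ loc y := by
  rw [mem_sO, mem_loc_iff]
  refine forall₂_congr fun z _ => ⟨fun h => ?_, fun h => Or.inr (by simpa using h)⟩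
  rcases h with h | h
  · rw [h]; simp
  · simpa using h

theorem sO_nhds {D : W.X → ℤ} (hD : IsWD D) {x : W.X} {e : W.FnField} (he : e ∈ sO D x) :
    ∀ᶠ y in 𝓝 x, e ∈ sO D y := by
  by_cases h0 : e = 0
  · exact Eventually.of_forall fun y => by rw [h0]; exact zero_mem _
  have hT : {z : W.X | Scheme.ord (X := W.X) e z + D z < 0}.Finite :=
    ((IsWD.ord h0).add hD).fin.subset fun z hz => ne_of_lt hz
  filter_upwards [ev_avoid hT (x := x) fun z hz h => by
    have h1 := (he z h).resolve_left h0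
    have h2 : Scheme.ord (X := W.X) e z + D z < 0 := hz
    omega] with y hy z hz
  right
  by_contra hcon
  exact hy z (show Scheme.ord (X := W.X) e z + D z < 0 by omega) hz

/-- `τ` is a local equation of `D` at `y` -/
def LocEq (D : W.X → ℤ) (τ : W.FnField) (y : W.X) : Prop :=
  τ ≠ 0 ∧ ∀ z, z ⤳ y → Scheme.ord (X := W.X) τ z = D z

theorem exists_locEq {D : W.X → ℤ} (hD : IsWD D) (y : W.X) : ∃ τ, LocEq D τ y :=
  exists_local_eq y hD

theorem LocEq.spec {D : W.X → ℤ} {τ : W.FnField} {y z : W.X} (h : LocEq D τ y) (hz : z ⤳ y) :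
    LocEq D τ z := ⟨h.1, fun w hw => h.2 w (hw.trans hz)⟩

theorem LocEq.nhds {D : W.X → ℤ} (hD : IsWD D) {τ : W.FnField} {x : W.X} (h : LocEq D τ x) :
    ∀ᶠ y in 𝓝 x, LocEq D τ y := by
  have hT : {z : W.X | Scheme.ord (X := W.X) τ z ≠ D z}.Finite :=
    ((IsWD.ord h.1).add hD.neg).fin.subset fun z hz h' => hz (by
      have h2 : Scheme.ord (X := W.X) τ z + - D z = 0 := h'
      omega)
  filter_upwards [ev_avoid hT (x := x) fun z hz h' => hz (h.2 z h')] with y hy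
  refine ⟨h.1, fun z hz => ?_⟩
  by_contra hcon
  exact hy z hcon hz

theorem LocEq.mem_iff {D : W.X → ℤ} {τ : W.FnField} {y : W.X} (h : LocEq D τ y)
    {f : W.FnField} : f ∈ sO D y ↔ τ * f ∈ loc y := by
  by_cases hf : f = 0
  · subst hf
    simp only [mul_zero, zero_mem]
  rw [mem_sO, mem_loc_iff]
  refine forall₂_congr fun z hz => ?_
  rw [Scheme.ord_mul h.1 hf, h.2 z hz, add_comm]
  simp [hf]

theorem LocEq.mul {D D' : W.X → ℤ} {τ τ' : W.FnField} {y : W.X} (h : LocEq D τ y)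
    (h' : LocEq D' τ' y) : LocEq (D + D') (τ * τ') y :=
  ⟨mul_ne_zero h.1 h'.1, fun z hz => by
    rw [Scheme.ord_mul h.1 h'.1, h.2 z hz, h'.2 z hz, Pi.add_apply]⟩

theorem LocEq.pow {D : W.X → ℤ} {τ : W.FnField} {y : W.X} (h : LocEq D τ y) (m : ℕ) :
    LocEq (m • D) (τ ^ m) y :=
  ⟨pow_ne_zero _ h.1, fun z hz => by rw [ord_pow, h.2 z hz]; simp⟩

theorem LocEq.inv {D : W.X → ℤ} {τ : W.FnField} {y : W.X} (h : LocEq D τ y) :
    LocEq (-D) τ⁻¹ y :=
  ⟨inv_ne_zero h.1, fun z hz => by rw [ord_inv, h.2 z hz]; simp⟩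

theorem locEq_zero_iff {τ : W.FnField} {y : W.X} :
    LocEq (0 : W.X → ℤ) τ y ↔ τ ∈ loc y ∧ τ ∉ van y := by
  constructor
  · intro h
    have h1 : τ ∈ loc y := mem_loc_iff.2 fun z hz => (h.2 z hz).ge
    have h2 : τ⁻¹ ∈ loc y := mem_loc_iff.2 fun z hz => by rw [ord_inv, h.2 z hz]; simp
    refine ⟨h1, fun hv => one_notMem_van y ?_⟩
    have := mul_mem_van h2 hv
    rwa [inv_mul_cancel₀ h.1] at this
  · rintro ⟨h1, h2⟩
    exact ⟨ne_zero_of_notMem_van h2, fun z hz => ord_eq_zero_of_notMem_van hz h1 h2⟩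

theorem LocEq.div {D : W.X → ℤ} {τ τ' : W.FnField} {y : W.X} (h : LocEq D τ y)
    (h' : LocEq D τ' y) : τ / τ' ∈ loc y ∧ τ / τ' ∉ van y := by
  have h1 := h.mul h'.inv
  rw [add_neg_cancel, ← div_eq_mul_inv] at h1
  exact locEq_zero_iff.1 h1

theorem IsWD.nsmul {D : W.X → ℤ} (hD : IsWD D) (m : ℕ) : IsWD (m • D) where
  codim z hz := hD.codim z fun h => hz (by simp [h])
  fin := hD.fin.subset fun z hz h => hz (by simp [h])

open Classical in
/-- a prime divisor as a divisor -/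
def dl (ξ : W.X) : W.X → ℤ := fun z => if z = ξ then 1 else 0

theorem dl_self (ξ : W.X) : dl ξ ξ = 1 := if_pos rfl

theorem dl_ne {ξ z : W.X} (h : z ≠ ξ) : dl ξ z = 0 := if_neg h

theorem dl_nonneg (ξ : W.X) : 0 ≤ dl ξ := fun z => by
  by_cases h : z = ξ
  · rw [h, dl_self]; exact zero_le_one
  · rw [dl_ne h]; exact le_rfl

theorem isWD_dl {ξ : W.X} (hξ : coheight ξ = 1) : IsWD (dl ξ) where
  codim z hz := by
    by_cases h : z = ξ
    · rw [h]; exact hξ
    · exact (hz (dl_ne h)).elim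
  fin := (Set.finite_singleton ξ).subset fun z hz => by
    by_contra h
    exact hz (dl_ne h)

theorem mem_sO_sub {D : W.X → ℤ} {ξ : W.X} (hξ : coheight ξ = 1) {t : W.FnField}
    (ht : LocEq D t ξ) {y : W.X} {h : W.FnField} (hh : h ∈ sO D y)
    (hv : ξ ⤳ y → t * h ∈ van ξ) : h ∈ sO (D - dl ξ) y := by
  intro z hz
  by_cases h0 : h = 0
  · exact Or.inl h0
  right
  by_cases hzξ : z = ξ
  · subst hzξ
    have h1 := ord_pos_of_mem_van hξ (mul_ne_zero ht.1 h0) (hv hz)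
    rw [Scheme.ord_mul ht.1 h0, ht.2 z specializes_rfl] at h1
    rw [Pi.sub_apply, dl_self]
    omega
  · rw [Pi.sub_apply, dl_ne hzξ, sub_zero]
    exact (hh z hz).resolve_left h0

theorem van_of_mem_sO_sub {D : W.X → ℤ} {ξ : W.X} {τ : W.FnField} {y : W.X} (hτ : LocEq D τ y)
    (hy : ξ ⤳ y) {h : W.FnField} (hh : h ∈ sO (D - dl ξ) y) : τ * h ∈ van y := by
  have h1 : τ * h ∈ loc y := hτ.mem_iff.1 (sO_mono (sub_le_self _ (dl_nonneg ξ)) y hh)
  by_cases h0 : h = 0
  · rw [h0, mul_zero]; exact zero_mem_van y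
  by_contra hcon
  have h2 := ord_eq_zero_of_notMem_van hy h1 hcon
  have h3 := (hh ξ hy).resolve_left h0
  rw [Scheme.ord_mul hτ.1 h0, hτ.2 ξ hy] at h2
  rw [Pi.sub_apply, dl_self] at h3
  omega

/-! ### Cousin data -/

/-- Cousin data for `O(D)` -/
def Cous (D : W.X → ℤ) : Submodule k (W.X → W.FnField) where
  carrier := {φ | ∀ x, ∀ᶠ y in 𝓝 x, φ y - φ x ∈ sO D y}
  add_mem' := by
    intro φ ψ hφ hψ x
    filter_upwards [hφ x, hψ x] with y h1 h2
    have := add_mem h1 h2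
    convert this using 1
    simp only [Pi.add_apply]
    ring
  zero_mem' := fun x => Eventually.of_forall fun y => by simp
  smul_mem' := by
    intro c φ hφ x
    filter_upwards [hφ x] with y h1
    have := Submodule.smul_mem _ c h1
    convert this using 1
    simp only [Pi.smul_apply, smul_sub]

theorem mem_Cous {D : W.X → ℤ} {φ : W.X → W.FnField} :
    φ ∈ Cous D ↔ ∀ x, ∀ᶠ y in 𝓝 x, φ y - φ x ∈ sO D y := Iff.rfl

/-- trivial Cousin data -/
def Bd (D : W.X → ℤ) : Submodule k (W.X → W.FnField) where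
  carrier := {φ | ∃ f, ∀ y, φ y - f ∈ sO D y}
  add_mem' := by
    rintro φ ψ ⟨f, hf⟩ ⟨g, hg⟩
    refine ⟨f + g, fun y => ?_⟩
    have := add_mem (hf y) (hg y)
    convert this using 1
    simp only [Pi.add_apply]
    ring
  zero_mem' := ⟨0, fun y => by simp⟩
  smul_mem' := by
    rintro c φ ⟨f, hf⟩
    refine ⟨c • f, fun y => ?_⟩
    have := Submodule.smul_mem _ c (hf y)
    convert this using 1
    simp only [Pi.smul_apply, smul_sub]

theorem mem_Bd {D : W.X → ℤ} {φ : W.X → W.FnField} :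
    φ ∈ Bd D ↔ ∃ f, ∀ y, φ y - f ∈ sO D y := Iff.rfl

theorem Cous_mono {D D' : W.X → ℤ} (h : D ≤ D') : Cous D ≤ Cous D' := fun _ hφ x =>
  (hφ x).mono fun y hy => sO_mono h y hy

theorem Bd_mono {D D' : W.X → ℤ} (h : D ≤ D') : Bd D ≤ Bd D' := fun _ ⟨f, hf⟩ =>
  ⟨f, fun y => sO_mono h y (hf y)⟩

theorem Bd_le {D : W.X → ℤ} (hD : IsWD D) : Bd D ≤ Cous D := by
  rintro φ ⟨f, hf⟩ x
  filter_upwards [sO_nhds hD (hf x)] with y hy
  have := sub_mem (hf y) hy
  convert this using 1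
  ring

theorem Cous.sub_mem {D : W.X → ℤ} {φ : W.X → W.FnField} (hφ : φ ∈ Cous D) {y z : W.X}
    (h : z ⤳ y) : φ y - φ z ∈ sO D z := by
  have h1 : φ z - φ y ∈ sO D z := of_spec (P := fun w => φ w - φ y ∈ sO D w) h (hφ y)
  have := neg_mem h1
  rwa [neg_sub] at this

/-- **lowering by a prime divisor** -/
theorem cous_sub {D : W.X → ℤ} (hD : IsWD D) {ξ : W.X} (hξ : coheight ξ = 1) {t : W.FnField}
    (ht : LocEq D t ξ) {φ e : W.X → W.FnField} (hφ : φ ∈ Cous D) (he : ∀ y, e y ∈ sO D y)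
    (b : W.FnField) (hb : ∀ y, ξ ⤳ y → t * (φ y - e y - b) ∈ van ξ) :
    φ - e ∈ Cous (D - dl ξ) := by
  intro x
  have hx : ∀ᶠ y in 𝓝 x, ξ ⤳ y → ξ ⤳ x := by
    by_cases h : ξ ⤳ x
    · exact Eventually.of_forall fun _ _ => h
    · filter_upwards [ev_avoid (Set.finite_singleton ξ) (x := x) (by simpa using h)] with y hy h'
      exact (hy ξ rfl h').elim
  filter_upwards [hφ x, sO_nhds hD (he x), hx] with y h1 h2 h3
  refine mem_sO_sub hξ ht ?_ fun hy => ?_
  · have := add_mem (sub_mem h1 (he y)) h2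
    convert this using 1
    simp only [Pi.sub_apply]
    ring
  · have h4 := add_mem_van (hb y hy) (mul_mem_van (neg_mem (one_mem _)) (hb x (h3 hy)))
    convert h4 using 1
    simp only [Pi.sub_apply]
    ring

end

end Crest.Agent.N265.Br
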