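import Mathlib
import Crest.Agent.N265.Br.Cous
import Crest.Agent.R013.PicD_398

/-!
# Row 265, bridge, part 4 (helper42): adding one prime divisor

`ξ` a prime divisor whose residue field `K` is a function field of one variable.

* `Adm D t Ev` : the divisor `Ev` of `K` is small enough for `O(D)|_ξ`;
* `step_surj`, `step_fin` : `H¹(D - ξ) → H¹(D)` is onto if `deg Ev` is large, and always has finite
  dimensional cokernel;
* `step_gen` : local generators;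
* `exists_adm` : admissible divisors for `B + m Z`.
-/

set_option autoImplicit false
set_option linter.unusedSectionVars false

open AlgebraicGeometry CategoryTheory Order TopologicalSpace Topology Filter WithZero
open Crest.AlgGeometry.Prelude
open Crest.Agent.R274.Br179
open Crest.Agent.R013.RR7_948 Crest.Agent.R013.RR8_948 Crest.Agent.R013.RR9_948
open Crest.Agent.R013.RR11_948 Crest.Agent.R013.RR12_948

namespace Crest.Agent.N265.Br

universe u

noncomputable section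

section FF

variable {k : Type u} [Field k] [IsAlgClosed k] {K : Type u} [Field K] [Algebra k K]
  [Algebra (RatFunc k) K] [IsScalarTower k (RatFunc k) K] [FiniteDimensional (RatFunc k) K]
  [Algebra.IsSeparable (RatFunc k) K]

theorem approx {Ev : Pl k K →₀ ℤ} (hE : degD (canD k K) < degD Ev) {α : Pl k K → K}
    (hα : {Q : Pl k K | ¬ Q.v (α Q) ≤ 1}.Finite) : ∃ a, ∀ Q, Q.v (α Q - a) ≤ exp (Ev Q) := by
  classical
  obtain ⟨f, h1, h2⟩ := approx_div hE (hα.toFinset ∪ Ev.support) α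
  refine ⟨f, fun Q => ?_⟩
  by_cases hQ : Q ∈ hα.toFinset ∪ Ev.support
  · rw [Valuation.map_sub_swap]; exact h1 Q hQ
  · have h3 := h2 Q hQ
    rw [Finset.mem_union, not_or, Set.Finite.mem_toFinset, Finsupp.notMem_support_iff] at hQ
    rw [hQ.2, exp_zero] at h3 ⊢
    exact Valuation.map_sub_le _ (not_not.1 hQ.1) h3

theorem ball_fd (P : Pl k K) (a : ℤ) (m : ℕ) :
    ∃ W₀ : Submodule k K, FiniteDimensional k W₀ ∧ ball P (a + m) ≤ ball P a ⊔ W₀ := by
  induction m with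
  | zero => exact ⟨⊥, inferInstance, by simp⟩
  | succ m ih =>
    obtain ⟨W₀, hW, h⟩ := ih
    obtain ⟨t, ht0, ht⟩ := exists_v_eq P (a + (m + 1 : ℕ))
    refine ⟨W₀ ⊔ Submodule.span k {t}, inferInstance, fun f hf => ?_⟩
    rw [mem_ball] at hf
    have h1 : P.v (f / t) ≤ 1 := by
      rw [map_div₀, ht]; exact div_le_one_of_le₀ hf zero_le
    obtain ⟨c, hc⟩ := Crest.Agent.R013.CE1_280.exists_residue P h1
    have h2 : f - c • t ∈ ball P (a + m) := by
      rw [mem_ball]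
      have h3 : f - c • t = (f / t - algebraMap k K c) * t := by
        rw [Algebra.smul_def]; field_simp
      rw [h3, map_mul, ht]
      by_cases h0 : f / t - algebraMap k K c = 0
      · rw [h0]; simp
      rw [v_eq (k := k) h0] at hc ⊢
      rw [← exp_zero, exp_lt_exp] at hc
      rw [← exp_add, exp_le_exp]
      push_cast
      omega
    have h4 : f = (f - c • t) + c • t := by ring
    rw [h4, ← sup_assoc]
    exact add_mem (Submodule.mem_sup_left (h h2))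
      (Submodule.mem_sup_right (Submodule.smul_mem _ _ (Submodule.mem_span_singleton_self t)))

theorem exists_deg_gt (c : ℤ) (EB EZ : Pl k K →₀ ℤ) (h0 : 0 ≤ EZ) {Q : Pl k K} (hQ : 0 < EZ Q) :
    ∃ m₀ : ℕ, ∀ m ≥ m₀, c < degD (EB + m • EZ) := by
  have h1 : 1 ≤ degD EZ := by
    have h2 : 0 ≤ EZ - Finsupp.single Q 1 := by
      intro P
      by_cases hP : Q = P
      · subst hP; simp; omega
      · simpa [Finsupp.single_apply, hP] using h0 P
    have h3 := Crest.Agent.R013.PicD_398.degD_nonneg h2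
    rw [degD_sub, degD_single] at h3
    have := degP_pos Q
    omega
  have h2 : ∀ m : ℕ, degD (m • EZ) = m * degD EZ := by
    intro m
    induction m with
    | zero => simp [degD_zero]
    | succ m ih => rw [succ_nsmul, degD_add, ih]; push_cast; ring
  refine ⟨(c - degD EB).toNat + 1, fun m hm => ?_⟩
  rw [degD_add, h2]
  have h3 : (c - degD EB) < m := by omega
  nlinarith

end FF

variable {k : Type u} [Field k] [IsAlgClosed k] [CharZero k] {n : ℕ} {V : SmPr k n} {ξ : V.X}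
  [Algebra (RatFunc k) (V.ResField ξ)] [IsScalarTower k (RatFunc k) (V.ResField ξ)]
  [FiniteDimensional (RatFunc k) (V.ResField ξ)] [Algebra.IsSeparable (RatFunc k) (V.ResField ξ)]

local notation "𝐖" => SmPr.toIntegralKScheme V

open Classical in
/-- the centre of a place -/
def ctr (Q : Pl k (V.ResField ξ)) : V.X := if h : ∃ y, Cen (W := 𝐖) Q y then h.choose else ξ

theorem ctr_eq {Q : Pl k (V.ResField ξ)} {y : V.X} (h : Cen (W := 𝐖) Q y) : ctr Q = y := by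
  have h1 : ∃ y, Cen (W := 𝐖) Q y := ⟨y, h⟩
  rw [ctr, dif_pos h1]
  exact cen_unique h1.choose_spec h

theorem ctr_cases (Q : Pl k (V.ResField ξ)) : Cen (W := 𝐖) Q (ctr Q) ∨ ctr Q = ξ := by
  by_cases h : ∃ y, Cen (W := 𝐖) Q y
  · left
    rw [ctr_eq h.choose_spec]
    exact h.choose_spec
  · right
    rw [ctr, dif_neg h]

theorem ctr_spec (Q : Pl k (V.ResField ξ)) : ξ ⤳ ctr Q := by
  rcases ctr_cases Q with h | h
  · exact h.1
  · rw [h]

/-- admissible divisors on the curve -/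
def Adm (D : V.X → ℤ) (t : V.FnField) (Ev : Pl k (V.ResField ξ) →₀ ℤ) : Prop :=
  ∀ y, ξ ⤳ y → ∀ a : V.ResField ξ, (∀ Q, Cen (W := 𝐖) Q y → Q.v a ≤ exp (Ev Q)) →
    ∃ e ∈ sO (W := 𝐖) D y, E (W := 𝐖) ξ (t * e) = a

theorem Adm.transport {D : V.X → ℤ} {t : V.FnField} {Ev : Pl k (V.ResField ξ) →₀ ℤ}
    (h : Adm D t Ev) {g : V.FnField} (hg : g ≠ 0) {D' : V.X → ℤ}
    (hD' : ∀ z, D' z + Scheme.ord (X := V.X) g z = D z) : Adm D' (t * g⁻¹) Ev := by
  intro y hy a ha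
  obtain ⟨e, he, hea⟩ := h y hy a ha
  refine ⟨e * g, (mem_secD_mul hg).2 ?_, ?_⟩
  · rwa [show (fun z => D' z + Scheme.ord (X := V.X) g z) = D from funext hD']
  · rw [← hea]
    congr 1
    field_simp

/-- restriction of Cousin data to the curve -/
def Phi {D : V.X → ℤ} {t : V.FnField} (ht : LocEq (W := 𝐖) D t ξ) :
    Cous (W := 𝐖) D →ₗ[k] (Pl k (V.ResField ξ) → V.ResField ξ) where
  toFun φ Q := E (W := 𝐖) ξ (t * (φ.1 (ctr Q) - φ.1 ξ))
  map_add' φ ψ := by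
    funext Q
    rw [Pi.add_apply, ← E_add (ht.mem_iff.1 (Cous.sub_mem φ.2 (ctr_spec Q)))
      (ht.mem_iff.1 (Cous.sub_mem ψ.2 (ctr_spec Q)))]
    congr 1
    simp only [Submodule.coe_add, Pi.add_apply]
    ring
  map_smul' c φ := by
    funext Q
    rw [Pi.smul_apply, RingHom.id_apply, ← E_smul c (ht.mem_iff.1 (Cous.sub_mem φ.2 (ctr_spec Q)))]
    congr 1
    simp only [Submodule.coe_smul, Pi.smul_apply, Algebra.smul_def]
    ring

theorem Phi_apply {D : V.X → ℤ} {t : V.FnField} (ht : LocEq (W := 𝐖) D t ξ)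
    (φ : Cous (W := 𝐖) D) (Q : Pl k (V.ResField ξ)) :
    Phi ht φ Q = E (W := 𝐖) ξ (t * (φ.1 (ctr Q) - φ.1 ξ)) := rfl

theorem fin_le_one (a : V.ResField ξ) : {Q : Pl k (V.ResField ξ) | ¬ Q.v a ≤ 1}.Finite := by
  by_cases h : a = 0
  · simp [h]
  · exact (finite_ne_one (k := k) h).subset fun Q hQ h' => hQ h'.le

theorem phi_fin {D : V.X → ℤ} (hD : IsWD (V := 𝐖) D) {t : V.FnField}
    (ht : LocEq (W := 𝐖) D t ξ) (φ : Cous (W := 𝐖) D) :
    {Q : Pl k (V.ResField ξ) | ¬ Q.v (Phi ht φ Q) ≤ 1}.Finite := by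
  obtain ⟨T, hT, hTy⟩ := exists_finite_of_local
    (fun (y : V.X) (d : V.FnField × V.FnField) =>
      LocEq (W := 𝐖) D d.1 y ∧ φ.1 y - d.2 ∈ sO (W := 𝐖) D y) (fun x => by
    obtain ⟨τ, hτ⟩ := exists_locEq hD x
    exact ⟨(τ, φ.1 x), (hτ.nhds hD).and (φ.2 x)⟩)
  refine ((hT.biUnion fun d _ => fin_le_one (E (W := 𝐖) ξ (t / d.1))).union
    (hT.biUnion fun d _ => fin_le_one (E (W := 𝐖) ξ (t * (d.2 - φ.1 ξ))))).subset fun Q hQ => ?_
  by_contra hcon
  simp only [Set.mem_union, Set.mem_iUnion, Set.mem_ofPred_eq, not_or, not_exists, not_not] at hcon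
  apply hQ
  rcases ctr_cases Q with hc | hc
  · obtain ⟨d, hd, hτ, hd2⟩ := hTy (ctr Q)
    have h1 : d.1 * (φ.1 (ctr Q) - d.2) ∈ loc (ctr Q) := hτ.mem_iff.1 hd2
    have h2 := (ht.div (hτ.spec hc.1)).1
    have h3 : t * (d.2 - φ.1 ξ) ∈ loc ξ := by
      refine ht.mem_iff.1 ?_
      have := sub_mem (Cous.sub_mem φ.2 hc.1) (sO_spec hc.1 hd2)
      convert this using 1
      ring
    have h4 : t * (φ.1 (ctr Q) - φ.1 ξ) =
        t / d.1 * (d.1 * (φ.1 (ctr Q) - d.2)) + t * (d.2 - φ.1 ξ) := by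
      have := hτ.1
      field_simp
      ring
    rw [Phi_apply, h4, E_add (mul_mem h2 (loc_le hc.1 h1)) h3, E_mul h2 (loc_le hc.1 h1)]
    refine Valuation.map_add_le _ ?_ (hcon.2 d hd)
    rw [map_mul]
    exact mul_le_one' (hcon.1 d hd) (hc.2.2 _ h1)
  · rw [Phi_apply, hc, sub_self, mul_zero, E_zero, map_zero]
    exact zero_le

theorem step_core {D : V.X → ℤ} (hD : IsWD (V := 𝐖) D) (hξ : coheight ξ = 1) {t : V.FnField}
    (ht : LocEq (W := 𝐖) D t ξ) {Ev : Pl k (V.ResField ξ) →₀ ℤ} (hA : Adm D t Ev)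
    (φ : Cous (W := 𝐖) D) (a : V.ResField ξ) (h : ∀ Q, Q.v (Phi ht φ Q - a) ≤ exp (Ev Q)) :
    φ.1 ∈ Cous (W := 𝐖) (D - dl ξ) ⊔ Bd D := by
  obtain ⟨a', ha', haa⟩ := exists_E (W := 𝐖) a
  have key : ∀ y, ∃ e ∈ sO (W := 𝐖) D y,
      ξ ⤳ y → t * (φ.1 y - e - (φ.1 ξ + t⁻¹ * a')) ∈ van ξ := by
    intro y
    by_cases hy : ξ ⤳ y
    · obtain ⟨e, he, hea⟩ := hA y hy (E (W := 𝐖) ξ (t * (φ.1 y - φ.1 ξ)) - a) fun Q hQ => by
        have := h Q
        rwa [Phi_apply, ctr_eq hQ] at this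
      refine ⟨e, he, fun _ => ?_⟩
      have h1 : t * (φ.1 y - φ.1 ξ) ∈ loc ξ := ht.mem_iff.1 (Cous.sub_mem φ.2 hy)
      have h2 : t * e ∈ loc ξ := ht.mem_iff.1 (sO_spec hy he)
      have h3 : t * (φ.1 y - e - (φ.1 ξ + t⁻¹ * a')) = t * (φ.1 y - φ.1 ξ) - a' - t * e := by
        have := ht.1
        field_simp
        ring
      rw [h3, ← E_eq_zero (sub_mem (sub_mem h1 ha') h2), E_sub (sub_mem h1 ha') h2, E_sub h1 ha',
        hea, haa, sub_self]
    · exact ⟨0, zero_mem _, fun h => (hy h).elim⟩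
  choose e he hb using key
  have h1 := cous_sub hD hξ ht φ.2 he _ hb
  have h2 : φ.1 = (φ.1 - e) + e := by ring
  rw [h2]
  exact add_mem (Submodule.mem_sup_left h1)
    (Submodule.mem_sup_right ⟨0, fun y => by simpa using he y⟩)

theorem step_surj {D : V.X → ℤ} (hD : IsWD (V := 𝐖) D) (hξ : coheight ξ = 1) {t : V.FnField}
    (ht : LocEq (W := 𝐖) D t ξ) {Ev : Pl k (V.ResField ξ) →₀ ℤ} (hA : Adm D t Ev)
    (hE : degD (canD k (V.ResField ξ)) < degD Ev) :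
    Cous (W := 𝐖) D ≤ Cous (D - dl ξ) ⊔ Bd D := by
  intro φ hφ
  obtain ⟨a, ha⟩ := approx hE (phi_fin hD ht ⟨φ, hφ⟩)
  exact step_core hD hξ ht hA ⟨φ, hφ⟩ a ha

theorem step_fin {D : V.X → ℤ} (hD : IsWD (V := 𝐖) D) (hξ : coheight ξ = 1) {t : V.FnField}
    (ht : LocEq (W := 𝐖) D t ξ) {Ev : Pl k (V.ResField ξ) →₀ ℤ} (hA : Adm D t Ev) :
    ∃ M : Submodule k (V.X → V.FnField), FiniteDimensional k M ∧
      Cous (W := 𝐖) D ≤ (Cous (D - dl ξ) ⊔ Bd D) ⊔ M := by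
  classical
  let N : Submodule k (Pl k (V.ResField ξ) → V.ResField ξ) :=
    { carrier := {α | ∃ a, ∀ Q, α Q - a ∈ ball Q (Ev Q)}
      add_mem' := by
        rintro α β ⟨a, ha⟩ ⟨b, hb⟩
        refine ⟨a + b, fun Q => ?_⟩
        have := add_mem (ha Q) (hb Q)
        convert this using 1
        simp only [Pi.add_apply]
        ring
      zero_mem' := ⟨0, fun Q => by simp⟩
      smul_mem' := by
        rintro c α ⟨a, ha⟩
        refine ⟨c • a, fun Q => ?_⟩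
        have := Submodule.smul_mem _ c (ha Q)
        convert this using 1
        simp only [Pi.smul_apply, smul_sub] }
  obtain ⟨P₀, -⟩ := exists_notMem (∅ : Finset (Pl k (V.ResField ξ)))
  obtain ⟨m, hm⟩ := exists_deg_gt (degD (canD k (V.ResField ξ))) Ev (Finsupp.single P₀ 1)
    (Finsupp.single_nonneg.2 zero_le_one) (Q := P₀) (by simp)
  obtain ⟨W₀, hW₀, hW⟩ := ball_fd P₀ (Ev P₀) m
  obtain ⟨M, hM, hMM⟩ := exists_fd_pull (Phi ht) N
    (W₀.map (LinearMap.single k (fun _ => V.ResField ξ) P₀)) fun φ => by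
    obtain ⟨a, ha⟩ := approx (hm m le_rfl) (phi_fin hD ht φ)
    have h1 : Phi ht φ P₀ - a ∈ ball P₀ (Ev P₀ + m) := by
      rw [mem_ball]; simpa using ha P₀
    obtain ⟨b, hb, w, hw, hbw⟩ := Submodule.mem_sup.1 (hW h1)
    have h2 : Phi ht φ = (Phi ht φ - Pi.single P₀ w) + Pi.single P₀ w := by ring
    rw [h2]
    refine add_mem (Submodule.mem_sup_left ⟨a, fun Q => ?_⟩) (Submodule.mem_sup_right ⟨w, hw, rfl⟩)
    by_cases hQ : Q = P₀
    · subst hQ
      rw [Pi.sub_apply, Pi.single_eq_same, sub_right_comm, ← hbw, add_sub_cancel_right]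
      exact hb
    · rw [Pi.sub_apply, Pi.single_eq_of_ne hQ, sub_zero, mem_ball]
      simpa [Finsupp.single_apply, Ne.symm hQ] using ha Q
  refine ⟨M.map (Cous (W := 𝐖) D).subtype, inferInstance, fun φ hφ => ?_⟩
  have h1 : (⟨φ, hφ⟩ : Cous (W := 𝐖) D) ∈ N.comap (Phi ht) ⊔ M := by rw [hMM]; trivial
  obtain ⟨ψ, ⟨a, ha⟩, w, hw, hψw⟩ := Submodule.mem_sup.1 h1
  have h2 : φ = ψ.1 + w.1 := (congrArg Subtype.val hψw).symm
  rw [h2]
  exact add_mem (Submodule.mem_sup_left (step_core hD hξ ht hA ψ a fun Q => mem_ball.1 (ha Q)))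
    (Submodule.mem_sup_right ⟨w, hw, rfl⟩)

theorem step_gen (hξ : coheight ξ = 1) {y₀ : V.X} (hy₀ : ξ ⤳ y₀) (hne : y₀ ≠ ξ) :
    ∃ c : ℤ, ∀ (D : V.X → ℤ) (t : V.FnField) (Ev : Pl k (V.ResField ξ) →₀ ℤ),
      IsWD (V := 𝐖) D → LocEq (W := 𝐖) D t ξ → Adm D t Ev → c < degD Ev →
      ∃ φ ∈ Cous (W := 𝐖) (D - dl ξ), (∀ y, φ y ∈ sO (W := 𝐖) D y) ∧
        LocEq (W := 𝐖) (-D) (φ y₀) y₀ := by
  classical
  obtain ⟨m, hm, hmξ⟩ := exists_van hy₀ hne
  have hm1 := van_subset_loc y₀ hm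
  have hm2 := loc_le hy₀ hm1
  have hm0 : E (W := 𝐖) ξ m ≠ 0 := fun h => hmξ ((E_eq_zero hm2).1 h)
  let M : Pl k (V.ResField ξ) →₀ ℤ :=
    (divf (k := k) (E (W := 𝐖) ξ m)).filter fun Q => Cen (W := 𝐖) Q y₀
  refine ⟨degD (canD k (V.ResField ξ)) + degD M, fun D t Ev hD ht hA hc => ?_⟩
  have hS : {Q : Pl k (V.ResField ξ) | Cen (W := 𝐖) Q y₀}.Finite :=
    (finite_ne_one (k := k) hm0).subset fun Q hQ => (Cen.lt hQ hm).ne
  obtain ⟨τ, hτ⟩ := exists_locEq hD y₀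
  obtain ⟨a, ha1, ha2⟩ := approx_div (E := Ev - M) (by rw [degD_sub]; omega) hS.toFinset
    (fun _ => E (W := 𝐖) ξ (t / τ))
  have hu := (ht.div (hτ.spec hy₀)).1
  obtain ⟨a', ha', haa⟩ := exists_E (W := 𝐖) a
  have key : ∀ y, ∃ e ∈ sO (W := 𝐖) D y, (ξ ⤳ y → E (W := 𝐖) ξ (t * e) = a) ∧
      (y = y₀ → LocEq (W := 𝐖) (-D) e y₀) := by
    intro y
    by_cases hyy : y = y₀
    · subst hyy
      obtain ⟨e, he, hea⟩ := hA y hy₀ ((a - E (W := 𝐖) ξ (t / τ)) / E (W := 𝐖) ξ m) fun Q hQ => by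
        have h1 := ha1 Q (hS.mem_toFinset.2 hQ)
        have hM : M Q = divf (k := k) (E (W := 𝐖) ξ m) Q :=
          Finsupp.filter_apply_pos (fun Q => Cen (W := 𝐖) Q y) _ hQ
        rw [Finsupp.sub_apply, hM, sub_eq_add_neg (Ev Q), exp_add, ← v_eq hm0] at h1
        rw [map_div₀]
        exact div_le_of_le_mul₀ zero_le zero_le h1
      have h1 : τ * e ∈ loc y := hτ.mem_iff.1 he
      have h2 : τ * (τ⁻¹ + m * e) = 1 + m * (τ * e) := by
        have := hτ.1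
        field_simp
      have h3 : τ * (τ⁻¹ + m * e) ∈ loc y := by
        rw [h2]; exact add_mem (one_mem _) (mul_mem hm1 h1)
      refine ⟨τ⁻¹ + m * e, hτ.mem_iff.2 h3, fun _ => ?_, fun _ => ?_⟩
      · have h4 : t * e ∈ loc ξ := ht.mem_iff.1 (sO_spec hy₀ he)
        rw [show t * (τ⁻¹ + m * e) = t / τ + m * (t * e) by ring, E_add hu (mul_mem hm2 h4),
          E_mul hm2 h4, hea]
        field_simp
        ring
      · have h4 : τ * (τ⁻¹ + m * e) ∉ van y := by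
          rw [h2]
          intro h5
          have h6 := add_mem_van h5 (mul_mem_van (neg_mem h1) hm)
          apply one_notMem_van y
          convert h6 using 1
          ring
        have h5 := (locEq_zero_iff.2 ⟨h3, h4⟩).mul hτ.inv
        rw [zero_add, mul_comm, ← mul_assoc, inv_mul_cancel₀ hτ.1, one_mul] at h5
        exact h5
    · by_cases hy : ξ ⤳ y
      · obtain ⟨e, he, hea⟩ := hA y hy a fun Q hQ => by
          have h1 : ¬ Cen (W := 𝐖) Q y₀ := fun h => hyy (cen_unique hQ h)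
          have h2 := ha2 Q fun h => h1 (hS.mem_toFinset.1 h)
          have hM : M Q = 0 := Finsupp.filter_apply_neg (fun Q => Cen (W := 𝐖) Q y₀) _ h1
          rwa [Finsupp.sub_apply, hM, sub_zero] at h2
        exact ⟨e, he, fun _ => hea, fun h => (hyy h).elim⟩
      · exact ⟨0, zero_mem _, fun h => (hy h).elim, fun h => (hyy h).elim⟩
  choose e he h1 h2 using key
  have h3 := cous_sub hD hξ ht (zero_mem _) (e := -e) (fun y => neg_mem (he y)) (t⁻¹ * a')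
    fun y hy => by
      have h4 : t * e y ∈ loc ξ := ht.mem_iff.1 (sO_spec hy (he y))
      have h5 : t * ((0 : V.X → V.FnField) y - (-e) y - t⁻¹ * a') = t * e y - a' := by
        have := ht.1
        simp only [Pi.zero_apply, Pi.neg_apply]
        field_simp
        ring
      rw [h5, ← E_eq_zero (sub_mem h4 ha'), E_sub h4 ha', h1 y hy, haa, sub_self]
  rw [sub_neg_eq_add, zero_add] at h3
  exact ⟨e, h3, he, h2 y₀ rfl⟩

theorem exists_adm (hξ : coheight ξ = 1) {B Z : V.X → ℤ} (hB : IsWD (V := 𝐖) B)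
    (hZ : IsWD (V := 𝐖) Z) (hZ0 : 0 ≤ Z) (hZξ : Z ξ = 0) {t : V.FnField}
    (ht : LocEq (W := 𝐖) B t ξ) :
    ∃ EB EZ : Pl k (V.ResField ξ) →₀ ℤ, 0 ≤ EZ ∧
      (∀ Q y, Cen (W := 𝐖) Q y → (∃ z, z ⤳ y ∧ 0 < Z z) → 0 < EZ Q) ∧
      ∀ m : ℕ, Adm (B + m • Z) t (EB + m • EZ) := by
  classical
  obtain ⟨T, hT, hTy⟩ := exists_finite_of_local
    (fun (y : V.X) (d : V.FnField × V.FnField × V.ResField ξ) =>
      LocEq (W := 𝐖) B d.1 y ∧ LocEq (W := 𝐖) Z d.2.1 y ∧ d.2.2 ≠ 0 ∧ ∀ h : ξ ⤳ y,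
        ∀ a : V.ResField ξ, (∀ Q : Pl k (V.ResField ξ), Cen (W := 𝐖) Q y →
          Q.v a ≤ Q.v d.2.2) → a ∈ Rg (W := 𝐖) h) (fun x => by
    obtain ⟨τ, hτ⟩ := exists_locEq hB x
    obtain ⟨ζ, hζ⟩ := exists_locEq hZ x
    obtain ⟨c, hc0, hc⟩ := conductor (ξ := ξ) x
    refine ⟨(τ, ζ, c), ?_⟩
    filter_upwards [hτ.nhds hB, hζ.nhds hZ, hc] with y h1 h2 h3
    exact ⟨h1, h2, hc0, h3⟩)
  choose d hdT hd using hTy
  let fB : V.FnField × V.FnField × V.ResField ξ → V.ResField ξ :=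
    fun p => p.2.2 * E (W := 𝐖) ξ (t / p.1)
  let fZ : V.FnField × V.FnField × V.ResField ξ → V.ResField ξ := fun p => E (W := 𝐖) ξ p.2.1
  let EB : Pl k (V.ResField ξ) →₀ ℤ := Finsupp.ofSupportFinite
    (fun Q => - divf (k := k) (fB (d (ctr Q))) Q)
    ((hT.biUnion fun p _ => (divf (k := k) (fB p)).hasFiniteSupport).subset fun Q hQ => by
      simp only [Set.mem_iUnion]
      exact ⟨_, hdT (ctr Q), fun h => hQ (by simp only [h, neg_zero])⟩)
  let EZ : Pl k (V.ResField ξ) →₀ ℤ := Finsupp.ofSupportFinite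
    (fun Q => max 0 (divf (k := k) (fZ (d (ctr Q))) Q))
    ((hT.biUnion fun p _ => (divf (k := k) (fZ p)).hasFiniteSupport).subset fun Q hQ => by
      simp only [Set.mem_iUnion]
      exact ⟨_, hdT (ctr Q), fun h => hQ (by simp only [h, max_self])⟩)
  have hEB : ∀ Q, EB Q = - divf (k := k) (fB (d (ctr Q))) Q := fun Q => rfl
  have hEZ : ∀ Q, EZ Q = max 0 (divf (k := k) (fZ (d (ctr Q))) Q) := fun Q => rfl
  have hζ : ∀ y, ξ ⤳ y → (d y).2.1 ∈ loc y ∧ (d y).2.1 ∉ van ξ := by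
    intro y hy
    have h1 := (hd y).2.1
    refine ⟨mem_loc_iff.2 fun z hz => by rw [h1.2 z hz]; exact hZ0 z, fun h => ?_⟩
    have h2 := ord_pos_of_mem_van hξ h1.1 h
    rw [h1.2 ξ hy, hZξ] at h2
    omega
  have hζ0 : ∀ y, ξ ⤳ y → fZ (d y) ≠ 0 := fun y hy h =>
    (hζ y hy).2 ((E_eq_zero (loc_le hy (hζ y hy).1)).1 h)
  refine ⟨EB, EZ, fun Q => by rw [hEZ]; exact le_max_left _ _, ?_, ?_⟩
  · rintro Q y hQ ⟨z, hz, hz0⟩
    rw [hEZ, ctr_eq hQ]
    have h1 : (d y).2.1 ∈ van y := by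
      by_contra hcon
      have h2 := ord_eq_zero_of_notMem_van hz (hζ y hQ.1).1 hcon
      rw [(hd y).2.1.2 z hz] at h2
      omega
    have h2 : Q.v (fZ (d y)) < 1 := hQ.lt h1
    rw [v_eq (k := k) (hζ0 y hQ.1), ← exp_zero, exp_lt_exp] at h2
    exact lt_max_of_lt_right (by omega)
  · intro m y hy a ha
    obtain ⟨hτ, hζ', hc0, hc⟩ := hd y
    have hu := ht.div (hτ.spec hy)
    have hu0 : E (W := 𝐖) ξ (t / (d y).1) ≠ 0 := fun h => hu.2 ((E_eq_zero hu.1).1 h)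
    obtain ⟨f, hf, hfa⟩ := mem_Rg.1 (hc hy (a * fZ (d y) ^ m / E (W := 𝐖) ξ (t / (d y).1))
      fun Q hQ => by
        have h1 := ha Q hQ
        have h2 : Q.v (fZ (d y)) ≤ 1 := hQ.2.2 _ (hζ y hy).1
        rw [v_eq (k := k) (hζ0 y hy), ← exp_zero, exp_le_exp] at h2
        rw [Finsupp.add_apply, Finsupp.smul_apply, hEB, hEZ, ctr_eq hQ,
          max_eq_right (by omega), exp_add, ← v_eq (mul_ne_zero hc0 hu0), map_mul] at h1
        rw [map_div₀, map_mul, map_pow, v_eq (k := k) (hζ0 y hy), ← exp_nsmul]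
        refine div_le_of_le_mul₀ zero_le zero_le ?_
        refine (mul_le_mul_left h1 _).trans (le_of_eq ?_)
        rw [mul_assoc, ← exp_add]
        simp)
    have hl := hτ.mul (hζ'.pow m)
    refine ⟨((d y).1 * (d y).2.1 ^ m)⁻¹ * f, hl.mem_iff.2 ?_, ?_⟩
    · rwa [← mul_assoc, mul_inv_cancel₀ hl.1, one_mul]
    · have h1 := loc_le hy (hζ y hy).1
      have h2 := inv_mem_loc h1 (hζ y hy).2
      rw [show t * (((d y).1 * (d y).2.1 ^ m)⁻¹ * f) =
        t / (d y).1 * (f * ((d y).2.1)⁻¹ ^ m) by rw [mul_inv, inv_pow]; ring,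
        E_mul hu.1 (mul_mem (loc_le hy hf) (pow_mem h2 m)), E_mul (loc_le hy hf) (pow_mem h2 m),
        E_pow h2, E_inv h1 (hζ y hy).2, hfa]
      have h3 := hζ0 y hy
      simp only [fZ] at h3 ⊢
      rw [inv_pow]
      field_simp

end

end Crest.Agent.N265.Br
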