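import Mathlib
import Crest.Agent.N265.Br.Step

/-!
# Row 265, bridge, part 5 (helper42): the complement of an affine open set is semiample

`V` a smooth proper surface with `H¹(O) = 0` (in the form `Cous 0 ≤ Bd 0`).

* `Pol V U`  : a divisor `D = cnt l` with support the complement of `U` and a moving function `g`;
* `ladder`   : every point is a non base point of some multiple of `D`.
-/

set_option autoImplicit false
set_option linter.unusedSectionVars false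

open AlgebraicGeometry CategoryTheory Order TopologicalSpace Topology Filter WithZero
open Crest.AlgGeometry.Prelude
open Crest.Agent.R274.Br179
open Crest.Agent.R013.RR7_948 Crest.Agent.R013.RR8_948 Crest.Agent.R013.RR9_948
open Crest.Agent.R013.RR11_948 Crest.Agent.R013.RR12_948

namespace Crest.Agent.N265.Br

universe u

noncomputable section

theorem avoid {k M : Type*} [Field k] [Infinite k] [AddCommGroup M] [Module k M]
    (A : Submodule k M) {ι : Type*} {T : Set ι} (hT : T.Finite) (B : ι → Submodule k M)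
    (h : ∀ i ∈ T, ∃ a ∈ A, a ∉ B i) : ∃ a ∈ A, ∀ i ∈ T, a ∉ B i := by
  have : Finite T := hT
  obtain ⟨x, hx⟩ := Submodule.exists_forall_notMem_of_forall_ne_top
    (fun i : T => (B i).comap A.subtype) fun i hi => by
      obtain ⟨a, ha, hb⟩ := h i i.2
      have : (⟨a, ha⟩ : A) ∈ (B i).comap A.subtype := by rw [hi]; trivial
      exact hb this
  exact ⟨x, x.2, fun i hi => hx ⟨i, hi⟩⟩

section Gen

variable {k : Type u} [Field k] {W : IntegralKScheme k} [LocFact W.X] [CompactSpace W.X]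

/-- functions vanishing at a point -/
def vanS (y : W.X) : Submodule k W.FnField where
  carrier := van y
  add_mem' := add_mem_van
  zero_mem' := zero_mem_van y
  smul_mem' := fun c _ hf => by
    rw [Algebra.smul_def]
    exact mul_mem_van (const_mem_loc W y c) hf

theorem exists_ord_pos {y : W.X} {s : W.FnField} (hs : s ∈ van y) (h0 : s ≠ 0) :
    ∃ z, z ⤳ y ∧ 0 < Scheme.ord (X := W.X) s z := by
  by_contra hcon
  push Not at hcon
  refine (locEq_zero_iff.1 ⟨h0, fun z hz => le_antisymm (hcon z hz) ?_⟩).2 hs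
  exact ord_nonneg_of_mem_loc hz (van_subset_loc y hs)

theorem wd_spec {D : W.X → ℤ} (hD : IsWD D) {ξ z : W.X} (hξ : coheight ξ = 1) (h : z ⤳ ξ)
    (hne : z ≠ ξ) : D z = 0 := by
  by_contra h0
  exact hne (eq_of_specializes_of_coheight h (hD.codim z h0) hξ)

theorem locEq_prime {D : W.X → ℤ} (hD : IsWD D) {ξ : W.X} (hξ : coheight ξ = 1) {t : W.FnField}
    (ht : t ≠ 0) (h : Scheme.ord (X := W.X) t ξ = D ξ) : LocEq D t ξ := by
  refine ⟨ht, fun z hz => ?_⟩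
  by_cases hne : z = ξ
  · rw [hne, h]
  · rw [wd_spec hD hξ hz hne, wd_spec (IsWD.ord ht) hξ hz hne]

theorem ord_neg_of_notMem {ξ : W.X} (hξ : coheight ξ = 1) {f : W.FnField} (hf : f ∉ loc ξ) :
    Scheme.ord (X := W.X) f ξ < 0 := by
  by_contra hcon
  apply hf
  have h0 : f ≠ 0 := fun h => hf (by rw [h]; exact zero_mem _)
  refine mem_loc_iff.2 fun z hz => ?_
  by_cases hne : z = ξ
  · rw [hne]; omega
  · exact (wd_spec (IsWD.ord h0) hξ hz hne).ge

/-- the divisor of a list of prime divisors -/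
def cnt (l : List W.X) : W.X → ℤ := (l.map dl).sum

theorem cnt_nil : cnt ([] : List W.X) = 0 := rfl

theorem cnt_cons (ξ : W.X) (l : List W.X) : cnt (ξ :: l) = cnt l + dl ξ := by
  rw [cnt, List.map_cons, List.sum_cons, add_comm]; rfl

theorem cnt_append (l l' : List W.X) : cnt (l ++ l') = cnt l + cnt l' := by
  rw [cnt, List.map_append, List.sum_append]; rfl

theorem cnt_nonneg (l : List W.X) : 0 ≤ cnt l := by
  induction l with
  | nil => exact le_rfl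
  | cons ξ l ih => rw [cnt_cons]; exact add_nonneg ih (dl_nonneg ξ)

theorem isWD_cnt {l : List W.X} (hl : ∀ ξ ∈ l, coheight ξ = 1) : IsWD (cnt l) := by
  induction l with
  | nil => exact IsWD.zero
  | cons ξ l ih =>
    rw [cnt_cons]
    exact (ih fun z hz => hl z (List.mem_cons_of_mem _ hz)).add (isWD_dl (hl ξ List.mem_cons_self))

theorem cnt_erase {l : List W.X} {ξ : W.X} (h : ξ ∈ l) :
    ∃ l' : List W.X, (∀ z ∈ l', z ∈ l) ∧ cnt l = cnt l' + dl ξ := by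
  obtain ⟨s, t, rfl⟩ := List.append_of_mem h
  refine ⟨s ++ t, fun z hz => ?_, ?_⟩
  · rcases List.mem_append.1 hz with h | h
    · exact List.mem_append_left _ h
    · exact List.mem_append_right _ (List.mem_cons_of_mem _ h)
  · rw [cnt_append, cnt_append, cnt_cons, add_assoc]

theorem exists_cnt {D : W.X → ℤ} (hD : {z | D z ≠ 0}.Finite) (h0 : 0 ≤ D) :
    ∃ l : List W.X, cnt l = D ∧ ∀ ξ ∈ l, D ξ ≠ 0 := by
  classical
  have key : ∀ (T : Finset W.X), ∃ l : List W.X,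
      (∀ z, cnt l z = if z ∈ T then D z else 0) ∧ ∀ ξ ∈ l, D ξ ≠ 0 := by
    intro T
    induction T using Finset.induction_on with
    | empty => exact ⟨[], fun z => by simp [cnt_nil], by simp⟩
    | insert a T ha ih =>
      obtain ⟨l, hl, hl'⟩ := ih
      refine ⟨l ++ List.replicate (D a).toNat a, fun z => ?_, fun ξ hξ => ?_⟩
      · have h1 : cnt (List.replicate (D a).toNat a) = (D a).toNat • dl a := by
          rw [cnt, List.map_replicate, List.sum_replicate]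
        have h2 : 0 ≤ D a := h0 a
        rw [cnt_append, Pi.add_apply, hl, h1, Pi.smul_apply]
        by_cases hz : z = a
        · subst hz
          rw [dl_self, if_neg ha, if_pos (Finset.mem_insert_self _ _)]
          simp [h2]
        · rw [dl_ne hz]
          simp [hz]
      · rcases List.mem_append.1 hξ with h | h
        · exact hl' ξ h
        · obtain ⟨h1, rfl⟩ := List.mem_replicate.1 h
          intro h2
          rw [h2] at h1
          exact h1 rfl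
  obtain ⟨l, hl, hl'⟩ := key hD.toFinset
  refine ⟨l, funext fun z => ?_, hl'⟩
  rw [hl]
  split_ifs with h
  · rfl
  · by_contra h1
    exact h (hD.mem_toFinset.2 (Ne.symm h1))

/-- `H¹(D') → H¹(D)` is onto -/
def Surj (D' D : W.X → ℤ) : Prop := Cous D ≤ Cous D' ⊔ Bd D

/-- `H¹(D)` is finite dimensional -/
def FinH (D : W.X → ℤ) : Prop :=
  ∃ M : Submodule k (W.X → W.FnField), FiniteDimensional k M ∧ Cous D ≤ Bd D ⊔ M

theorem Surj.refl (D : W.X → ℤ) : Surj D D := le_sup_left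

theorem Surj.trans {D D' D'' : W.X → ℤ} (h : Surj D'' D') (h' : Surj D' D) (hle : D' ≤ D) :
    Surj D'' D :=
  le_trans h' (sup_le (le_trans h (sup_le_sup_left (Bd_mono hle) _)) le_sup_right)

/-- `f` is a global section of `O(D)` -/
def Glob (D : W.X → ℤ) (f : W.FnField) : Prop := ∀ y, f ∈ sO D y

end Gen

variable {k : Type u} [Field k] [IsAlgClosed k] [CharZero k] {V : SmPr k 2}

local notation "𝐖" => SmPr.toIntegralKScheme V

theorem fin_step {D : V.X → ℤ} (hD : IsWD (V := 𝐖) D) {ξ : V.X} (hξ : coheight ξ = 1)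
    (h : FinH (W := 𝐖) D) : FinH (W := 𝐖) (D + dl ξ) := by
  obtain ⟨_, _, _, _⟩ := exists_ctx hξ
  have hD' := hD.add (isWD_dl hξ)
  obtain ⟨t, ht⟩ := exists_locEq hD' ξ
  obtain ⟨EB, EZ, -, -, hA⟩ := exists_adm hξ hD' IsWD.zero le_rfl rfl ht
  have hA0 := hA 0
  rw [zero_nsmul, add_zero] at hA0
  obtain ⟨M, hM, hle⟩ := step_fin hD' hξ ht hA0
  obtain ⟨M', hM', hle'⟩ := h
  rw [add_sub_cancel_right] at hle
  refine ⟨M' ⊔ M, inferInstance, hle.trans (sup_le (sup_le (hle'.trans ?_) le_sup_left) ?_)⟩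
  · exact sup_le_sup (Bd_mono (le_add_of_nonneg_right (dl_nonneg ξ))) le_sup_left
  · exact le_sup_right.trans le_sup_right

theorem fin_cnt {l : List V.X} (hl : ∀ ξ ∈ l, coheight ξ = 1) {D : V.X → ℤ}
    (hD : IsWD (V := 𝐖) D) (h : FinH (W := 𝐖) D) : FinH (W := 𝐖) (D + cnt l) := by
  induction l with
  | nil => rwa [cnt_nil, add_zero]
  | cons ξ l ih =>
    have hl' : ∀ z ∈ l, coheight z = 1 := fun z hz => hl z (List.mem_cons_of_mem _ hz)
    rw [cnt_cons, ← add_assoc]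
    exact fin_step (hD.add (isWD_cnt hl')) (hl ξ List.mem_cons_self) (ih hl')

theorem fin_nsmul {l : List V.X} (hl : ∀ ξ ∈ l, coheight ξ = 1) (h : FinH (W := 𝐖) 0) (n : ℕ) :
    FinH (W := 𝐖) (n • cnt l) := by
  induction n with
  | zero => rwa [zero_nsmul]
  | succ n ih =>
    rw [succ_nsmul]
    exact fin_cnt hl (IsWD.nsmul (isWD_cnt hl) n) ih

variable (V) in
/-- a divisor which moves away from each of its components and meets it -/
structure Pol where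
  /-- the components, with multiplicities -/
  l : List V.X
  /-- the moving function -/
  g : V.FnField
  g0 : g ≠ 0
  codim : ∀ ξ ∈ l, coheight ξ = 1
  eff : ∀ z, 0 ≤ Scheme.ord (X := V.X) g z + cnt (W := 𝐖) l z
  off : ∀ ξ ∈ l, Scheme.ord (X := V.X) g ξ + cnt (W := 𝐖) l ξ = 0
  meet : ∀ ξ ∈ l, ∃ y, ξ ⤳ y ∧ y ≠ ξ ∧
    ∃ z, z ⤳ y ∧ 0 < Scheme.ord (X := V.X) g z + cnt (W := 𝐖) l z

namespace Pol

variable (P : Pol V)

/-- the divisor -/
def D : V.X → ℤ := cnt (W := 𝐖) P.l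

theorem isWD : IsWD (V := 𝐖) P.D := isWD_cnt P.codim

theorem nonneg : 0 ≤ P.D := cnt_nonneg _

theorem adm_big {ξ : V.X} (hξ : ξ ∈ P.l)
    [Algebra (RatFunc k) (V.ResField ξ)] [IsScalarTower k (RatFunc k) (V.ResField ξ)]
    [FiniteDimensional (RatFunc k) (V.ResField ξ)] [Algebra.IsSeparable (RatFunc k) (V.ResField ξ)]
    {B : V.X → ℤ} (hB : IsWD (V := 𝐖) B) (c : ℤ) :
    ∃ n₀ : ℕ, ∀ n ≥ n₀, ∃ (t : V.FnField) (Ev : Pl k (V.ResField ξ) →₀ ℤ),
      LocEq (W := 𝐖) (B + n • P.D) t ξ ∧ Adm (B + n • P.D) t Ev ∧ c < degD Ev := by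
  have h1 := P.codim ξ hξ
  obtain ⟨t, ht⟩ := exists_locEq hB ξ
  have hZ : IsWD (V := 𝐖) ((fun z => Scheme.ord (X := V.X) P.g z) + P.D) :=
    (IsWD.ord P.g0).add P.isWD
  obtain ⟨EB, EZ, h0, hpos, hA⟩ := exists_adm h1 hB hZ P.eff (P.off ξ hξ) ht
  obtain ⟨y, hy, hne, hz⟩ := P.meet ξ hξ
  obtain ⟨Q, hQ⟩ := exists_cen hy hne
  obtain ⟨n₀, hn₀⟩ := exists_deg_gt c EB EZ h0 (hpos Q y hQ hz)
  refine ⟨n₀, fun n hn => ⟨t * (P.g ^ n)⁻¹, EB + n • EZ, ?_, ?_, hn₀ n hn⟩⟩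
  · have hg : (P.g ^ n)⁻¹ ≠ 0 := inv_ne_zero (pow_ne_zero _ P.g0)
    refine locEq_prime (hB.add (IsWD.nsmul P.isWD n)) h1 (mul_ne_zero ht.1 hg) ?_
    have h2 : Scheme.ord (X := V.X) P.g ξ + P.D ξ = 0 := P.off ξ hξ
    rw [Scheme.ord_mul ht.1 hg, ord_inv, ord_pow, ht.2 ξ specializes_rfl, Pi.add_apply,
      Pi.smul_apply, nsmul_eq_mul, eq_neg_of_add_eq_zero_left h2]
    ring
  · refine (hA n).transport (pow_ne_zero n P.g0) fun z => ?_
    rw [ord_pow]
    simp only [Pi.add_apply, Pi.smul_apply]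
    simp only [nsmul_eq_mul]
    ring

theorem surj_cnt {l : List V.X} (hl : ∀ ξ ∈ l, ξ ∈ P.l) :
    ∃ n₀ : ℕ, ∀ n ≥ n₀, Surj (W := 𝐖) (n • P.D) (cnt (W := 𝐖) l + n • P.D) := by
  induction l with
  | nil => exact ⟨0, fun n _ => by rw [cnt_nil, zero_add]; exact Surj.refl _⟩
  | cons ξ l ih =>
    have hl' : ∀ z ∈ l, z ∈ P.l := fun z hz => hl z (List.mem_cons_of_mem _ hz)
    have hξ := hl ξ List.mem_cons_self
    obtain ⟨n₀, hn₀⟩ := ih hl'
    obtain ⟨_, _, _, _⟩ := exists_ctx (P.codim ξ hξ)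
    have hB : IsWD (V := 𝐖) (cnt (W := 𝐖) (ξ :: l)) := isWD_cnt fun z hz => P.codim z (hl z hz)
    obtain ⟨n₁, hn₁⟩ := P.adm_big hξ hB (degD (canD k (V.ResField ξ)))
    refine ⟨max n₀ n₁, fun n hn => ?_⟩
    obtain ⟨t, Ev, ht, hA, hc⟩ := hn₁ n (le_of_max_le_right hn)
    have h1 := step_surj (hB.add (IsWD.nsmul P.isWD n)) (P.codim ξ hξ) ht hA hc
    have h2 : cnt (W := 𝐖) (ξ :: l) + n • P.D - dl (W := 𝐖) ξ = cnt (W := 𝐖) l + n • P.D := by
      rw [cnt_cons]; ring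
    rw [h2] at h1
    refine (hn₀ n (le_of_max_le_left hn)).trans h1 ?_
    rw [← h2]
    exact sub_le_self _ (dl_nonneg ξ)

theorem nsmul_mono {m n : ℕ} (h : m ≤ n) : m • P.D ≤ n • P.D := nsmul_le_nsmul_left P.nonneg h

/-- eventual injectivity -/
theorem inj (h : FinH (W := 𝐖) 0) : ∃ n₀ n₁ : ℕ, n₀ ≤ n₁ ∧
    (∀ n ≥ n₀, Surj (W := 𝐖) (n₀ • P.D) (n • P.D)) ∧
    ∀ n ≥ n₁, Cous (W := 𝐖) (n₀ • P.D) ⊓ Bd (n • P.D) ≤ Bd (n₁ • P.D) := by
  obtain ⟨n₀, hn₀⟩ := P.surj_cnt (l := P.l) fun _ h => h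
  obtain ⟨M, hM, hle⟩ := fin_nsmul P.codim h n₀
  obtain ⟨n₁, hn₁⟩ := stationary (Bd (W := 𝐖) (n₀ • P.D)) M
    (fun n => Cous (W := 𝐖) (n₀ • P.D) ⊓ Bd ((n₀ + n) • P.D))
    (fun a b hab => inf_le_inf_left _ (Bd_mono (P.nsmul_mono (by omega))))
    (fun n => le_inf (Bd_le (IsWD.nsmul P.isWD n₀)) (Bd_mono (P.nsmul_mono (by omega))))
    (fun n => inf_le_left.trans hle)
  refine ⟨n₀, n₀ + n₁, by omega, fun n hn => ?_, fun n hn => ?_⟩
  · induction n, hn using Nat.le_induction with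
    | base => exact Surj.refl _
    | succ n hn ih =>
      have h1 := hn₀ n hn
      rw [show cnt (W := 𝐖) P.l + n • P.D = (n + 1) • P.D by rw [succ_nsmul, add_comm]; rfl] at h1
      exact ih.trans h1 (P.nsmul_mono (by omega))
  · have h1 := hn₁ (n - n₀) (by omega)
    simp only [show n₀ + (n - n₀) = n by omega] at h1
    rw [h1]
    exact inf_le_right

theorem gen_closed (h : FinH (W := 𝐖) 0) {ξ y₀ : V.X} (hξ : ξ ∈ P.l) (hy : ξ ⤳ y₀)
    (hne : y₀ ≠ ξ) : ∃ n : ℕ, 0 < n ∧ ∃ f, Glob (W := 𝐖) (n • P.D) f ∧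
      LocEq (W := 𝐖) (-(n • P.D)) f y₀ := by
  have h1 := P.codim ξ hξ
  obtain ⟨_, _, _, _⟩ := exists_ctx h1
  obtain ⟨n₀, n₁, h01, hs, hi⟩ := P.inj h
  obtain ⟨l', hl', hcnt⟩ := cnt_erase (W := 𝐖) hξ
  obtain ⟨n₂, hn₂⟩ := P.surj_cnt hl'
  obtain ⟨c, hc⟩ := step_gen h1 hy hne
  obtain ⟨n₃, hn₃⟩ := P.adm_big hξ IsWD.zero c
  obtain ⟨n, hn1, hn2, hn3⟩ : ∃ n, n₁ ≤ n ∧ n₂ ≤ n ∧ n₃ ≤ n :=
    ⟨n₁ + n₂ + n₃, by omega, by omega, by omega⟩
  obtain ⟨t, Ev, ht, hA, hdeg⟩ := hn₃ (n + 1) (by omega)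
  rw [zero_add] at ht hA
  have hD := IsWD.nsmul P.isWD (n + 1)
  obtain ⟨φ, hφ, hφD, hφy⟩ := hc _ t Ev hD ht hA hdeg
  have hE : (n + 1) • P.D - dl (W := 𝐖) ξ = cnt (W := 𝐖) l' + n • P.D := by
    rw [succ_nsmul]
    nth_rewrite 2 [D]
    rw [hcnt]
    ring
  have hle : n • P.D ≤ (n + 1) • P.D - dl (W := 𝐖) ξ := by
    rw [hE]; exact le_add_of_nonneg_left (cnt_nonneg _)
  have hle' : (n + 1) • P.D - dl (W := 𝐖) ξ ≤ (n + 1) • P.D := sub_le_self _ (dl_nonneg ξ)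
  have h2 : Surj (W := 𝐖) (n₀ • P.D) ((n + 1) • P.D - dl (W := 𝐖) ξ) := by
    refine (hs n (by omega)).trans ?_ hle
    rw [hE]
    exact hn₂ n hn2
  obtain ⟨ψ, hψ, β, hβ, hψβ⟩ := Submodule.mem_sup.1 (h2 hφ)
  have h3 : ψ ∈ Bd (W := 𝐖) ((n + 1) • P.D) := by
    rw [eq_sub_of_add_eq hψβ]
    exact sub_mem ⟨0, fun y => by simpa using hφD y⟩ (Bd_mono hle' hβ)
  have h4 : φ ∈ Bd (W := 𝐖) ((n + 1) • P.D - dl (W := 𝐖) ξ) := by
    rw [← hψβ]
    exact add_mem (Bd_mono ((P.nsmul_mono hn1).trans hle) (hi (n + 1) (by omega) ⟨hψ, h3⟩)) hβ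
  obtain ⟨f, hf⟩ := h4
  refine ⟨n + 1, by omega, f, fun y => ?_, ?_⟩
  · have := sub_mem (hφD y) (sO_mono hle' y (hf y))
    rwa [sub_sub_cancel] at this
  · have h5 := hφy.inv
    rw [neg_neg] at h5
    have h6 := van_of_mem_sO_sub h5 hy (hf y₀)
    rw [mul_sub, inv_mul_cancel₀ hφy.1] at h6
    have h7 : (φ y₀)⁻¹ * f ∈ loc y₀ := by
      have := sub_mem (one_mem (loc y₀)) (van_subset_loc _ h6)
      rwa [sub_sub_cancel] at this
    have h8 : (φ y₀)⁻¹ * f ∉ van y₀ := fun h9 => by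
      have := add_mem_van h6 h9
      rw [sub_add_cancel] at this
      exact one_notMem_van _ this
    have h9 := (locEq_zero_iff.2 ⟨h7, h8⟩).mul hφy
    rwa [zero_add, mul_right_comm, inv_mul_cancel₀ hφy.1, one_mul] at h9

/-- **semiampleness** -/
theorem ladder (h : FinH (W := 𝐖) 0) (y : V.X) : ∃ n : ℕ, 0 < n ∧ ∃ f,
    Glob (W := 𝐖) (n • P.D) f ∧ LocEq (W := 𝐖) (-(n • P.D)) f y := by
  by_cases hy : ∃ ξ ∈ P.l, ξ ⤳ y
  · obtain ⟨ξ, hξ, hy⟩ := hy
    by_cases hne : y = ξ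
    · obtain ⟨y', hy', hne'⟩ := exists_spec (P.codim ξ hξ)
      obtain ⟨n, hn, f, hf, hf'⟩ := P.gen_closed h hξ hy' hne'
      exact ⟨n, hn, f, hf, hf'.spec (hne ▸ hy')⟩
    · exact P.gen_closed h hξ hy hne
  · push Not at hy
    refine ⟨1, one_pos, 1, fun x z _ => Or.inr ?_, one_ne_zero, fun z hz => ?_⟩
    · rw [ord_one, zero_add, one_nsmul]; exact P.nonneg z
    · have key : ∀ l : List V.X, (∀ ξ ∈ l, ¬ ξ ⤳ y) → cnt (W := 𝐖) l z = 0 := by
        intro l hl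
        induction l with
        | nil => rfl
        | cons ξ l ih =>
          rw [cnt_cons, Pi.add_apply, ih fun w hw => hl w (List.mem_cons_of_mem _ hw),
            dl_ne fun h : z = ξ => hl ξ List.mem_cons_self (h ▸ hz), add_zero]
      rw [ord_one, one_nsmul, Pi.neg_apply, D, key P.l hy, neg_zero]

end Pol

end

end Crest.Agent.N265.Br
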