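import Mathlib
import Crest.Agent.N265.Br.Ladder

/-!
# Row 265, bridge, part 6 (helper42): ampleness

* `exists_pol` : the complement of an affine open set carries a `Pol`;
* `AffSec L s A` : the section `s` of `O(L)` generates exactly on the affine open set `A`;
* `EmbD` : homogeneous coordinates of an embedding; `exists_embD`.
-/

set_option autoImplicit false
set_option linter.unusedSectionVars false

open AlgebraicGeometry CategoryTheory Order TopologicalSpace Topology Filter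
open Crest.AlgGeometry.Prelude
open Crest.Agent.R274.Br179

namespace Crest.Agent.N265.Br

universe u

noncomputable section

theorem exists_common {δ : Type*} {T : Set δ} (hT : T.Finite) (m : δ → ℕ) :
    ∃ N : ℕ, 0 < N ∧ ∀ d ∈ T, 0 < m d → m d ∣ N := by
  obtain ⟨B, hB⟩ := (hT.image m).bddAbove
  exact ⟨B.factorial, B.factorial_pos, fun d hd h => Nat.dvd_factorial h (hB ⟨d, hd, rfl⟩)⟩

theorem exists_nat_gt_fin {δ : Type*} {T : Set δ} (hT : T.Finite) (m : δ → ℤ) :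
    ∃ N : ℕ, 0 < N ∧ ∀ d ∈ T, m d < N := by
  obtain ⟨B, hB⟩ := (hT.image m).bddAbove
  refine ⟨B.toNat + 1, by omega, fun d hd => ?_⟩
  have : m d ≤ B := hB ⟨d, hd, rfl⟩
  omega

theorem notMem_van_generic {X : Scheme.{u}} [IsIntegral X] {s : X.functionField} (hs : s ≠ 0) :
    s ∉ van (genericPoint X) := fun h => by
  have := mul_mem_van (mem_loc_generic s⁻¹) h
  rw [inv_mul_cancel₀ hs] at this
  exact one_notMem_van _ this

theorem generic_mem {X : Scheme.{u}} [IsIntegral X] {U : X.Opens} {x : X} (hx : x ∈ U) :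
    genericPoint X ∈ U := (genericPoint_specializes x).mem_open U.isOpen hx

theorem mem_basicOpen_iff {X : Scheme.{u}} [IsIntegral X] {U : X.Opens} [Nonempty U]
    (a : Γ(X, U)) (y : X) :
    y ∈ X.basicOpen a ↔ y ∈ U ∧ algebraMap Γ(X, U) X.functionField a ∉ van y := by
  have key : ∀ hy : y ∈ U, IsUnit (X.presheaf.germ U y hy a) ↔
      algebraMap Γ(X, U) X.functionField a ∉ van y := by
    intro hy
    have h1 : algebraMap (X.presheaf.stalk y) X.functionField (X.presheaf.germ U y hy a) =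
        algebraMap Γ(X, U) X.functionField a := Scheme.algebraMap_germ_eq_germToFunctionField X hy a
    rw [← h1, algebraMap_mem_van, IsLocalRing.mem_maximalIdeal, mem_nonunits_iff, not_not]
  rw [Scheme.mem_basicOpen'']
  exact ⟨fun ⟨hy, h⟩ => ⟨hy, (key hy).1 h⟩, fun ⟨hy, h⟩ => ⟨hy, (key hy).2 h⟩⟩

theorem exists_basic {X : Scheme.{u}} [IsIntegral X] {U : X.Opens} (hU : IsAffineOpen U) {x : X}
    (hx : x ∈ U) {P : X → Prop} (hP : ∀ᶠ y in 𝓝 x, P y) :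
    ∃ h ∈ reg (U : Set X), ∃ A : X.Opens, IsAffineOpen A ∧ x ∈ A ∧
      (∀ y, y ∈ A ↔ y ∈ U ∧ h ∉ van y) ∧ ∀ y ∈ A, P y := by
  have : Nonempty U := ⟨⟨x, hx⟩⟩
  obtain ⟨t, ht, hto, hxt⟩ := eventually_nhds_iff.1 hP
  obtain ⟨a, ha, hxa⟩ := hU.exists_basicOpen_le (V := ⟨t, hto⟩) ⟨x, hxt⟩ hx
  exact ⟨_, (mem_reg_iff_exists hU _).2 ⟨a, rfl⟩, X.basicOpen a, hU.basicOpen a, hxa,
    mem_basicOpen_iff a, fun y hy => ht y (ha hy)⟩

section Gen

variable {k : Type u} [Field k] {W : IntegralKScheme k} [LocFact W.X] [CompactSpace W.X]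

/-- nonzero global sections -/
def Sec (D : W.X → ℤ) (f : W.FnField) : Prop :=
  f ≠ 0 ∧ ∀ z, 0 ≤ Scheme.ord (X := W.X) f z + D z

theorem Sec.mul {D D' : W.X → ℤ} {f g : W.FnField} (h : Sec D f) (h' : Sec D' g) :
    Sec (D + D') (f * g) :=
  ⟨mul_ne_zero h.1 h'.1, fun z => by
    have h1 := h.2 z
    have h2 := h'.2 z
    rw [Scheme.ord_mul h.1 h'.1, Pi.add_apply]
    omega⟩

theorem Sec.pow {D : W.X → ℤ} {f : W.FnField} (h : Sec D f) (m : ℕ) : Sec (m • D) (f ^ m) :=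
  ⟨pow_ne_zero _ h.1, fun z => by
    rw [ord_pow, Pi.smul_apply, nsmul_eq_mul, ← mul_add]
    exact mul_nonneg (Nat.cast_nonneg _) (h.2 z)⟩

theorem locEq_neg_pow {D : W.X → ℤ} {f : W.FnField} {m : ℕ} (hm : 0 < m) {y : W.X} :
    LocEq (-(m • D)) (f ^ m) y ↔ LocEq (-D) f y := by
  refine ⟨fun h => ⟨fun h0 => h.1 (by rw [h0, zero_pow hm.ne']), fun z hz => ?_⟩, fun h => ?_⟩
  · have h1 := h.2 z hz
    rw [ord_pow, Pi.neg_apply, Pi.smul_apply, nsmul_eq_mul, ← mul_neg] at h1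
    exact mul_left_cancel₀ (by exact_mod_cast hm.ne') h1
  · have := h.pow m
    rwa [smul_neg] at this

/-- globally generated -/
def GG (D : W.X → ℤ) : Prop := ∀ y, ∃ f, Sec D f ∧ LocEq (-D) f y

theorem GG.add {D D' : W.X → ℤ} (h : GG D) (h' : GG D') : GG (D + D') := fun y => by
  obtain ⟨f, hf, hf'⟩ := h y
  obtain ⟨g, hg, hg'⟩ := h' y
  exact ⟨f * g, hf.mul hg, by rw [neg_add]; exact hf'.mul hg'⟩

theorem gg_sum {ι : Type*} (s : Finset ι) (D : ι → W.X → ℤ) (h : ∀ i ∈ s, IsWD (D i) ∧ GG (D i)) :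
    IsWD (∑ i ∈ s, D i) ∧ GG (∑ i ∈ s, D i) := by
  classical
  induction s using Finset.induction_on with
  | empty =>
    refine ⟨IsWD.zero, fun y => ⟨1, ⟨one_ne_zero, fun z => by simp [ord_one]⟩, one_ne_zero,
      fun z _ => by simp [ord_one]⟩⟩
  | insert a s ha ih =>
    rw [Finset.sum_insert ha]
    have h1 := ih fun i hi => h i (Finset.mem_insert_of_mem hi)
    have h2 := h a (Finset.mem_insert_self _ _)
    exact ⟨h2.1.add h1.1, h2.2.add h1.2⟩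

/-- `s` generates `O(L)` exactly on the affine open set `A` -/
def AffSec (L : W.X → ℤ) (s : W.FnField) (A : W.X.Opens) : Prop :=
  Sec L s ∧ IsAffineOpen A ∧ ∀ y, y ∈ A ↔ LocEq (-L) s y

theorem AffSec.pow {L : W.X → ℤ} {s : W.FnField} {A : W.X.Opens} (h : AffSec L s A) {m : ℕ}
    (hm : 0 < m) : AffSec (m • L) (s ^ m) A :=
  ⟨h.1.pow m, h.2.1, fun y => by rw [locEq_neg_pow hm]; exact h.2.2 y⟩

theorem exists_prime_out [W.X.IsSeparated] {U : W.X.Opens} (hU : IsAffineOpen U)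
    (hne : Nonempty U) {y : W.X} (hy : y ∉ U) : ∃ z, z ⤳ y ∧ coheight z = 1 ∧ z ∉ U := by
  have h1 : ¬ reg (U : Set W.X) ≤ loc y := fun h => hy (mem_of_reg_le hU hne h)
  obtain ⟨f, hf, hfy⟩ := SetLike.not_le_iff_exists.1 h1
  rw [mem_loc_iff] at hfy
  push Not at hfy
  obtain ⟨z, hz, hz0⟩ := hfy
  refine ⟨z, hz, ?_, fun hzU => ?_⟩
  · by_contra h
    rw [Scheme.ord_eq_zero_of_coheight_neq_one h] at hz0
    exact lt_irrefl _ hz0
  · exact absurd (ord_nonneg_of_mem_loc specializes_rfl (mem_reg.1 hf z hzU)) (not_le.2 hz0)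

theorem exists_affSec [W.X.IsSeparated] {U : W.X.Opens} (hU : IsAffineOpen U) {D L : W.X → ℤ}
    (hD : IsWD D) (hDU : ∀ z ∈ U, D z = 0) (hDJ : ∀ z, coheight z = 1 → z ∉ U → 0 < D z)
    (hL : IsWD L) (hG : GG L) {y : W.X} (hy : y ∈ U) :
    ∃ m : ℕ, 0 < m ∧ ∃ s A, y ∈ A ∧ AffSec (m • (D + L)) s A := by
  obtain ⟨σ, hσ, hσy⟩ := hG y
  obtain ⟨h, hh, A, hA, hyA, hAU, hAσ⟩ := exists_basic hU hy (hσy.nhds hL.neg)
  have h0 : h ≠ 0 := ne_zero_of_notMem_van ((hAU y).1 hyA).2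
  obtain ⟨m, hm, hmJ⟩ := exists_nat_gt_fin (finite_compl U ⟨y, hy⟩)
    fun z => - Scheme.ord (X := W.X) h z
  have h1 : ∀ z, coheight z = 1 → z ∉ U → 0 < Scheme.ord (X := W.X) h z + m * D z := by
    intro z hz hzU
    have h2 := hmJ z ⟨hz, hzU⟩
    have h3 := hDJ z hz hzU
    nlinarith
  have h2 : ∀ z, 0 ≤ Scheme.ord (X := W.X) h z + m * D z := by
    intro z
    by_cases hz : coheight z = 1
    · by_cases hzU : z ∈ U
      · rw [hDU z hzU, mul_zero, add_zero]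
        exact ord_nonneg_of_mem_loc specializes_rfl (mem_reg.1 hh z hzU)
      · exact (h1 z hz hzU).le
    · rw [Scheme.ord_eq_zero_of_coheight_neq_one hz, not_not.1 fun h' => hz (hD.codim z h')]
      simp
  have h3 : ∀ z, Scheme.ord (X := W.X) (h * σ ^ m) z + (m • (D + L)) z =
      (Scheme.ord (X := W.X) h z + m * D z) + m * (Scheme.ord (X := W.X) σ z + L z) := by
    intro z
    rw [Scheme.ord_mul h0 (pow_ne_zero _ hσ.1), ord_pow, Pi.smul_apply, Pi.add_apply, nsmul_eq_mul]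
    ring
  have h4 : h * σ ^ m ≠ 0 := mul_ne_zero h0 (pow_ne_zero _ hσ.1)
  refine ⟨m, hm, h * σ ^ m, A, hyA, ⟨h4, fun z => ?_⟩, hA, fun x => ⟨fun hx => ⟨h4, fun z hz => ?_⟩,
    fun hx => ?_⟩⟩
  · rw [h3]
    exact add_nonneg (h2 z) (mul_nonneg (Nat.cast_nonneg _) (hσ.2 z))
  · obtain ⟨hxU, hxh⟩ := (hAU x).1 hx
    rw [Pi.neg_apply, eq_neg_iff_add_eq_zero, h3, (hAσ x hx).2 z hz,
      hDU z (hz.mem_open U.isOpen hxU), ord_eq_zero_of_notMem_van hz (mem_reg.1 hh x hxU) hxh]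
    simp
  · have h5 : ∀ z, z ⤳ x → Scheme.ord (X := W.X) h z + m * D z = 0 := by
      intro z hz
      have h6 := hx.2 z hz
      rw [Pi.neg_apply, eq_neg_iff_add_eq_zero, h3] at h6
      have h7 := h2 z
      have h8 := mul_nonneg (Nat.cast_nonneg (α := ℤ) m) (hσ.2 z)
      omega
    have hxU : x ∈ U := by
      by_contra hcon
      obtain ⟨z, hz, hz1, hzU⟩ := exists_prime_out hU ⟨⟨y, hy⟩⟩ hcon
      exact (h1 z hz1 hzU).ne' (h5 z hz)
    refine (hAU x).2 ⟨hxU, (locEq_zero_iff.1 ⟨h0, fun z hz => ?_⟩).2⟩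
    have h6 := h5 z hz
    rwa [hDU z (hz.mem_open U.isOpen hxU), mul_zero, add_zero] at h6

variable (W) in
/-- homogeneous coordinates of an embedding into `P^N` -/
structure EmbD (N : ℕ) where
  /-- the coordinates -/
  t : Fin (N + 1) → W.FnField
  /-- the charts -/
  α : Type u
  /-- the coordinate of a chart -/
  b : α → Fin (N + 1)
  /-- the open set of a chart -/
  A : α → W.X.Opens
  aff : ∀ a, IsAffineOpen (A a)
  cover : ∀ y, ∃ a, y ∈ A a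
  ne : ∀ a, t (b a) ≠ 0
  reg : ∀ a j, t j / t (b a) ∈ reg (A a : Set W.X)
  unit : ∀ a a' y, y ∈ A a' → t (b a) / t (b a') ∉ van y → y ∈ A a
  gen : ∀ a, regA W (A a : Set W.X) ≤ Algebra.adjoin k (Set.range fun j => t j / t (b a))

theorem embD_of_affSec {L : W.X → ℤ} (hL : IsWD L) {α : Type u} [Finite α] (s : α → W.FnField)
    (A : α → W.X.Opens) (h : ∀ a, AffSec L (s a) (A a)) (hc : ∀ y, ∃ a, y ∈ A a)
    (hne : ∀ a, (A a : Set W.X).Nonempty) (hfg : ∀ a, (regA W (A a : Set W.X)).FG) :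
    ∃ N, Nonempty (EmbD W N) := by
  classical
  choose G hG using hfg
  have hT : (⋃ a, (fun p : W.FnField × W.X => (a, p)) ''
      ((G a : Set W.FnField) ×ˢ {z : W.X | coheight z = 1 ∧ z ∉ A a})).Finite :=
    Set.finite_iUnion fun a => ((G a).finite_toSet.prod (finite_compl _ (hne a))).image _
  obtain ⟨r, hr, hrT⟩ := exists_nat_gt_fin hT fun p => - Scheme.ord (X := W.X) p.2.1 p.2.2
  have hGr : ∀ a, ∀ g ∈ G a, g ∈ reg (A a : Set W.X) := fun a g hg => by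
    rw [← mem_regA, ← hG a]; exact Algebra.subset_adjoin hg
  have h1 : ∀ a, ∀ g ∈ G a, g = 0 ∨ Sec (r • L) (g * s a ^ r) := by
    intro a g hg
    by_cases h0 : g = 0
    · exact Or.inl h0
    refine Or.inr ⟨mul_ne_zero h0 (pow_ne_zero _ (h a).1.1), fun z => ?_⟩
    rw [Scheme.ord_mul h0 (pow_ne_zero _ (h a).1.1), ord_pow, Pi.smul_apply, nsmul_eq_mul,
      add_assoc, ← mul_add]
    have h2 := (h a).1.2 z
    by_cases hz : coheight z = 1
    · by_cases hzA : z ∈ A a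
      · exact add_nonneg (ord_nonneg_of_mem_loc specializes_rfl (mem_reg.1 (hGr a g hg) z hzA))
          (mul_nonneg (Nat.cast_nonneg _) h2)
      · have h3 : Scheme.ord (X := W.X) (s a) z + L z ≠ 0 := fun h4 =>
          hzA (((h a).2.2 z).2 (locEq_prime hL.neg hz (h a).1.1 (eq_neg_of_add_eq_zero_left h4)))
        have h4 : - Scheme.ord (X := W.X) g z < r :=
          hrT (a, g, z) (Set.mem_iUnion.2 ⟨a, (g, z), ⟨hg, hz, hzA⟩, rfl⟩)
        have h5 : 1 ≤ Scheme.ord (X := W.X) (s a) z + L z := by omega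
        nlinarith
    · rw [Scheme.ord_eq_zero_of_coheight_neq_one hz, zero_add]
      exact mul_nonneg (Nat.cast_nonneg _) h2
  let ι := Σ a : α, Option (G a)
  have : Nonempty ι := by
    obtain ⟨a, -⟩ := hc (genericPoint W.X)
    exact ⟨⟨a, none⟩⟩
  obtain ⟨N, ⟨e⟩⟩ : ∃ N, Nonempty (ι ≃ Fin (N + 1)) := by
    obtain ⟨N, hN⟩ := Nat.exists_eq_succ_of_ne_zero (Nat.card_pos (α := ι)).ne'
    exact ⟨N, ⟨(Finite.equivFin ι).trans (finCongr hN)⟩⟩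
  let tt : ι → W.FnField := fun i => i.2.elim 1 (fun g => g.1) * s i.1 ^ r
  have hb : ∀ a, tt (e.symm (e ⟨a, none⟩)) = s a ^ r := fun a => by
    rw [e.symm_apply_apply]; simp [tt]
  have h2 : ∀ i, tt i = 0 ∨ Sec (r • L) (tt i) := by
    rintro ⟨a, _ | g⟩
    · right
      simpa [tt] using (h a).1.pow r
    · exact (h1 a g g.2).imp_left fun h0 => by simp [tt, h0]
  refine ⟨N, ⟨⟨fun j => tt (e.symm j), α, fun a => e ⟨a, none⟩, A, fun a => (h a).2.1, hc,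
    fun a => ?_, fun a j => ?_, fun a a' y hy hv => ?_, fun a => ?_⟩⟩⟩
  · rw [hb]; exact pow_ne_zero _ (h a).1.1
  · rw [hb]
    refine mem_reg.2 fun y hy => ?_
    have h3 := ((((h a).pow hr).2.2 y).1 hy).inv
    rw [neg_neg] at h3
    rw [div_eq_inv_mul, ← h3.mem_iff]
    intro z _
    exact (h2 _).imp_right fun h4 => h4.2 z
  · rw [hb, hb] at hv
    have h3 := (((h a').pow hr).2.2 y).1 hy
    have h4 : s a ^ r / s a' ^ r ∈ loc y := by
      have h5 := h3.inv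
      rw [neg_neg] at h5
      rw [div_eq_inv_mul, ← h5.mem_iff]
      exact fun z _ => Or.inr (((h a).1.pow r).2 z)
    have h5 := (locEq_zero_iff.2 ⟨h4, hv⟩).mul h3
    rw [zero_add, div_mul_cancel₀ _ h3.1] at h5
    exact (((h a).pow hr).2.2 y).2 h5
  · rw [← hG a]
    refine Algebra.adjoin_mono fun g hg => ⟨e ⟨a, some ⟨g, hg⟩⟩, ?_⟩
    have := pow_ne_zero r (h a).1.1
    simp only [e.symm_apply_apply, tt, Option.elim]
    field_simp

end Gen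

variable {k : Type u} [Field k] [IsAlgClosed k] [CharZero k] {V : SmPr k 2}

local notation "𝐖" => SmPr.toIntegralKScheme V

theorem exists_pol {U : V.X.Opens} (hU : IsAffineOpen U) (hne : Nonempty U) :
    ∃ P : Pol V, (∀ z ∈ U, P.D z = 0) ∧ ∀ z, coheight z = 1 → z ∉ U → 0 < P.D z := by
  classical
  obtain ⟨⟨x, hx⟩⟩ := id hne
  have hJ := finite_compl U ⟨x, hx⟩
  obtain ⟨h, hh, h0, hhJ⟩ : ∃ h ∈ reg (U : Set V.X), h ≠ 0 ∧
      ∀ ξ, coheight ξ = 1 → ξ ∉ U → h ∉ loc ξ := by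
    obtain ⟨h, hh, hhJ⟩ := avoid (Subalgebra.toSubmodule (regA 𝐖 (U : Set V.X))) hJ
      (fun ξ => Subalgebra.toSubmodule (locA 𝐖 ξ)) fun ξ hξ =>
        SetLike.not_le_iff_exists.1 fun h => hξ.2 (mem_of_reg_le hU hne h)
    by_cases h0 : h = 0
    · exact ⟨1, one_mem _, one_ne_zero, fun ξ h1 h2 => (hhJ ξ ⟨h1, h2⟩ (h0 ▸ zero_mem _)).elim⟩
    · exact ⟨h, hh, h0, fun ξ h1 h2 => hhJ ξ ⟨h1, h2⟩⟩
  have key : ∀ ξ : V.X, coheight ξ = 1 ∧ ξ ∉ U → ∃ r ∈ reg (U : Set V.X), r ≠ 0 ∧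
      ∃ y, ξ ⤳ y ∧ y ≠ ξ ∧ ∃ z, z ⤳ y ∧ z ∈ U ∧ 0 < Scheme.ord (X := V.X) r z := by
    intro ξ hξ
    obtain ⟨y, hy, hne'⟩ := exists_spec hξ.1
    obtain ⟨s, hs, hsJ⟩ := avoid (vanS (W := 𝐖) y)
      (T := {z : V.X | (coheight z = 1 ∧ z ∉ U) ∧ z ⤳ y}) (hJ.subset fun z hz => hz.1)
      (fun z => vanS (W := 𝐖) z) fun z hz => exists_van hz.2 fun h' =>
        hne' (eq_of_specializes_of_coheight hy hξ.1 (h' ▸ hz.1.1)).symm
    have hs0 : s ≠ 0 := ne_zero_of_notMem_van (hsJ ξ ⟨hξ, hy⟩)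
    obtain ⟨z, hz, hz0⟩ := exists_ord_pos (W := 𝐖) hs hs0
    have hz1 : coheight z = 1 := (IsWD.ord (V := 𝐖) hs0).codim z hz0.ne'
    have hsz := loc_le hz (van_subset_loc y hs)
    have hzU : z ∈ U := by
      by_contra hcon
      exact hz0.ne' (ord_eq_zero_of_notMem_van specializes_rfl hsz (hsJ z ⟨⟨hz1, hcon⟩, hz⟩))
    obtain ⟨r, hr, hrz, hrη⟩ := exists_sep hU (generic_mem hx) hzU fun h' => by
      have h1 : z = genericPoint V.X := (h'.antisymm (genericPoint_specializes z)).eq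
      refine hz0.ne' (ord_eq_zero_of_notMem_van specializes_rfl hsz ?_)
      rw [h1]
      exact notMem_van_generic hs0
    have hr0 := ne_zero_of_notMem_van hrη
    exact ⟨r, hr, hr0, y, hy, hne', z, hz, hzU, ord_pos_of_mem_van hz1 hr0 hrz⟩
  choose! r hr hr0 hry using key
  have hmem : ∀ ξ, ξ ∈ hJ.toFinset ↔ coheight ξ = 1 ∧ ξ ∉ U := fun ξ => hJ.mem_toFinset
  set g₀ : V.FnField := ∏ ξ ∈ hJ.toFinset, r ξ with hg₀
  have hg0 : g₀ ≠ 0 := Finset.prod_ne_zero_iff.2 fun ξ hξ => hr0 ξ ((hmem ξ).1 hξ)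
  have hg₀U : g₀ ∈ reg (U : Set V.X) := Subring.prod_mem _ fun ξ hξ => hr ξ ((hmem ξ).1 hξ)
  obtain ⟨m, -, hm⟩ := exists_nat_gt_fin hJ fun ξ => Scheme.ord (X := V.X) g₀ ξ
  have hg : g₀ * h ^ m ≠ 0 := mul_ne_zero hg0 (pow_ne_zero _ h0)
  have hgU : g₀ * h ^ m ∈ reg (U : Set V.X) := mul_mem hg₀U (pow_mem hh m)
  have hneg : ∀ ξ, coheight ξ = 1 ∧ ξ ∉ U → Scheme.ord (X := V.X) (g₀ * h ^ m) ξ < 0 := by
    intro ξ hξ
    have h1 := hm ξ hξ
    have h2 := ord_neg_of_notMem (W := 𝐖) hξ.1 (hhJ ξ hξ.1 hξ.2)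
    rw [Scheme.ord_mul hg0 (pow_ne_zero _ h0), ord_pow]
    nlinarith
  let D : V.X → ℤ := fun z =>
    if coheight z = 1 ∧ z ∉ U then - Scheme.ord (X := V.X) (g₀ * h ^ m) z else 0
  have hD1 : ∀ z, coheight z = 1 ∧ z ∉ U → D z = - Scheme.ord (X := V.X) (g₀ * h ^ m) z :=
    fun z hz => if_pos hz
  have hD0 : ∀ z, ¬ (coheight z = 1 ∧ z ∉ U) → D z = 0 := fun z hz => if_neg hz
  have hDJ : ∀ z, D z ≠ 0 → coheight z = 1 ∧ z ∉ U := fun z hz => by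
    by_contra h
    exact hz (hD0 z h)
  obtain ⟨l, hl, hl'⟩ := exists_cnt (W := 𝐖) (D := D) (hJ.subset hDJ) fun z => by
    by_cases hz : coheight z = 1 ∧ z ∉ U
    · have := hneg z hz
      show 0 ≤ D z
      rw [hD1 z hz]
      omega
    · exact (hD0 z hz).ge
  refine ⟨⟨l, g₀ * h ^ m, hg, fun ξ hξ => (hDJ ξ (hl' ξ hξ)).1, fun z => ?_, fun ξ hξ => ?_,
    fun ξ hξ => ?_⟩, fun z hz => ?_, fun z h1 h2 => ?_⟩
  · rw [hl]
    by_cases hz : coheight z = 1 ∧ z ∉ U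
    · rw [hD1 z hz, add_neg_cancel]
    · rw [hD0 z hz, add_zero]
      by_cases hzU : z ∈ U
      · exact ord_nonneg_of_mem_loc specializes_rfl (mem_reg.1 hgU z hzU)
      · rw [Scheme.ord_eq_zero_of_coheight_neq_one fun h1 => hz ⟨h1, hzU⟩]
  · rw [hl, hD1 ξ (hDJ ξ (hl' ξ hξ)), add_neg_cancel]
  · have hξJ := hDJ ξ (hl' ξ hξ)
    obtain ⟨y, hy, hne', z, hz, hzU, hz0⟩ := hry ξ hξJ
    refine ⟨y, hy, hne', z, hz, ?_⟩
    rw [hl, hD0 z fun h1 => h1.2 hzU, add_zero, Scheme.ord_mul hg0 (pow_ne_zero _ h0), hg₀,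
      ord_prod _ _ fun ξ hξ => hr0 ξ ((hmem ξ).1 hξ)]
    refine add_pos_of_pos_of_nonneg (Finset.sum_pos' (fun w hw => ?_) ⟨ξ, (hmem ξ).2 hξJ, hz0⟩)
      (ord_nonneg_of_mem_loc specializes_rfl (mem_reg.1 (pow_mem hh m) z hzU))
    exact ord_nonneg_of_mem_loc specializes_rfl (mem_reg.1 (hr w ((hmem w).1 hw)) z hzU)
  · rw [Pol.D, hl]
    exact hD0 z fun h1 => h1.2 hz
  · have := hneg z ⟨h1, h2⟩
    rw [Pol.D, hl, hD1 z ⟨h1, h2⟩]
    omega

theorem gg_affine (h : FinH (W := 𝐖) 0) {U : V.X.Opens} (hU : IsAffineOpen U) (hne : Nonempty U) :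
    ∃ D : V.X → ℤ, (IsWD (V := 𝐖) D ∧ GG (W := 𝐖) D) ∧ (∀ z ∈ U, D z = 0) ∧
      ∀ z, coheight z = 1 → z ∉ U → 0 < D z := by
  obtain ⟨P, h1, h2⟩ := exists_pol hU hne
  obtain ⟨T, hT, hTy⟩ := exists_finite_of_local (fun (y : V.X) (d : ℕ × V.FnField) =>
    0 < d.1 ∧ Sec (W := 𝐖) (d.1 • P.D) d.2 ∧ LocEq (W := 𝐖) (-(d.1 • P.D)) d.2 y) fun x => by
    obtain ⟨n, hn, f, hf, hf'⟩ := P.ladder h x
    refine ⟨(n, f), ?_⟩
    filter_upwards [hf'.nhds (IsWD.nsmul P.isWD n).neg] with y hy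
    exact ⟨hn, ⟨hf'.1, fun z => (hf z z specializes_rfl).resolve_left hf'.1⟩, hy⟩
  obtain ⟨N, hN, hNT⟩ := exists_common hT Prod.fst
  refine ⟨N • P.D, ⟨IsWD.nsmul P.isWD N, fun y => ?_⟩, fun z hz => by simp [h1 z hz],
    fun z hz hzU => ?_⟩
  · obtain ⟨d, hd, hd0, hd1, hd2⟩ := hTy y
    obtain ⟨c, hc⟩ := hNT d hd hd0
    have hc0 : 0 < c := Nat.pos_of_ne_zero fun h0 => by rw [h0, mul_zero] at hc; omega
    rw [hc, mul_nsmul]
    exact ⟨d.2 ^ c, hd1.pow c, (locEq_neg_pow hc0).2 hd2⟩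
  · rw [Pi.smul_apply, nsmul_eq_mul]
    exact mul_pos (by exact_mod_cast hN) (h2 z hz hzU)

/-- **ampleness** -/
theorem exists_embD (h : FinH (W := 𝐖) 0) : ∃ N, Nonempty (EmbD 𝐖 N) := by
  classical
  obtain ⟨T, hT, hTy⟩ := exists_finite_of_local (fun (y : V.X) (U : V.X.Opens) =>
    (IsAffineOpen U ∧ Nonempty U) ∧ y ∈ U) fun x => by
    obtain ⟨U, hU, hx⟩ := exists_affine x
    refine ⟨U, ?_⟩
    filter_upwards [U.isOpen.mem_nhds hx] with y hy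
    exact ⟨⟨hU, ⟨⟨x, hx⟩⟩⟩, hy⟩
  choose! D hD hDU hDJ using fun (U : V.X.Opens) (hU : IsAffineOpen U ∧ Nonempty U) =>
    gg_affine h hU.1 hU.2
  let S := hT.toFinset.filter fun U => IsAffineOpen U ∧ Nonempty U
  have hS : ∀ U ∈ S, IsAffineOpen U ∧ Nonempty U := fun U hU => (Finset.mem_filter.1 hU).2
  have hL := (gg_sum (W := 𝐖) S D fun U hU => hD U (hS U hU)).1
  obtain ⟨T', hT', hTy'⟩ := exists_finite_of_local
    (fun (y : V.X) (d : ℕ × V.FnField × V.X.Opens) =>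
      (0 < d.1 ∧ (d.2.2 : Set V.X).Nonempty ∧ AffSec (W := 𝐖) (d.1 • ∑ U ∈ S, D U) d.2.1 d.2.2) ∧
        y ∈ d.2.2) fun x => by
    obtain ⟨U, hU, hU', hx⟩ := hTy x
    have hUS : U ∈ S := Finset.mem_filter.2 ⟨hT.mem_toFinset.2 hU, hU'⟩
    obtain ⟨h1, h2⟩ := gg_sum (W := 𝐖) (S.erase U) D fun U' hU' =>
      hD U' (hS U' (Finset.mem_of_mem_erase hU'))
    obtain ⟨m, hm, s, A, hxA, hA⟩ :=
      exists_affSec hU'.1 (hD U hU').1 (hDU U hU') (hDJ U hU') h1 h2 hx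
    rw [Finset.add_sum_erase S D hUS] at hA
    refine ⟨(m, s, A), ?_⟩
    filter_upwards [A.isOpen.mem_nhds hxA] with y hy
    exact ⟨⟨hm, ⟨x, hxA⟩, hA⟩, hy⟩
  obtain ⟨N, hN, hNT⟩ := exists_common hT' Prod.fst
  let α := {d : ℕ × V.FnField × V.X.Opens // d ∈ T' ∧ 0 < d.1 ∧ (d.2.2 : Set V.X).Nonempty ∧
    AffSec (W := 𝐖) (d.1 • ∑ U ∈ S, D U) d.2.1 d.2.2}
  have : Finite α := (hT'.subset fun d hd => hd.1).to_subtype
  refine embD_of_affSec (IsWD.nsmul hL N) (α := α) (fun d => d.1.2.1 ^ (N / d.1.1))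
    (fun d => d.1.2.2) (fun d => ?_) (fun y => ?_) (fun d => d.2.2.2.1) fun d => ?_
  · obtain ⟨c, hc⟩ := hNT d.1 d.2.1 d.2.2.1
    have hc0 : 0 < c := Nat.pos_of_ne_zero fun h0 => by rw [h0, mul_zero] at hc; omega
    rw [hc, Nat.mul_div_cancel_left _ d.2.2.1, mul_nsmul]
    exact d.2.2.2.2.pow hc0
  · obtain ⟨d, hd, hd', hy⟩ := hTy' y
    exact ⟨⟨d, hd, hd'⟩, hy⟩
  · obtain ⟨x, hx⟩ := d.2.2.2.1
    exact fg_reg V d.2.2.2.2.2.1 hx

end

end Crest.Agent.N265.Br
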