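import Mathlib

/-!
# Row 265, bridge, part 8 (helper42): abelian sheaves on a space, `H¹` in elementary terms

* `PS A` : the sheaf of all sections of a family of abelian groups; injective if all `A y` are;
* `glue` : if `H¹(F) = 0` and `F ⊆ G`, local sections of `G` with differences in `F` come from a
  global section of `G` modulo `F`;
* `H_shift` : `H²(F) = 0` and `G` injective imply `H¹(G / F) = 0`.
-/

set_option autoImplicit false
set_option linter.unusedSectionVars false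

open CategoryTheory Limits TopologicalSpace Opposite

namespace Crest.Agent.N265.Br

universe w u

noncomputable section

/-- abelian sheaves -/
abbrev Sh (X : TopCat.{u}) := Sheaf (Opens.grothendieckTopology X) AddCommGrpCat.{u}

variable {X : TopCat.{u}}

/-- sections -/
abbrev Sc (F : Sh X) (U : Opens X) : Type u := F.obj.obj (op U)

/-- restriction -/
def rs (F : Sh X) {U V : Opens X} (h : V ≤ U) : Sc F U →+ Sc F V :=
  (F.obj.map (homOfLE h).op).hom

/-- a morphism on sections -/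
def ap {F G : Sh X} (f : F ⟶ G) (U : Opens X) : Sc F U →+ Sc G U := (f.hom.app (op U)).hom

theorem ap_rs {F G : Sh X} (f : F ⟶ G) {U V : Opens X} (h : V ≤ U) (s : Sc F U) :
    ap f V (rs F h s) = rs G h (ap f U s) :=
  ConcreteCategory.congr_hom (f.hom.naturality (homOfLE h).op) s

theorem rs_rs (F : Sh X) {U V T : Opens X} (h : V ≤ U) (h' : T ≤ V) (s : Sc F U) :
    rs F h' (rs F h s) = rs F (h'.trans h) s :=
  (ConcreteCategory.congr_hom (F.obj.map_comp (homOfLE h).op (homOfLE h').op) s).symm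

theorem ap_comp {F G H : Sh X} (f : F ⟶ G) (g : G ⟶ H) (U : Opens X) (s : Sc F U) :
    ap (f ≫ g) U s = ap g U (ap f U s) := rfl

theorem ap_zero {F G : Sh X} (U : Opens X) (s : Sc F U) : ap (0 : F ⟶ G) U s = 0 := rfl

theorem hom_ext {F G : Sh X} {f g : F ⟶ G} (h : ∀ U s, ap f U s = ap g U s) : f = g := by
  apply Sheaf.hom_ext
  ext U s
  exact h U.unop s

theorem mono_of_inj {F G : Sh X} (f : F ⟶ G) (h : ∀ U, Function.Injective (ap f U)) : Mono f :=
  ⟨fun _ _ hab => hom_ext fun U s => h U (by rw [← ap_comp, ← ap_comp, hab])⟩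

theorem eq_zero_of_local (F : Sh X) {U : Opens X} (s : Sc F U)
    (h : ∀ x ∈ U, ∃ (V : Opens X) (hV : V ≤ U), x ∈ V ∧ rs F hV s = 0) : s = 0 := by
  choose V hV hx hs using h
  refine TopCat.Sheaf.eq_of_locally_eq' F (fun x : U => V x.1 x.2) U
    (fun x => homOfLE (hV x.1 x.2)) (fun x hx' => Opens.mem_iSup.2 ⟨⟨x, hx'⟩, hx x hx'⟩) s 0
    fun x => ?_
  exact (hs x.1 x.2).trans (map_zero (rs F (hV x.1 x.2))).symm

theorem loc_surj {F G : Sh X} (f : F ⟶ G) [hf : Epi f] {U : Opens X} (t : Sc G U) {x : X} (hx : x ∈ U) :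
    ∃ (V : Opens X) (hV : V ≤ U), x ∈ V ∧ ∃ s, ap f V s = rs G hV t := by
  have h1 := (TopCat.Sheaf.isLocallySurjective_iff_epi (X := X) (C := AddCommGrpCat.{u}) f).mpr hf
  obtain ⟨V, hV, ⟨s, hs⟩, hxV⟩ := (TopCat.Presheaf.isLocallySurjective_iff f.hom).mp h1 U t x hx
  exact ⟨V, hV, hxV, s, hs⟩

/-! ### sheaves of functions -/

section PS

variable (A : X → Type u) [∀ y, AddCommGroup (A y)]

/-- all sections of the family `A` -/
def PP : TopCat.Presheaf AddCommGrpCat.{u} X where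
  obj U := AddCommGrpCat.of (∀ y : U.unop, A y)
  map i := AddCommGrpCat.ofHom
    { toFun := fun s y => s ⟨y.1, i.unop.le y.2⟩
      map_zero' := rfl
      map_add' := fun _ _ => rfl }

/-- all sections of the family `A` -/
def PS : Sh X := ⟨PP A, by
  change (PP A).IsSheaf
  rw [TopCat.Presheaf.isSheaf_iff_isSheafUniqueGluing]
  intro ι U sf h
  have hy : ∀ y : (iSup U : Opens X), ∃ i, y.1 ∈ U i := fun y => Opens.mem_iSup.1 y.2
  choose idx hidx using hy
  refine ⟨fun y => sf (idx y) ⟨y.1, hidx y⟩, fun i => ?_, fun s hs => ?_⟩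
  · funext y
    exact congrFun (h (idx ⟨y.1, (Opens.leSupr U i).le y.2⟩) i) ⟨y.1, hidx _, y.2⟩
  · funext y
    exact congrFun (hs (idx y)) ⟨y.1, hidx y⟩⟩

variable {A}

theorem rs_PS {U V : Opens X} (h : V ≤ U) (s : Sc (PS A) U) (y : V) :
    (rs (PS A) h s : ∀ y : V, A y) y = (s : ∀ y : U, A y) ⟨y.1, h y.2⟩ := rfl

/-- morphisms to `PS A` -/
def toPS (F : Sh X) (e : ∀ (U : Opens X) (y : U), Sc F U →+ A y)
    (he : ∀ (U V : Opens X) (h : V ≤ U) (y : V) (s : Sc F U),
      e V y (rs F h s) = e U ⟨y.1, h y.2⟩ s) : F ⟶ PS A :=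
  ⟨{ app := fun U => AddCommGrpCat.ofHom (AddMonoidHom.pi fun y => e U.unop y)
     naturality := fun U V i => by
      ext s
      funext y
      exact he _ _ i.unop.le y s }⟩

theorem ap_toPS (F : Sh X) (e : ∀ (U : Opens X) (y : U), Sc F U →+ A y)
    (he : ∀ (U V : Opens X) (h : V ≤ U) (y : V) (s : Sc F U),
      e V y (rs F h s) = e U ⟨y.1, h y.2⟩ s) (U : Opens X) (s : Sc F U) (y : U) :
    (ap (toPS F e he) U s : ∀ y : U, A y) y = e U y s := rfl

theorem injective_PS (hA : ∀ y, Injective (AddCommGrpCat.of (A y))) : Injective (PS A) := by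
  refine ⟨fun {F G} g i hi => ?_⟩
  let ev : ∀ y : X, TopCat.Presheaf.stalk F.obj y ⟶ AddCommGrpCat.of (A y) := fun y =>
    colimit.desc ((OpenNhds.inclusion y).op ⋙ F.obj)
      ⟨AddCommGrpCat.of (A y),
        { app := fun U => AddCommGrpCat.ofHom
            ((Pi.evalAddMonoidHom (fun z : U.unop.1 => A z) ⟨y, U.unop.2⟩).comp (ap g U.unop.1))
          naturality := fun U V j => by
            ext s
            exact congrFun (ap_rs g (leOfHom j.unop) s) ⟨y, V.unop.2⟩ }⟩
  have hev : ∀ (U : Opens X) (y : U) (s : Sc F U),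
      ev y.1 (TopCat.Presheaf.germ F.obj U y.1 y.2 s) = (ap g U s : ∀ y : U, A y) y := by
    intro U y s
    exact ConcreteCategory.congr_hom (colimit.ι_desc (F := (OpenNhds.inclusion y.1).op ⋙ F.obj) _
      (op ⟨U, y.2⟩)) s
  have hm : ∀ y : X, Mono ((TopCat.Presheaf.stalkFunctor AddCommGrpCat.{u} y).map i.hom) :=
    fun y => (TopCat.Presheaf.mono_iff_stalk_mono (X := X) i).1 hi y
  let h : ∀ y : X, TopCat.Presheaf.stalk G.obj y ⟶ AddCommGrpCat.of (A y) := fun y =>
    @Injective.factorThru _ _ _ _ _ (hA y) (ev y)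
      ((TopCat.Presheaf.stalkFunctor AddCommGrpCat.{u} y).map i.hom) (hm y)
  refine ⟨toPS G (fun U y => (TopCat.Presheaf.germ G.obj U y.1 y.2 ≫ h y.1).hom)
    fun U V hle y s => ?_, hom_ext fun U s => ?_⟩
  · exact congrArg (h y.1) (TopCat.Presheaf.germ_res_apply G.obj (homOfLE hle) y.1 y.2 s)
  · funext y
    rw [← hev]
    have h1 := ConcreteCategory.congr_hom (@Injective.comp_factorThru _ _ _ _ _ (hA y.1) (ev y.1)
      ((TopCat.Presheaf.stalkFunctor AddCommGrpCat.{u} y.1).map i.hom) (hm y.1))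
      (TopCat.Presheaf.germ F.obj U y.1 y.2 s)
    refine Eq.trans ?_ h1
    exact congrArg (h y.1) (TopCat.Presheaf.stalkFunctor_map_germ_apply U y.1 y.2 i.hom s).symm

end PS

/-! ### cohomology -/

theorem shortExact {F G : Sh X} (i : F ⟶ G) [Mono i] :
    (ShortComplex.mk i (cokernel.π i) (cokernel.condition i)).ShortExact :=
  ShortComplex.ShortExact.mk' (ShortComplex.exact_of_g_is_cokernel _ (cokernelIsCokernel i))
    inferInstance (inferInstanceAs (Epi (cokernel.π i)))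

theorem ker_π {F G : Sh X} (i : F ⟶ G) [Mono i] {U : Opens X} (s : Sc G U)
    (h : ap (cokernel.π i) U s = 0) : ∃ o, ap i U o = s :=
  TopCat.Sheaf.sections_exact_of_left_exact (X := X) (shortExact i).exact
    (inferInstanceAs (Mono i)) s h

theorem π_ap {F G : Sh X} (i : F ⟶ G) {U : Opens X} (o : Sc F U) :
    ap (cokernel.π i) U (ap i U o) = 0 := by
  rw [← ap_comp, cokernel.condition, ap_zero]

variable [HasExt.{w} (Sh X)]

theorem surj_top {F G : Sh X} (i : F ⟶ G) [Mono i] [Subsingleton (Sheaf.H F 1)]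
    (t : Sc (cokernel i) ⊤) : ∃ s, ap (cokernel.π i) ⊤ s = t := by
  obtain ⟨x, hx⟩ := Abelian.Ext.covariant_sequence_exact₃ _ (shortExact i)
    ((Sheaf.H.equiv₀ (cokernel i) isTerminalTop).symm t) (zero_add 1) (Subsingleton.elim _ _)
  refine ⟨Sheaf.H.equiv₀ G isTerminalTop x, ?_⟩
  have h1 := Sheaf.H.equiv₀_naturality isTerminalTop (cokernel.π i) x
  rw [Sheaf.H.map_apply] at h1
  exact h1.trans ((congrArg _ hx).trans (AddEquiv.apply_symm_apply _ _))

theorem glue {F G : Sh X} (i : F ⟶ G) [Mono i] [Subsingleton (Sheaf.H F 1)] {ι : Type u}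
    (U : ι → Opens X) (hU : ∀ x, ∃ a, x ∈ U a) (b : ∀ a, Sc G (U a))
    (hb : ∀ a a', ∃ o, ap i (U a ⊓ U a') o =
      rs G inf_le_left (b a) - rs G inf_le_right (b a')) :
    ∃ c : Sc G ⊤, ∀ a, ∃ o, ap i (U a) o = b a - rs G le_top c := by
  obtain ⟨t, ht, -⟩ := TopCat.Sheaf.existsUnique_gluing' (cokernel i) U ⊤ (fun a => homOfLE le_top)
    (fun x _ => Opens.mem_iSup.2 (hU x)) (fun a => ap (cokernel.π i) (U a) (b a)) fun a a' => by
      obtain ⟨o, ho⟩ := hb a a'
      have h1 := π_ap i o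
      rw [ho, map_sub, ap_rs, ap_rs, sub_eq_zero] at h1
      exact h1
  obtain ⟨c, hc⟩ := surj_top i t
  refine ⟨c, fun a => ker_π i _ ?_⟩
  rw [map_sub, ap_rs, hc, sub_eq_zero]
  exact (ht a).symm

theorem H_shift {F G : Sh X} (i : F ⟶ G) [Mono i] [Injective G] [Subsingleton (Sheaf.H F 2)] :
    Subsingleton (Sheaf.H (cokernel i) 1) := by
  refine subsingleton_of_forall_eq 0 fun x => ?_
  obtain ⟨y, hy⟩ := Abelian.Ext.covariant_sequence_exact₃ _ (shortExact i) x
    (show 1 + 1 = 2 from rfl) (Subsingleton.elim _ _)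
  rw [← hy, Abelian.Ext.eq_zero_of_injective y, Abelian.Ext.zero_comp]

end

end Crest.Agent.N265.Br
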