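import Mathlib
import Crest.Agent.N265.Br.Shf
import Crest.Agent.N265.Br.Ample

/-!
# Row 265, bridge, part 9 (helper42): `H¹(O) = 0` and `H²(O) = 0` in elementary terms

* `cech1`, `cous_of_H1` : consequences of `H¹(X, O) = 0`;
* `cech2_aux`, `aff_lift`, `cech2` : consequences of `H²(X, O) = 0`.
-/

set_option autoImplicit false
set_option linter.unusedSectionVars false

open AlgebraicGeometry CategoryTheory Limits Order TopologicalSpace Topology Filter
open Crest.AlgGeometry.Prelude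
open Crest.Agent.R274.Br179

namespace Crest.Agent.N265.Br

universe w u

noncomputable section

section Sch

variable (X : Scheme.{u})

/-- the structure sheaf as an abelian sheaf -/
abbrev OX : Sh X := (SheafOfModules.toSheaf X.ringCatSheaf).obj (SheafOfModules.unit X.ringCatSheaf)

variable {X} [IsIntegral X]

/-- sections as rational functions -/
def toK (U : X.Opens) (hU : genericPoint X ∈ U) : Sc (OX X) U →+ X.functionField :=
  (X.presheaf.germ U (genericPoint X) hU).hom.toAddMonoidHom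

theorem toK_rs {U V : X.Opens} (h : V ≤ U) (hV : genericPoint X ∈ V) (s : Sc (OX X) U) :
    toK V hV (rs (OX X) h s) = toK U (h hV) s :=
  TopCat.Presheaf.germ_res_apply X.presheaf (homOfLE h) _ hV s

theorem toK_mem {U : X.Opens} (hU : genericPoint X ∈ U) (s : Sc (OX X) U) :
    toK U hU s ∈ reg (U : Set X) := by
  have : Nonempty U := ⟨⟨_, hU⟩⟩
  exact mem_reg.2 fun x hx => ⟨X.presheaf.germ U x hx s,
    Scheme.algebraMap_germ_eq_germToFunctionField X hx s⟩

theorem exists_toK {U : X.Opens} (hU : IsAffineOpen U) (hη : genericPoint X ∈ U)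
    {a : X.functionField} (ha : a ∈ reg (U : Set X)) : ∃ s, toK U hη s = a := by
  have : Nonempty U := ⟨⟨_, hη⟩⟩
  exact (mem_reg_iff_exists hU a).1 ha

variable (X) in
/-- the constant sheaf of rational functions -/
def KX : Sh X := PS fun y : X => PLift (y = genericPoint X) → X.functionField

/-- the value of a section -/
def evK (U : X.Opens) (hU : genericPoint X ∈ U) : Sc (KX X) U →+ X.functionField where
  toFun b := (b : ∀ y : U, PLift (y.1 = genericPoint X) → X.functionField) ⟨_, hU⟩ ⟨rfl⟩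
  map_zero' := rfl
  map_add' _ _ := rfl

/-- constant sections -/
def cstK (U : X.Opens) (a : X.functionField) : Sc (KX X) U :=
  (fun _ _ => a : ∀ y : U, PLift (y.1 = genericPoint X) → X.functionField)

theorem evK_cst (U : X.Opens) (hU : genericPoint X ∈ U) (a : X.functionField) :
    evK U hU (cstK U a) = a := rfl

theorem evK_rs {U V : X.Opens} (h : V ≤ U) (hV : genericPoint X ∈ V) (b : Sc (KX X) U) :
    evK V hV (rs (KX X) h b) = evK U (h hV) b := rfl

theorem evK_inj (U : X.Opens) (hU : genericPoint X ∈ U) : Function.Injective (evK U hU) := by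
  intro b b' h
  funext ⟨y, hy⟩ ⟨e⟩
  obtain rfl : y = genericPoint X := e
  exact h

variable (X) in
/-- the inclusion `O → K` -/
def iK : OX X ⟶ KX X :=
  toPS (OX X) (fun U y => AddMonoidHom.pi fun _ => toK U (generic_mem y.2))
    fun _ _ h y s => funext fun _ => toK_rs h (generic_mem y.2) s

theorem evK_iK (U : X.Opens) (hU : genericPoint X ∈ U) (s : Sc (OX X) U) :
    evK U hU (ap (iK X) U s) = toK U hU s := rfl

instance : Mono (iK X) := by
  refine mono_of_inj _ fun U => (injective_iff_map_eq_zero _).2 fun s hs => ?_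
  refine eq_zero_of_local _ s fun x hx => ⟨U, le_rfl, hx, ?_⟩
  have : Nonempty U := ⟨⟨x, hx⟩⟩
  have h1 : toK U (generic_mem hx) s = 0 := by rw [← evK_iK, hs, map_zero]
  have h2 : s = 0 := X.germToFunctionField_injective U (h1.trans (map_zero _).symm)
  rw [h2, map_zero]

instance [CharZero X.functionField] : Injective (KX X) := injective_PS fun _ => inferInstance

variable (X) in
/-- all principal parts -/
def AX : Sh X := PS fun y : X => X.functionField ⧸ (loc y).toAddSubgroup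

variable (X) in
/-- the principal parts of a rational function -/
def dK : KX X ⟶ AX X :=
  toPS (KX X) (fun U y => (QuotientAddGroup.mk' _).comp (evK U (generic_mem y.2)))
    fun _ _ _ _ _ => rfl

theorem iK_dK : iK X ≫ dK X = 0 := by
  refine hom_ext fun U s => funext fun y => ?_
  exact (QuotientAddGroup.eq_zero_iff _).2 (mem_reg.1 (toK_mem (generic_mem y.2) s) y.1 y.2)

variable (X) in
/-- `K / O → ∏ K / O_y` -/
def dQ : cokernel (iK X) ⟶ AX X := cokernel.desc _ (dK X) iK_dK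

theorem dQ_π (U : X.Opens) (b : Sc (KX X) U) (y : U) :
    (ap (dQ X) U (ap (cokernel.π (iK X)) U b) :
      ∀ y : U, X.functionField ⧸ (loc y.1).toAddSubgroup) y =
      QuotientAddGroup.mk (evK U (generic_mem y.2) b) := by
  rw [← ap_comp, dQ, cokernel.π_desc]
  rfl

instance : Mono (dQ X) := by
  refine mono_of_inj _ fun U => (injective_iff_map_eq_zero _).2 fun q hq => ?_
  refine eq_zero_of_local _ q fun x hx => ?_
  obtain ⟨V, hV, hxV, b, hb⟩ := loc_surj (cokernel.π (iK X)) q hx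
  obtain ⟨T, hT, hxT, hTV⟩ := Opens.isBasis_iff_nbhd.mp X.isBasis_affineOpens hxV
  refine ⟨T, hTV.trans hV, hxT, ?_⟩
  have h1 : evK V (generic_mem hxV) b ∈ reg (T : Set X) := mem_reg.2 fun y hy => by
    have h2 := dQ_π V b ⟨y, hTV hy⟩
    rw [hb, ap_rs, hq, map_zero] at h2
    exact (QuotientAddGroup.eq_zero_iff _).1 h2.symm
  obtain ⟨s, hs⟩ := exists_toK hT (generic_mem hxT) h1
  have h2 : ap (iK X) T s = rs (KX X) hTV b := evK_inj T (generic_mem hxT) hs
  rw [← rs_rs _ hV hTV, ← hb, ← ap_rs, ← h2, π_ap]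

variable [HasExt.{w} (Sh X)]

theorem cech1 [X.IsSeparated] [Subsingleton (Sheaf.H (OX X) 1)] {ι : Type u} (U : ι → X.Opens)
    (hU : ∀ i, IsAffineOpen (U i)) (hη : ∀ i, genericPoint X ∈ U i) (hc : ∀ x, ∃ i, x ∈ U i)
    (a : ι → X.functionField) (ha : ∀ i j, ∀ y ∈ U i, y ∈ U j → a i - a j ∈ loc y) :
    ∃ f, ∀ i, a i - f ∈ reg (U i : Set X) := by
  obtain ⟨c, hc⟩ := glue (iK X) U hc (fun i => cstK (U i) (a i)) fun i j => by
    have h1 : genericPoint X ∈ U i ⊓ U j := ⟨hη i, hη j⟩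
    obtain ⟨s, hs⟩ := exists_toK ((hU i).inf (hU j)) h1 (a := a i - a j)
      (mem_reg.2 fun y hy => ha i j y hy.1 hy.2)
    exact ⟨s, evK_inj _ h1 hs⟩
  refine ⟨evK ⊤ trivial c, fun i => ?_⟩
  obtain ⟨o, ho⟩ := hc i
  have h1 := toK_mem (hη i) o
  rwa [← evK_iK, ho] at h1

theorem cech2_aux [CharZero X.functionField] [Subsingleton (Sheaf.H (OX X) 2)] {ι : Type u}
    (U : ι → X.Opens) (hc : ∀ x, ∃ i, x ∈ U i) (a : ι → ι → X.functionField)
    (ha : ∀ i j l, ∀ y ∈ U i, y ∈ U j → y ∈ U l → a i l - a j l - a i j ∈ loc y) :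
    ∃ φ : ι → X → X.functionField, (∀ i, ∀ x ∈ U i, ∃ e, ∀ᶠ y in 𝓝 x, φ i y - e ∈ loc y) ∧
      ∀ i j, ∀ y ∈ U i, y ∈ U j → φ i y - φ j y - a i j ∈ loc y := by
  have := H_shift (iK X)
  choose idx hidx using id hc
  obtain ⟨c, hc⟩ := glue (dQ X) U hc (fun i => (fun y => QuotientAddGroup.mk (a i (idx y.1)) :
      ∀ y : U i, X.functionField ⧸ (loc y.1).toAddSubgroup)) fun i j => by
    refine ⟨ap (cokernel.π (iK X)) _ (cstK _ (a i j)), funext fun y => ?_⟩
    refine (dQ_π _ _ y).trans ?_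
    refine Eq.trans ?_ (QuotientAddGroup.mk_sub _ (a i (idx y.1)) (a j (idx y.1)))
    refine (QuotientAddGroup.eq_iff_sub_mem.2 ?_).symm
    exact ha i j _ y.1 y.2.1 y.2.2 (hidx y.1)
  let c' : X → X.functionField := fun y =>
    ((c : ∀ y : (⊤ : X.Opens), X.functionField ⧸ (loc y.1).toAddSubgroup) ⟨y, trivial⟩).out
  refine ⟨fun i y => a i (idx y) - c' y, fun i x hx => ?_, fun i j y hi hj => ?_⟩
  · obtain ⟨q, hq⟩ := hc i
    obtain ⟨V, hV, hxV, b, hb⟩ := loc_surj (cokernel.π (iK X)) q hx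
    refine ⟨evK V (generic_mem hxV) b, ?_⟩
    filter_upwards [V.isOpen.mem_nhds hxV] with y hy
    have h1 := dQ_π V b ⟨y, hy⟩
    rw [hb, ap_rs, hq] at h1
    refine QuotientAddGroup.eq_iff_sub_mem.1 (Eq.trans ?_ h1)
    rw [QuotientAddGroup.mk_sub, QuotientAddGroup.out_eq']
    rfl
  · rw [sub_sub_sub_cancel_right]
    exact ha i j _ y hi hj (hidx y)

end Sch

variable {k : Type u} [Field k] {W : IntegralKScheme k} [LocFact W.X] [CompactSpace W.X]

theorem loc_nhds {x : W.X} {e : W.FnField} (he : e ∈ loc x) : ∀ᶠ y in 𝓝 x, e ∈ loc y :=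
  (sO_nhds IsWD.zero (sO_zero.2 he)).mono fun _ h => sO_zero.1 h

/-- Cousin data on an affine open set are trivial -/
theorem aff_lift {U : W.X.Opens} (hU : IsAffineOpen U) (hne : Nonempty U) (φ : W.X → W.FnField)
    (hφ : ∀ x ∈ U, ∃ e, ∀ᶠ y in 𝓝 x, φ y - e ∈ loc y) : ∃ f, ∀ y ∈ U, φ y - f ∈ loc y := by
  classical
  have key : ∀ x : U, ∃ (e : W.FnField) (h : reg (U : Set W.X)) (A : W.X.Opens), x.1 ∈ A ∧
      (∀ y, y ∈ A ↔ y ∈ U ∧ h.1 ∉ van y) ∧ ∀ y ∈ A, φ y - e ∈ loc y := by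
    intro x
    obtain ⟨e, he⟩ := hφ x.1 x.2
    obtain ⟨h, hh, A, -, hxA, hA, hP⟩ := exists_basic hU x.2 he
    exact ⟨e, ⟨h, hh⟩, A, hxA, hA, hP⟩
  choose e h A hxA hA hP using key
  obtain ⟨T, hT⟩ := hU.isCompact.elim_finite_subcover (fun x => (A x : Set W.X))
    (fun x => (A x).isOpen) fun x hx => Set.mem_iUnion.2 ⟨⟨x, hx⟩, hxA _⟩
  have hcov : ∀ y ∈ U, ∃ b ∈ T, y ∈ A b := fun y hy => by simpa using hT hy
  have hfin : (⋃ p ∈ T ×ˢ T, (fun z => (e p.1 - e p.2, z)) ''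
      {z : W.X | Scheme.ord (X := W.X) (e p.1 - e p.2) z ≠ 0}).Finite :=
    (T ×ˢ T).finite_toSet.biUnion fun p _ => by
      refine Set.Finite.image _ ?_
      by_cases h0 : e p.1 - e p.2 = 0
      · simp [h0]
      · exact finite_ord _ h0
  obtain ⟨N, hN, hNT⟩ := exists_nat_gt_fin hfin fun p => - Scheme.ord (X := W.X) p.1 p.2
  have hspan : Ideal.span (Set.range fun c : T => h c.1 ^ N) = ⊤ := by
    by_contra hcon
    obtain ⟨m, hm, hle⟩ := Ideal.exists_le_maximal _ hcon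
    obtain ⟨x, hx, hxm⟩ := Crest.Agent.R270.Dic327.exists_point_of_prime hU m
    obtain ⟨b, hb, hxb⟩ := hcov x hx
    exact ((hA b x).1 hxb).2 ((hxm _).1
      (hm.isPrime.mem_of_pow_mem N (hle (Ideal.subset_span ⟨⟨b, hb⟩, rfl⟩))))
  obtain ⟨r, hr⟩ := Ideal.mem_span_range_iff_exists_fun.1 (hspan ▸ Submodule.mem_top (x := 1))
  have hr' : ∑ c : T, (r c).1 * (h c.1).1 ^ N = 1 := by
    have := congrArg (reg (U : Set W.X)).subtype hr
    simpa using this
  refine ⟨∑ c : T, (r c).1 * (h c.1).1 ^ N * e c.1, fun y hy => ?_⟩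
  obtain ⟨b, hb, hyb⟩ := hcov y hy
  have h1 : φ y - ∑ c : T, (r c).1 * (h c.1).1 ^ N * e c.1 =
      (φ y - e b) + ∑ c : T, (r c).1 * ((h c.1).1 ^ N * (e b - e c.1)) := by
    simp only [mul_sub, Finset.sum_sub_distrib, ← mul_assoc, ← Finset.sum_mul, hr']
    ring
  rw [h1]
  refine add_mem (hP b y hyb) (Subring.sum_mem _ fun c _ => mul_mem (mem_reg.1 (r c).2 y hy) ?_)
  by_cases h0 : e b - e c.1 = 0
  · rw [h0, mul_zero]; exact zero_mem _
  have hc0 : (h c.1).1 ≠ 0 := ne_zero_of_notMem_van ((hA _ _).1 (hxA c.1)).2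
  refine mem_loc_iff.2 fun z hz => ?_
  have hzb : z ∈ A b := hz.mem_open (A b).isOpen hyb
  have hzU := ((hA b z).1 hzb).1
  have h2 := ord_nonneg_of_mem_loc specializes_rfl (mem_reg.1 (h c.1).2 z hzU)
  rw [Scheme.ord_mul (pow_ne_zero _ hc0) h0, ord_pow]
  by_cases hzc : z ∈ A c.1
  · have h3 : e b - e c.1 ∈ loc z := by
      have := sub_mem (hP c.1 z hzc) (hP b z hzb)
      rwa [sub_sub_sub_cancel_left] at this
    exact add_nonneg (mul_nonneg (Nat.cast_nonneg _) h2) (ord_nonneg_of_mem_loc specializes_rfl h3)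
  · by_cases h3 : Scheme.ord (X := W.X) (e b - e c.1) z = 0
    · rw [h3, add_zero]; exact mul_nonneg (Nat.cast_nonneg _) h2
    · have h4 : (h c.1).1 ∈ van z := by
        by_contra h5
        exact hzc ((hA _ _).2 ⟨hzU, h5⟩)
      have h5 := ord_pos_of_mem_van ((IsWD.ord (V := W) h0).codim z h3) hc0 h4
      have h6 : - Scheme.ord (X := W.X) (e b - e c.1) z < N := hNT (e b - e c.1, z)
        (Set.mem_iUnion₂.2 ⟨(b, c.1), Finset.mem_product.2 ⟨hb, c.2⟩, z, h3, rfl⟩)
      nlinarith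

variable [HasExt.{w} (Sh W.X)]

theorem cous_of_H1 [W.X.IsSeparated] [Subsingleton (Sheaf.H (OX W.X) 1)] :
    Cous (W := W) 0 ≤ Bd 0 := by
  intro φ hφ
  have key : ∀ x : W.X, ∃ A : W.X.Opens, IsAffineOpen A ∧ x ∈ A ∧ ∀ y ∈ A, φ y - φ x ∈ loc y := by
    intro x
    obtain ⟨U, hU, hx⟩ := exists_affine x
    obtain ⟨-, -, A, hA, hxA, -, h⟩ := exists_basic hU hx (hφ x)
    exact ⟨A, hA, hxA, fun y hy => sO_zero.1 (h y hy)⟩
  choose A hA hxA h using key
  obtain ⟨f, hf⟩ := cech1 A hA (fun x => generic_mem (hxA x)) (fun x => ⟨x, hxA x⟩) φ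
    fun i j y hi hj => by
      have := sub_mem (h j y hj) (h i y hi)
      rwa [sub_sub_sub_cancel_left] at this
  exact ⟨f, fun y => sO_zero.2 (mem_reg.1 (hf y) y (hxA y))⟩

theorem finH_of_H1 [W.X.IsSeparated] [Subsingleton (Sheaf.H (OX W.X) 1)] : FinH (W := W) 0 :=
  ⟨⊥, inferInstance, cous_of_H1.trans le_sup_left⟩

theorem cech2 [CharZero k] [Subsingleton (Sheaf.H (OX W.X) 2)] {ι : Type u}
    (U : ι → W.X.Opens) (hU : ∀ i, IsAffineOpen (U i)) (hne : ∀ i, Nonempty (U i))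
    (hc : ∀ x, ∃ i, x ∈ U i) (a : ι → ι → W.FnField)
    (ha : ∀ i j l, ∀ y ∈ U i, y ∈ U j → y ∈ U l → a i l - a j l - a i j ∈ loc y) :
    ∃ f : ι → W.FnField, ∀ i j, ∀ y ∈ U i, y ∈ U j → f i - f j - a i j ∈ loc y := by
  have : CharZero W.X.functionField := 
    charZero_of_injective_algebraMap (algebraMap k W.FnField).injective
  obtain ⟨φ, h1, h2⟩ := cech2_aux U hc a ha
  choose f hf using fun i => aff_lift (hU i) (hne i) (φ i) (h1 i)
  refine ⟨f, fun i j y hi hj => ?_⟩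
  have := add_mem (sub_mem (h2 i j y hi hj) (hf i y hi)) (hf j y hj)
  convert this using 1
  ring

end

end Crest.Agent.N265.Br
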