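import Mathlib
import Crest.Agent.N265.Br.Ample
import Crest.Agent.R270.Iso6_927

/-!
# Row 265, bridge, part 7 (helper42): the embedding into projective space

* `EmbD.exists_emb` : coordinates `EmbD` give a closed immersion into `P^N` (proper varieties);
* `projective` : a smooth proper surface with `h¹(O) < ∞` is projective; `toSPV`.
-/

set_option autoImplicit false
set_option linter.unusedSectionVars false
set_option linter.style.haveILetI false

open AlgebraicGeometry CategoryTheory Order TopologicalSpace Topology Filter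
open Crest.AlgGeometry.Prelude HomogeneousLocalization
open Crest.Agent.R274.Br179
open Crest.Agent.R270.Iso_927 Crest.Agent.R270.EqEasy_191

namespace Crest.Agent.N265.Br

universe u

noncomputable section

section Th

variable {k : Type u} [Field k] {N : ℕ} {A : Type u} [CommRing A] [Algebra k A]

theorem th_mk (v : Fin (N + 1) → A) {f : MvPolynomial (Fin (N + 1)) k} {m : ℕ} (hm : f ∈ projGrading k N m)
    (hf : IsUnit (Crest.Agent.R270.Iso_927.ev v f)) (n : ℕ) (p : MvPolynomial (Fin (N + 1)) k)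
    (hp : p ∈ projGrading k N (n • m)) :
    th v f hf (Away.mk (projGrading k N) hm n p hp) * Crest.Agent.R270.Iso_927.ev v f ^ n =
      Crest.Agent.R270.Iso_927.ev v p := by
  rw [th_apply, Away.val_mk, Localization.mk_eq_mk'_apply, ← thL_algebraMap v f hf p,
    ← thL_algebraMap v f hf f, ← map_pow, ← map_pow, ← map_mul]
  congr 1
  exact IsLocalization.mk'_spec (Localization.Away f) p (⟨f ^ n, n, rfl⟩ : Submonoid.powers f)

theorem th_surj (v : Fin (N + 1) → A) (j : Fin (N + 1)) (hj : v j = 1)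
    (hu : IsUnit (Crest.Agent.R270.Iso_927.ev (k := k) v (MvPolynomial.X j)))
    (hv : Algebra.adjoin k (Set.range v) = ⊤) : Function.Surjective (th v (MvPolynomial.X j) hu) := by
  intro r
  have hr : r ∈ Algebra.adjoin k (Set.range v) := by rw [hv]; trivial
  change r ∈ (th v (MvPolynomial.X j) hu).range
  induction hr using Algebra.adjoin_induction with
  | mem x hx =>
    obtain ⟨i, rfl⟩ := hx
    have h := th_mk v (X_mem k N j) hu 1 (MvPolynomial.X i) (by simpa using X_mem k N i)
    rw [ev_X, ev_X, hj, one_pow, mul_one] at h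
    exact ⟨_, h⟩
  | algebraMap c =>
    refine ⟨Crest.Agent.R270.EqEasy_191.cst k N j c, ?_⟩
    rw [th_apply, Crest.Agent.R270.EqEasy_191.val_cst]
    exact (thL_algebraMap v _ hu _).trans (ev_C v c)
  | add x y _ _ hx hy => exact add_mem hx hy
  | mul x y _ _ hx hy => exact mul_mem hx hy

theorem pt_mem (v : Fin (N + 1) → A) (j : Fin (N + 1)) (hj : v j = 1) (hu : IsUnit (v j))
    (i : Fin (N + 1)) (q : Spec (CommRingCat.of A)) :
    pt k v j hu q ∈ Proj.basicOpen (projGrading k N) (MvPolynomial.X i) ↔ v i ∉ q.asIdeal := by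
  have hu' : IsUnit (Crest.Agent.R270.Iso_927.ev (k := k) v (MvPolynomial.X j)) := by
    rw [ev_X]; exact hu
  have h1 := Proj.awayι_preimage_basicOpen (projGrading k N) (X_mem k N j) one_pos (X_mem k N i)
    one_pos
  have h2 := th_mk v (X_mem k N j) hu' 1 (MvPolynomial.X i ^ 1) (by simpa using X_mem k N i)
  rw [map_pow, ev_X, ev_X, hj, one_pow, mul_one, pow_one (v i)] at h2
  change (Spec.map (CommRingCat.ofHom (th v _ hu'))) q ∈
    Proj.awayι (projGrading k N) _ (X_mem k N j) one_pos ⁻¹ᵁ Proj.basicOpen _ _ ↔ _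
  rw [h1, ← h2]
  rfl

end Th

variable {k : Type u} [Field k] {W : IntegralKScheme k}

/-- sections as rational functions -/
def toF (U : W.X.Opens) [Nonempty U] :
    letI := sAlg W U
    Γ(W.X, U) →ₐ[k] W.FnField :=
  letI := sAlg W U
  { algebraMap Γ(W.X, U) W.X.functionField with
    commutes' := fun c => RingHom.congr_fun (germ_secMap W U (genericPoint W.X)
      (generic_mem (Classical.arbitrary U).2)) c }

theorem toF_apply (U : W.X.Opens) [Nonempty U] (a : Γ(W.X, U)) :
    toF U a = algebraMap Γ(W.X, U) W.X.functionField a := rfl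

theorem toF_inj (U : W.X.Opens) [Nonempty U] : Function.Injective (toF (W := W) U) :=
  W.X.germToFunctionField_injective U

theorem spec_toF {U : W.X.Opens} (hU : IsAffineOpen U) [Nonempty U] :
    letI := sAlg W U
    Spec.map (CommRingCat.ofHom (toF U : Γ(W.X, U) →+* W.FnField)) ≫ hU.fromSpec =
      W.X.fromSpecStalk (genericPoint W.X) :=
  hU.fromSpecStalk_eq_fromSpecStalk (generic_mem (Classical.arbitrary U).2)

theorem dom_toF (U : W.X.Opens) [Nonempty U] :
    letI := sAlg W U
    IsDominant (Spec.map (CommRingCat.ofHom (toF U : Γ(W.X, U) →+* W.FnField))) := by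
  letI := sAlg W U
  refine ⟨?_⟩
  change DenseRange (PrimeSpectrum.comap (toF U : Γ(W.X, U) →+* W.FnField))
  rw [PrimeSpectrum.denseRange_comap_iff_ker_le_nilRadical,
    (RingHom.injective_iff_ker_eq_bot (toF U : Γ(W.X, U) →+* W.FnField)).1 (toF_inj U)]
  exact bot_le

theorem van_fromSpec {U : W.X.Opens} (hU : IsAffineOpen U) [Nonempty U] (q : Spec Γ(W.X, U))
    (a : Γ(W.X, U)) : toF U a ∈ van (hU.fromSpec q) ↔ a ∈ q.asIdeal := by
  have hq : hU.fromSpec q ∈ U := by
    have : hU.fromSpec q ∈ Set.range hU.fromSpec := ⟨q, rfl⟩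
    rwa [hU.range_fromSpec] at this
  have h1 := mem_basicOpen_iff a (hU.fromSpec q)
  have h2 : hU.fromSpec q ∈ W.X.basicOpen a ↔ a ∉ q.asIdeal := by
    change q ∈ hU.fromSpec ⁻¹ᵁ W.X.basicOpen a ↔ _
    rw [hU.fromSpec_preimage_basicOpen]
    rfl
  rw [toF_apply, ← not_iff_not, ← h2, h1]
  exact ⟨fun h => ⟨hq, h⟩, fun h => h.2⟩

namespace EmbD

variable {N : ℕ} (P : EmbD W N)

theorem exists_chart (a : P.α) [Nonempty (P.A a)] :
    ∃ v : Fin (N + 1) → Γ(W.X, P.A a), v (P.b a) = 1 ∧ ∀ j, toF _ (v j) = P.t j / P.t (P.b a) := by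
  choose v hv using fun j => (mem_reg_iff_exists (P.aff a) _).1 (P.reg a j)
  refine ⟨v, toF_inj _ ?_, hv⟩
  letI := sAlg W (P.A a)
  rw [map_one, toF_apply, hv, div_self (P.ne a)]

theorem gen_pt (a₀ a : P.α) [Nonempty (P.A a)] (v : Fin (N + 1) → Γ(W.X, P.A a))
    (hu : IsUnit (v (P.b a))) (hv : ∀ j, toF _ (v j) = P.t j / P.t (P.b a)) :
    letI := sAlg W (P.A a)
    Spec.map (CommRingCat.ofHom (toF (P.A a) : Γ(W.X, P.A a) →+* W.FnField)) ≫
      pt k v (P.b a) hu = pt k (A := W.FnField) P.t (P.b a₀) (P.ne a₀).isUnit := by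
  letI := sAlg W (P.A a)
  have h2 := pt_natural v (P.b a) hu (toF (P.A a)) (hu.map _)
  have h3 : (fun i => toF (P.A a) (v i)) = fun i => (P.t (P.b a))⁻¹ * P.t i := by
    funext i
    rw [hv, div_eq_inv_mul]
  have hc := (inv_ne_zero (P.ne a)).isUnit
  have h4 := pt_smul (k := k) P.t (P.b a) (P.ne a).isUnit _ hc (hc.mul (P.ne a).isUnit)
  rw [← pt_indep (k := k) P.t (P.b a) (P.b a₀) (P.ne a).isUnit, ← h4]
  refine h2.trans ?_
  congr 1

include P in
theorem exists_mor : ∃ ι : W.X ⟶ projSpace k N, ι ≫ projSpaceToBase k N = W.toBase ∧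
    ∀ (a : P.α) [Nonempty (P.A a)] (v : Fin (N + 1) → Γ(W.X, P.A a))
      (hu : IsUnit (v (P.b a))), (∀ j, toF _ (v j) = P.t j / P.t (P.b a)) →
      letI := sAlg W (P.A a)
      (P.aff a).fromSpec ≫ ι = pt k v (P.b a) hu := by
  obtain ⟨a₀, -⟩ := P.cover (genericPoint W.X)
  have hsm := smooth_projSpaceToBase k N
  have : Smooth (projSpaceToBase k N) := hsm.smooth
  have hsep : (projSpace k N).IsSeparated := by
    have h1 : IsSeparated (Limits.terminal.from (projSpace k N)) := by
      rw [← Limits.terminal.comp_from (projSpaceToBase k N)]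
      infer_instance
    exact ⟨h1⟩
  have hbase : pt k (A := W.FnField) P.t (P.b a₀) (P.ne a₀).isUnit ≫ projSpaceToBase k N =
      W.X.fromSpecStalk (genericPoint W.X) ≫ W.toBase := by
    rw [fromSpecStalk_toBase, pt_toBase]
  obtain ⟨ι, h1, h2⟩ := exists_hom_of_local W.toBase (projSpaceToBase k N)
    (pt k (A := W.FnField) P.t (P.b a₀) (P.ne a₀).isUnit) hbase fun x => by
    obtain ⟨a, hx⟩ := P.cover x
    have : Nonempty (P.A a) := ⟨⟨x, hx⟩⟩
    letI := sAlg W (P.A a)
    obtain ⟨v, hv1, hv⟩ := P.exists_chart a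
    have hu : IsUnit (v (P.b a)) := by rw [hv1]; exact isUnit_one
    refine ⟨Spec.map (W.X.presheaf.germ _ x hx) ≫ pt k v (P.b a) hu, ?_, ?_⟩
    · rw [Category.assoc, pt_toBase, fromSpecStalk_toBase, ← Spec.map_comp]
      congr 1
      ext c
      exact RingHom.congr_fun (germ_secMap W (P.A a) x hx) c
    · rw [← P.gen_pt a₀ a v hu hv, ← Category.assoc, ← Spec.map_comp,
        TopCat.Presheaf.germ_stalkSpecializes]
      rfl
  refine ⟨ι, h1, fun a _ v hu hv => ?_⟩
  letI := sAlg W (P.A a)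
  have := dom_toF (W := W) (P.A a)
  apply ext_of_isDominant (ι := Spec.map (CommRingCat.ofHom
    (toF (P.A a) : Γ(W.X, P.A a) →+* W.FnField)))
  rw [P.gen_pt a₀ a v hu hv, ← Category.assoc, spec_toF, h2]

include P in
/-- **the closed immersion** -/
theorem exists_emb [IsProper W.toBase] :
    ∃ ι : W.X ⟶ projSpace k N, W.IsClosedEmbeddingInProjSpace N ι := by
  obtain ⟨ι, hι, hc⟩ := P.exists_mor
  have key : ∀ (a : P.α) (_ : Nonempty (P.A a)), IsPreimmersion ((P.aff a).fromSpec ≫ ι) ∧
      ∀ q i, ι ((P.aff a).fromSpec q) ∈ Proj.basicOpen (projGrading k N) (MvPolynomial.X i) ↔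
        P.t i / P.t (P.b a) ∉ van ((P.aff a).fromSpec q) := by
    intro a _
    letI := sAlg W (P.A a)
    obtain ⟨v, hv1, hv⟩ := P.exists_chart a
    have hu : IsUnit (v (P.b a)) := by rw [hv1]; exact isUnit_one
    have h1 := hc a v hu hv
    refine ⟨?_, fun q i => ?_⟩
    · have hu' : IsUnit (Crest.Agent.R270.Iso_927.ev (k := k) v (MvPolynomial.X (P.b a))) := by
        rw [ev_X]; exact hu
      have h2 : Algebra.adjoin k (Set.range v) = ⊤ := by
        rw [eq_top_iff]
        intro r _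
        have h3 : toF _ r ∈ Algebra.adjoin k (Set.range fun j => P.t j / P.t (P.b a)) :=
          P.gen a ((mem_reg_iff_exists (P.aff a) _).2 ⟨r, rfl⟩)
        rw [show (fun j => P.t j / P.t (P.b a)) = toF (P.A a) ∘ v from funext fun j => (hv j).symm,
          Set.range_comp, ← AlgHom.map_adjoin] at h3
        obtain ⟨r', hr', h4⟩ := h3
        rwa [← toF_inj _ h4]
      have h3 := IsClosedImmersion.spec_of_surjective (CommRingCat.ofHom (th v _ hu'))
        (th_surj v _ hv1 hu' h2)
      rw [h1]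
      unfold pt ptf
      infer_instance
    · rw [← Scheme.Hom.comp_apply, h1, ← hv, van_fromSpec]
      exact pt_mem v _ hv1 hu i q
  have hq : ∀ (a : P.α) (y : W.X), y ∈ P.A a → ∃ q, (P.aff a).fromSpec q = y := by
    intro a y hy
    have : y ∈ Set.range (P.aff a).fromSpec := by rw [(P.aff a).range_fromSpec]; exact hy
    exact this
  have hinj : Function.Injective ι := by
    intro y y' hyy
    obtain ⟨a, hy⟩ := P.cover y
    obtain ⟨a', hy'⟩ := P.cover y'
    obtain ⟨q, rfl⟩ := hq a y hy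
    have h1 := key a ⟨⟨_, hy⟩⟩
    have h2 : y' ∈ P.A a := by
      obtain ⟨q', rfl⟩ := hq a' y' hy'
      refine P.unit a a' _ hy' (((key a' ⟨⟨_, hy'⟩⟩).2 q' _).1 ?_)
      rw [← hyy, h1.2, div_self (P.ne a)]
      exact one_notMem_van _
    obtain ⟨q', rfl⟩ := hq a y' h2
    have h3 := h1.1
    rw [((P.aff a).fromSpec ≫ ι).isEmbedding.injective (a₁ := q) (a₂ := q') hyy]
  have hst : SurjectiveOnStalks ι := by
    refine ⟨fun y => ?_⟩
    obtain ⟨a, hy⟩ := P.cover y
    have h1 := (key a ⟨⟨_, hy⟩⟩).1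
    obtain ⟨q, rfl⟩ := hq a y hy
    have h2 := ((P.aff a).fromSpec ≫ ι).stalkMap_surjective q
    rw [Scheme.Hom.stalkMap_comp] at h2
    exact Function.Surjective.of_comp_left (f := (P.aff a).fromSpec.stalkMap q) h2
      (ConcreteCategory.bijective_of_isIso ((P.aff a).fromSpec.stalkMap q)).1
  have hpr : IsProper ι := by
    have : IsProper (ι ≫ projSpaceToBase k N) := by rw [hι]; infer_instance
    exact IsProper.of_comp ι (projSpaceToBase k N)
  exact ⟨ι, ⟨IsClosedEmbedding.of_continuous_injective_isClosedMap ι.continuous hinj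
    ι.isClosedMap⟩, hι⟩

end EmbD

/-- **projectivity** -/
theorem projective [IsAlgClosed k] [CharZero k] (V : SmPr k 2)
    (h : FinH (W := V.toIntegralKScheme) 0) : ∃ (N : ℕ) (ι : V.X ⟶ projSpace k N),
      V.toIntegralKScheme.IsClosedEmbeddingInProjSpace N ι := by
  obtain ⟨N, ⟨P⟩⟩ := exists_embD h
  have := V.proper
  exact ⟨N, P.exists_emb⟩

/-- the smooth projective surface -/
@[reducible] def toSPV [IsAlgClosed k] [CharZero k] (V : SmPr k 2)
    (h : FinH (W := V.toIntegralKScheme) 0) : SmoothProjectiveVariety k 2 :=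
  ⟨V.toIntegralKScheme, V.smooth, V.proper, projective V h⟩

end

end Crest.Agent.N265.Br
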