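import Crest.Agent.N265.Br.Rat
import Crest.Agent.N265.Br.Cone
import Crest.Agent.N265.Jac.Jac
import Crest.Agent.R270.Dic3_327

/-!
# Row 265, bridge, part 14 (helper42): the dictionary between a variety and its cone

`Sy : Sys V Var` a very ample system.

* `pr Sy ξ` : the homogeneous prime of the point `ξ`; `pr_le_iff`, `exists_pr`;
* `pt Sy x` : the closed point with homogeneous coordinates `x`;
* `surfOK`  : the cone over a surface satisfies `SurfOK`.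
-/

set_option autoImplicit false
set_option linter.unusedSectionVars false

open AlgebraicGeometry CategoryTheory Order TopologicalSpace MvPolynomial
open Crest.AlgGeometry.Prelude
open Crest.Agent.R274.Br179
open Crest.Agent.R270.Dic327 (Sys exists_frac spec_of_van)

namespace Crest.Agent.N265.Br

noncomputable section

/-- points with values in a field -/
abbrev KP {n : ℕ} (V : SmoothProjectiveVariety ℂ n) (L : Type) [Field L] [Algebra ℂ L] :=
  Crest.Agent.R270.Dic327.Pt V L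

variable {n : ℕ} {V : SmoothProjectiveVariety ℂ n} {Sy : Sys V Var}
  {L : Type} [Field L] [Algebra ℂ L] {L' : Type} [Field L'] [Algebra ℂ L']

theorem aeval_div {A : Type*} [Field A] [Algebra ℂ A] (t : Var → A) (c : A) {p : R} {m : ℕ}
    (hp : p.IsHomogeneous m) : aeval (fun v => t v / c) p = aeval t p / c ^ m := by
  rw [div_eq_inv_mul, ← inv_pow, ← aeval_smul_hom _ _ hp]
  simp only [div_eq_inv_mul]

theorem ratio_mem {x : V.X} {a : Var} (hx : x ∈ Sy.D a) {p : R} {m : ℕ}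
    (hp : p.IsHomogeneous m) : aeval Sy.t p / Sy.t a ^ m ∈ loc x := by
  rw [← aeval_div _ _ hp]
  exact R270.Dic327.aeval_mem_loc _ hx.2 p

theorem ev_ratio {P : KP V L} {v : Var → L} (hv : P.Rep Sy v) {a : Var} (ha : P.x ∈ Sy.D a)
    {p : R} {m : ℕ} (hp : p.IsHomogeneous m) :
    P.ev ⟨_, ratio_mem ha hp⟩ = aeval v p / v a ^ m := by
  rw [R270.Dic327.Pt.ev_chart hv ha _ hp rfl, aeval_div _ _ hp]

theorem van_iff {P : KP V L} {v : Var → L} (hv : P.Rep Sy v) {a : Var} (ha : P.x ∈ Sy.D a)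
    {p : R} {m : ℕ} (hp : p.IsHomogeneous m) :
    aeval v p = 0 ↔ aeval Sy.t p / Sy.t a ^ m ∈ van P.x := by
  rw [← P.ev_zero ⟨_, ratio_mem ha hp⟩, ev_ratio hv ha hp, div_eq_zero_iff,
    or_iff_left (pow_ne_zero _ (hv.ne ha))]

theorem rep_le {P : KP V L} {v : Var → L} (hv : P.Rep Sy v) : cI Sy.t ≤ cI v := by
  obtain ⟨a, ha⟩ := Sy.cov P.x
  refine cI_le_iff.2 fun m p hp h => (van_iff hv ha hp).2 ?_
  rw [h, zero_div]
  exact zero_mem_van _

theorem ev_forms {P : KP V L} {v : Var → L} (hv : P.Rep Sy v) {f : V.FnField} (hf : f ∈ loc P.x)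
    {p q : R} {m : ℕ} (hp : p.IsHomogeneous m) (hq : q.IsHomogeneous m)
    (h : f * aeval Sy.t q = aeval Sy.t p) : P.ev ⟨f, hf⟩ * aeval v q = aeval v p := by
  obtain ⟨a, ha⟩ := Sy.cov P.x
  have h1 : P.ev ⟨f, hf⟩ * P.ev ⟨_, ratio_mem ha hq⟩ = P.ev ⟨_, ratio_mem ha hp⟩ := by
    rw [← map_mul]
    congr 1
    exact Subtype.ext (show f * (_ / _) = _ / _ by rw [← mul_div_assoc, h])
  rwa [ev_ratio hv ha hp, ev_ratio hv ha hq, ← mul_div_assoc,
    div_left_inj' (pow_ne_zero _ (hv.ne ha))] at h1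

theorem exists_rep (hVA : Sy.VA) {v : Var → L} (hv : v ≠ 0) (hle : cI Sy.t ≤ cI v) :
    ∃ P : KP V L, P.Rep Sy v := by
  obtain ⟨P, hP⟩ := R270.Dic327.exists_pt_of_onX (S := fun _ : Unit => Sy) () hVA
    (v := fun _ => v) (by
      rintro p ⟨⟨d, hd⟩, h0⟩
      have h1 : (rename (fun x : Σ _ : Unit, Var => x.2) p).IsHomogeneous (d ()) := by
        refine IsHomogeneous.rename_isHomogeneous fun m hm => ?_
        have h2 := congrFun (hd hm) ()
        rw [Finsupp.weight_apply, Finsupp.sum, Finset.sum_apply] at h2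
        rw [Finsupp.weight_apply, Finsupp.sum, ← h2]
        simp
      have h2 := cI_le_iff.1 hle _ _ h1 (by rw [aeval_rename]; exact h0)
      rwa [aeval_rename] at h2) fun _ => hv
  exact ⟨P, hP ()⟩

theorem hom_mul_X_pow {p : R} {r : ℕ} (hp : p.IsHomogeneous r) (a : Var) (s : ℕ) :
    (p * X a ^ s).IsHomogeneous (r + s) := by
  have := hp.mul ((isHomogeneous_X ℂ a).pow s)
  rwa [one_mul] at this

/-- local functions are quotients of forms -/
theorem exists_forms (hVA : Sy.VA) {x : V.X} {a : Var} (hx : x ∈ Sy.D a) {f : V.FnField}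
    (hf : f ∈ loc x) : ∃ (m : ℕ) (p q : R), p.IsHomogeneous m ∧ q.IsHomogeneous m ∧
      aeval Sy.t q / Sy.t a ^ m ∉ van x ∧ f * aeval Sy.t q = aeval Sy.t p := by
  obtain ⟨U, hU, hUD⟩ := hVA.aff a hx.1
  obtain ⟨g, hg, d, hd, hdv, hdf⟩ := exists_frac hU (hUD.ge hx) hf
  obtain ⟨r, p, hp, hgp⟩ := hVA.gen a hx.1 g (hUD ▸ hg)
  obtain ⟨s, q, hq, hdq⟩ := hVA.gen a hx.1 d (hUD ▸ hd)
  have h0 := hx.1
  refine ⟨r + s, p * X a ^ s, q * X a ^ r, hom_mul_X_pow hp a s,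
    add_comm s r ▸ hom_mul_X_pow hq a r, ?_, ?_⟩
  · convert hdv using 1
    rw [hdq, map_mul, map_pow, aeval_X, pow_add]
    field_simp
  · rw [eq_div_iff (pow_ne_zero _ h0)] at hgp hdq
    rw [map_mul, map_mul, map_pow, map_pow, aeval_X, ← hgp, ← hdq, ← hdf]
    ring

theorem le_iff_spec (hVA : Sy.VA) {P : KP V L} {v : Var → L} (hv : P.Rep Sy v) {Q : KP V L'}
    {w : Var → L'} (hw : Q.Rep Sy w) : cI v ≤ cI w ↔ P.x ⤳ Q.x := by
  obtain ⟨a, ha⟩ := Sy.cov Q.x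
  constructor
  · intro h
    have hP : P.x ∈ Sy.D a := (hv.mem_iff a).2 fun h0 =>
      hw.ne ha (X_mem_cI.1 (h (X_mem_cI.2 h0)))
    obtain ⟨U, hU, hUD⟩ := hVA.aff a ha.1
    refine spec_of_van hU (hUD.ge hP) (hUD.ge ha)
      fun f hf hfv => ?_
    obtain ⟨r, p, hp, rfl⟩ := hVA.gen a ha.1 f (hUD ▸ hf)
    exact (van_iff hw ha hp).1 (cI_le_iff.1 h _ _ hp ((van_iff hv hP hp).2 hfv))
  · intro h
    refine cI_le_iff.2 fun m p hp h0 => (van_iff hw ha hp).2 ?_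
    exact van_spec h (ratio_mem ha hp) ((van_iff hv (Sys.D_of_spec h ha) hp).1 h0)

/-- the tautological point -/
def ptR (ξ : V.X) : KP V (V.ResField ξ) :=
  ⟨ξ, ev (W := V.toIntegralKScheme) ξ, ev_zero (W := V.toIntegralKScheme) ξ⟩

variable (Sy) in
/-- homogeneous coordinates of `ξ` -/
def rp (ξ : V.X) : Var → V.ResField ξ := ((ptR ξ).exists_rep Sy).choose

theorem rp_spec (ξ : V.X) : (ptR ξ).Rep Sy (rp Sy ξ) := ((ptR ξ).exists_rep Sy).choose_spec

variable (Sy) in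
/-- the homogeneous prime of `ξ` -/
def pr (ξ : V.X) : Ideal R := cI (rp Sy ξ)

instance pr_prime (ξ : V.X) : (pr Sy ξ).IsPrime := cI_prime _

theorem pr_le_iff (hVA : Sy.VA) {ξ η : V.X} : pr Sy ξ ≤ pr Sy η ↔ ξ ⤳ η :=
  le_iff_spec hVA (rp_spec ξ) (rp_spec η)

theorem pr_eq (hVA : Sy.VA) {P : KP V L} {v : Var → L} (hv : P.Rep Sy v) : pr Sy P.x = cI v :=
  le_antisymm ((le_iff_spec hVA (rp_spec _) hv).2 specializes_rfl)
    ((le_iff_spec hVA hv (rp_spec _)).2 specializes_rfl)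

theorem pr_inj (hVA : Sy.VA) : Function.Injective (pr Sy) := fun _ _ h =>
  (((pr_le_iff hVA).1 h.le).antisymm ((pr_le_iff hVA).1 h.ge)).eq

theorem pr_lt_iff (hVA : Sy.VA) {ξ η : V.X} : pr Sy ξ < pr Sy η ↔ ξ ⤳ η ∧ ξ ≠ η := by
  rw [lt_iff_le_and_ne, pr_le_iff hVA, (pr_inj hVA).ne_iff]

theorem mem_pr {ξ : V.X} {a : Var} (ha : ξ ∈ Sy.D a) {p : R} {m : ℕ} (hp : p.IsHomogeneous m) :
    p ∈ pr Sy ξ ↔ aeval Sy.t p / Sy.t a ^ m ∈ van ξ :=
  (mem_cI_hom hp).trans (van_iff (rp_spec ξ) ha hp)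

theorem pr_generic : pr Sy (genericPoint V.X) = cI Sy.t := by
  refine le_antisymm (cI_le_iff.2 fun m p hp h => ?_) (rep_le (rp_spec _))
  obtain ⟨a, ha⟩ := Sy.cov (genericPoint V.X)
  by_contra h0
  exact notMem_van_generic (div_ne_zero h0 (pow_ne_zero _ ha.1))
    ((van_iff (rp_spec _) ha hp).1 h)

theorem closed_of_pt (P : KP V ℂ) : IsClosed ({P.x} : Set V.X) := by
  refine isClosed_of_const (W := V.toIntegralKScheme) fun f hf => ⟨P.ev ⟨f, hf⟩, ?_⟩
  refine (P.ev_zero (⟨f, hf⟩ - algebraMap ℂ _ (P.ev ⟨f, hf⟩))).1 ?_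
  rw [map_sub, AlgHom.commutes]
  exact sub_self _

theorem bij_of_closed {y : V.X} (hy : IsClosed ({y} : Set V.X)) :
    Function.Bijective (algebraMap ℂ (V.ResField y)) := by
  refine ⟨RingHom.injective _, fun a => ?_⟩
  obtain ⟨f, hf, rfl⟩ := exists_E (W := V.toIntegralKScheme) a
  obtain ⟨c, hc⟩ := R274.Int2_375.exists_const V hy hf
  have h1 := const_mem_loc V.toIntegralKScheme y c
  rw [← E_eq_zero (W := V.toIntegralKScheme) (sub_mem hf h1), E_sub hf h1, E_const,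
    sub_eq_zero] at hc
  exact ⟨c, hc.symm⟩

theorem exists_pt_of_closed {y : V.X} (hy : IsClosed ({y} : Set V.X)) :
    ∃ P : KP V ℂ, P.x = y := by
  let e := AlgEquiv.ofBijective (Algebra.ofId ℂ (V.ResField y)) (bij_of_closed hy)
  exact ⟨⟨y, e.symm.toAlgHom.comp (ptR y).ev, fun f =>
    (map_eq_zero_iff _ e.symm.injective).trans ((ptR y).ev_zero f)⟩, rfl⟩

theorem pt_ext {P Q : KP V ℂ} (h : P.x = Q.x) : P = Q := by
  refine R270.Dic327.Pt.ext' h fun f hf hf' => ?_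
  have h1 := (P.ev_zero (⟨f, hf⟩ - algebraMap ℂ _ (P.ev ⟨f, hf⟩))).1 (by
    rw [map_sub, AlgHom.commutes]; exact sub_self _)
  have h2 := (Q.ev_zero (⟨f, hf'⟩ - algebraMap ℂ _ (P.ev ⟨f, hf⟩))).2 
    ((congrArg van h).le h1)
  rw [map_sub, AlgHom.commutes, sub_eq_zero] at h2
  exact h2.symm

open Classical in
variable (Sy) in
/-- the point with homogeneous coordinates `x` -/
def pt (x : Pt) : V.X := if h : ∃ P : KP V ℂ, P.Rep Sy x then h.choose.x else genericPoint V.X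

theorem pt_eq (hVA : Sy.VA) {P : KP V ℂ} {x : Pt} (h : P.Rep Sy x) : pt Sy x = P.x := by
  have h1 : ∃ P : KP V ℂ, P.Rep Sy x := ⟨P, h⟩
  rw [pt, dif_pos h1, R270.Dic327.pt_unique hVA h1.choose_spec h]

variable {b : ℕ} (hS : Supp b Sy.t) (hVA : Sy.VA)
include hVA

theorem exists_rep_of_mem {x : Pt} (hx : x ∈ (cone b Sy.t hS).pts) :
    ∃ P : KP V ℂ, P.Rep Sy x ∧ pt Sy x = P.x :=
  let ⟨P, hP⟩ := exists_rep hVA hx.1 hx.2; ⟨P, hP, pt_eq hVA hP⟩

theorem isClosed_pt {x : Pt} (hx : x ∈ (cone b Sy.t hS).pts) :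
    IsClosed ({pt Sy x} : Set V.X) := by
  obtain ⟨P, -, h⟩ := exists_rep_of_mem hS hVA hx
  rw [h]
  exact closed_of_pt P

theorem pr_pt {x : Pt} (hx : x ∈ (cone b Sy.t hS).pts) : pr Sy (pt Sy x) = cI x := by
  obtain ⟨P, hP, h⟩ := exists_rep_of_mem hS hVA hx
  rw [h, pr_eq hVA hP]

theorem pt_surj {y : V.X} (hy : IsClosed ({y} : Set V.X)) :
    ∃ x ∈ (cone b Sy.t hS).pts, pt Sy x = y := by
  obtain ⟨P, rfl⟩ := exists_pt_of_closed hy
  obtain ⟨x, hx⟩ := P.exists_rep Sy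
  exact ⟨x, ⟨hx.1, rep_le hx⟩, pt_eq hVA hx⟩

theorem pt_smul {x : Pt} (hx : x ∈ (cone b Sy.t hS).pts) {c : ℂ} (hc : c ≠ 0) :
    pt Sy (c • x) = pt Sy x := by
  obtain ⟨P, hP, h⟩ := exists_rep_of_mem hS hVA hx
  rw [h, pt_eq hVA (hP.smul hc)]

theorem pt_eq_iff {x y : Pt} (hx : x ∈ (cone b Sy.t hS).pts) (hy : y ∈ (cone b Sy.t hS).pts) :
    pt Sy x = pt Sy y ↔ ∃ c : ℂ, c ≠ 0 ∧ y = c • x := by
  refine ⟨fun h => ?_, fun ⟨c, hc, h⟩ => by rw [h, pt_smul hS hVA hx hc]⟩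
  obtain ⟨P, hP, h1⟩ := exists_rep_of_mem hS hVA hx
  obtain ⟨Q, hQ, h2⟩ := exists_rep_of_mem hS hVA hy
  obtain rfl := pt_ext (h1.symm.trans (h.trans h2))
  exact hP.unique hQ

theorem exists_pr {P : Ideal R} (hP : RPr (cone b Sy.t hS) P) : ∃ ξ, pr Sy ξ = P := by
  obtain ⟨L, _, _, v, hv, rfl⟩ := exists_of_rpr hS hP
  obtain ⟨Q, hQ⟩ := exists_rep hVA hv (cone_I hS ▸ hP.le)
  exact ⟨Q.x, pr_eq hVA hQ⟩

omit hVA in
theorem rpr_pr (ξ : V.X) : RPr (cone b Sy.t hS) (pr Sy ξ) :=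
  rpr_cI hS (rep_le (rp_spec ξ)) (rp_spec ξ).1

omit hVA in
theorem I_eq_pr : (cone b Sy.t hS).I = pr Sy (genericPoint V.X) := by
  rw [cone_I, pr_generic]

end

/-! ### surfaces -/

noncomputable section

variable {V : SmoothProjectiveVariety ℂ 2} {Sy : Sys V Var}

theorem coheight_generic {X : Scheme.{0}} [IsIntegral X] : coheight (genericPoint X) = 0 := by
  rw [Order.coheight_eq_zero]
  exact fun v _ => genericPoint_specializes v

theorem exists_curve {y : V.X} (hy : IsClosed ({y} : Set V.X)) :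
    ∃ ξ, coheight ξ = 1 ∧ ξ ⤳ y ∧ ξ ≠ y := by
  have h1 : coheight y = ((1 : ℕ) : ℕ∞) + 1 := coheight_closed (ofSPV V) hy
  obtain ⟨-, ⟨ξ, h2, h3⟩, -⟩ := Order.coheight_eq_coe_add_one_iff.1 h1
  exact ⟨ξ, h3, h2.le, h2.ne'⟩

theorem phi_rel {L : Type*} [Field L] [Algebra ℂ L] {t : Var → L} {p q r s : R} {m e : ℕ}
    (hp : phi t p = Polynomial.monomial m (aeval t p))
    (hr : phi t r = Polynomial.monomial m (aeval t r))
    (hq : phi t q = Polynomial.monomial e (aeval t q))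
    (hs : phi t s = Polynomial.monomial e (aeval t s))
    (h : aeval t p * aeval t q = aeval t r * aeval t s) : p * q - r * s ∈ cI t := by
  rw [mem_cI, map_sub, map_mul, map_mul, hp, hq, hr, hs, Polynomial.monomial_mul_monomial,
    Polynomial.monomial_mul_monomial, h, sub_self]

variable {b : ℕ} (hS : Supp b Sy.t) (hVA : Sy.VA)
include hVA

/-- **the cone over a smooth surface** -/
theorem surfOK : SurfOK (cone b Sy.t hS) b where
  blk := rfl
  wt0 := cone_ttriv hS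
  irr := cone_irred hS
  dim Q P P' hQ hP hP' h1 h2 h3 := by
    obtain ⟨q, rfl⟩ := exists_pr hS hVA hQ
    obtain ⟨p, rfl⟩ := exists_pr hS hVA hP
    obtain ⟨p', rfl⟩ := exists_pr hS hVA hP'
    rw [I_eq_pr, pr_lt_iff hVA] at h1
    rw [pr_lt_iff hVA] at h2 h3
    have h4 := coheight_succ_le_of_specializes h1.1 h1.2
    have h5 := coheight_succ_le_of_specializes h2.1 h2.2
    have h6 := coheight_succ_le_of_specializes h3.1 h3.2
    rw [coheight_generic] at h4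
    have h7 : (0 + 1 + 1 + 1 : ℕ∞) ≤ (2 : ℕ) := ((add_le_add_left
      ((add_le_add_left h4 1).trans h5) 1).trans h6).trans (coheight_le (ofSPV V) p')
    norm_num at h7
  big x hx := by
    rw [lineI_eq, ← pr_pt hS hVA hx, I_eq_pr, pr_lt_iff hVA]
    refine ⟨genericPoint_specializes _, fun h => ?_⟩
    have h1 := coheight_closed (ofSPV V) (isClosed_pt hS hVA hx)
    rw [← h, coheight_generic] at h1
    norm_num at h1
  nrm d a a' ha ha' h0 h0' := by
    rw [cone_I] at h0 h0' ⊢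
    have h1 := (hS.blk.mem_cI_hmg ha).not.1 h0
    have h1' := (hS.blk.mem_cI_hmg ha').not.1 h0'
    by_cases hf : ∀ y : V.X, aeval Sy.t a / aeval Sy.t a' ∈ loc y
    · refine Or.inl fun x hx => ?_
      obtain ⟨P, hP, -⟩ := exists_rep_of_mem hS hVA hx
      obtain ⟨c, hc⟩ := Sy.cov P.x
      obtain ⟨m, p, q, hp, hq, hqv, hpq⟩ := exists_forms hVA hc (hf P.x)
      refine ⟨q, p, (van_iff hP hc hq).not.2 hqv, phi_rel (phi_hom _ hq) (phi_hom _ hp)
        (hS.blk.phi_hmg ha) (hS.blk.phi_hmg ha') ?_⟩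
      rw [← hpq]
      field_simp
    · simp only [mem_loc_iff, not_forall, not_le] at hf
      obtain ⟨-, ξ, -, hξ⟩ := hf
      have hf0 := div_ne_zero h1 h1'
      have hξ1 : coheight ξ = 1 := (IsWD.ord (V := V.toIntegralKScheme) hf0).codim ξ hξ.ne
      have h2 : (aeval Sy.t a / aeval Sy.t a')⁻¹ ∈ loc ξ := mem_loc_iff.2 fun z hz => by
        rw [ord_inv]
        by_cases hne : z = ξ
        · rw [hne]; omega
        · rw [wd_spec (IsWD.ord (V := V.toIntegralKScheme) hf0) hξ1 hz hne, neg_zero]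
      have h3 : (aeval Sy.t a / aeval Sy.t a')⁻¹ ∈ van ξ := by
        by_contra h
        have := ord_eq_zero_of_notMem_van specializes_rfl h2 h
        rw [ord_inv] at this
        omega
      obtain ⟨c, hc⟩ := Sy.cov ξ
      obtain ⟨m, p, q, hp, hq, hqv, hpq⟩ := exists_forms hVA hc h2
      obtain ⟨y, hy, hne⟩ := exists_spec (V := ofSPV V) hξ1
      refine Or.inr ⟨pr Sy ξ, pr Sy y, m • eB b, kb b p, kb b q, rpr_pr hS ξ, rpr_pr hS y,
        (pr_lt_iff hVA).2 ⟨hy, hne.symm⟩, kb_hmg b hp, kb_hmg b hq, ?_, ?_, ?_⟩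
      · rw [mem_pr hc (kb_hom b hp), hS.blk.aeval_kb, ← hpq, mul_div_assoc, mul_comm]
        exact mul_mem_van (ratio_mem hc hq) h3
      · rwa [mem_pr hc (kb_hom b hq), hS.blk.aeval_kb]
      · refine phi_rel (hS.blk.phi_hmg ha') (hS.blk.phi_hmg ha) (phi_hom _ (kb_hom b hq))
          (phi_hom _ (kb_hom b hp)) ?_
        rw [hS.blk.aeval_kb, hS.blk.aeval_kb, ← hpq]
        field_simp

theorem le_ldim {x : Pt} (hx : x ∈ (cone b Sy.t hS).pts) :
    ((3 : ℕ) : ℕ∞) ≤ (cone b Sy.t hS).ldim x := by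
  obtain ⟨ξ, h1, h2, h3⟩ := exists_curve (isClosed_pt hS hVA hx)
  have h4 : pr Sy (genericPoint V.X) < pr Sy ξ := (pr_lt_iff hVA).2
    ⟨genericPoint_specializes _, fun h => by rw [← h, coheight_generic] at h1; norm_num at h1⟩
  have h5 : pr Sy ξ < pr Sy (pt Sy x) := (pr_lt_iff hVA).2 ⟨h2, h3⟩
  have h6 : pr Sy (pt Sy x) < mx x := by
    rw [pr_pt hS hVA hx]
    obtain ⟨v, hv⟩ := Function.ne_iff.1 hx.1
    refine lt_of_le_not_ge (fun r hr => aeval_of_mem' hr) fun h => hv ?_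
    have := aeval_of_mem (h (Jac.X_sub_mem_mx x v)) 0
    simpa using this
  let s : LTSeries (PrimeSpectrum R) := LTSeries.mk 3
    ![⟨pr Sy (genericPoint V.X), inferInstance⟩, ⟨pr Sy ξ, inferInstance⟩,
      ⟨pr Sy (pt Sy x), inferInstance⟩, ⟨mx x, inferInstance⟩]
    (Fin.strictMono_iff_lt_succ.2 fun i => by
      fin_cases i
      exacts [h4, h5, h6])
  exact (Jac.hq_le_iff (Jac.I_le_mx hx)).1 le_rfl s (I_eq_pr hS).le le_rfl

end

end Crest.Agent.N265.Br
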