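import Crest.Agent.N265.Br.Dic
import Crest.Agent.N265.Br.Surf
import Crest.Agent.R270.Cn7_611

/-!
# Row 265, bridge, part 15 (helper42): curves on the cone, smoothness of the cone

* `ratEq_le` : `RatEq S` maps to `Rat V` under `pt`;
* `extS b S₀` : a finite system placed on the block `b`; `cone_sm` : the cone is smooth.
-/

set_option autoImplicit false
set_option linter.unusedSectionVars false

open AlgebraicGeometry CategoryTheory Order TopologicalSpace MvPolynomial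
open Crest.AlgGeometry.Prelude
open Crest.Agent.R274.Br179
open Crest.Agent.R270.Dic327 (Sys)
open Crest.Agent.R013.RR7_948 Crest.Agent.R013.RR11_948

namespace Crest.Agent.N265.Br

noncomputable section

section Val

variable {K : Type*} [Field K] [Algebra ℂ K]

theorem v_const_le (Q : Pl ℂ K) (c : ℂ) : Q.v (algebraMap ℂ K c) ≤ 1 := by
  by_cases hc : c = 0
  · simp [hc]
  · exact (Q.const c hc).le

theorem v_le_of_sub (Q : Pl ℂ K) {a : K} {c : ℂ} (h : Q.v (a - algebraMap ℂ K c) < 1) :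
    Q.v a ≤ 1 := by
  have := Q.v.map_add_le h.le (v_const_le Q c)
  rwa [sub_add_cancel] at this

theorem v_eq_of_sub (Q : Pl ℂ K) {a : K} {c : ℂ} (hc : c ≠ 0)
    (h : Q.v (a - algebraMap ℂ K c) < 1) : Q.v a = 1 := by
  rw [← Q.const c hc] at h ⊢
  exact Q.v.map_eq_of_sub_lt h

theorem v_aeval (Q : Pl ℂ K) {w : Var → K} {x : Pt}
    (h : ∀ v, Q.v (w v - algebraMap ℂ K (x v)) < 1) (p : R) :
    Q.v (aeval w p - algebraMap ℂ K (eval x p)) < 1 := by
  induction p using MvPolynomial.induction_on with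
  | C c => simp
  | add p q hp hq =>
    rw [map_add, map_add, map_add, add_sub_add_comm]
    exact Q.v.map_add_lt hp hq
  | mul_X p v hp =>
    have h1 : aeval w (p * X v) - algebraMap ℂ K (eval x (p * X v)) =
        (aeval w p - algebraMap ℂ K (eval x p)) * w v +
          (w v - algebraMap ℂ K (x v)) * algebraMap ℂ K (eval x p) := by
      simp only [map_mul, aeval_X, eval_X]
      ring
    rw [h1]
    refine Q.v.map_add_lt ?_ ?_ <;> rw [map_mul]
    · exact mul_lt_one_of_lt_of_le hp (v_le_of_sub Q (h v))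
    · exact mul_lt_one_of_lt_of_le (h v) (v_const_le Q _)

variable {K' : Type*} [Field K'] [Algebra ℂ K']

/-- transport of places -/
def plMap (e : K' ≃ₐ[ℂ] K) (Q : Pl ℂ K) : Pl ℂ K' where
  v := Q.v.comap (e : K' →+* K)
  const c hc := (congrArg Q.v (e.commutes c)).trans (Q.const c hc)
  surj := Q.surj.comp e.surjective

/-- transport of places -/
def plE (e : K' ≃ₐ[ℂ] K) : Pl ℂ K ≃ Pl ℂ K' where
  toFun := plMap e
  invFun := plMap e.symm
  left_inv Q := Pl.ext (Valuation.ext fun a => congrArg Q.v (e.apply_symm_apply a))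
  right_inv Q := Pl.ext (Valuation.ext fun a => congrArg Q.v (e.symm_apply_apply a))

theorem plE_v (e : K' ≃ₐ[ℂ] K) (Q : Pl ℂ K) (a : K') : (plE e Q).v a = Q.v (e a) := rfl

variable [Algebra (RatFunc ℂ) K] [IsScalarTower ℂ (RatFunc ℂ) K]
  [FiniteDimensional (RatFunc ℂ) K] [Algebra.IsSeparable (RatFunc ℂ) K]

theorem trdeg_one {K : Type} [Field K] [Algebra ℂ K] [Algebra (RatFunc ℂ) K]
    [IsScalarTower ℂ (RatFunc ℂ) K] [FiniteDimensional (RatFunc ℂ) K] :
    Algebra.trdeg ℂ K = 1 := by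
  rw [← trdeg_add_eq ℂ (RatFunc ℂ), trdeg_eq_zero (R := RatFunc ℂ), add_zero,
    ← trdeg_add_eq ℂ (Polynomial ℂ), Polynomial.trdeg_of_isDomain,
    trdeg_eq_zero_iff.2 (IsLocalization.isAlgebraic _ (nonZeroDivisors _)), add_zero]

variable [Algebra (RatFunc ℂ) K'] [IsScalarTower ℂ (RatFunc ℂ) K']
  [FiniteDimensional (RatFunc ℂ) K'] [Algebra.IsSeparable (RatFunc ℂ) K']

theorem divf_plE (e : K' ≃ₐ[ℂ] K) {f : K'} (hf : f ≠ 0) :
    divf (k := ℂ) f = (divf (k := ℂ) (e f)).mapDomain (plE e) := by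
  ext Q
  obtain ⟨Q, rfl⟩ := (plE e).surjective Q
  rw [Finsupp.mapDomain_apply (plE e).injective]
  have h1 := plE_v e Q f
  rw [v_eq hf, v_eq ((map_ne_zero e).2 hf), WithZero.exp_inj, neg_inj] at h1
  exact h1

end Val

section Pts

variable {n : ℕ} {V : SmoothProjectiveVariety ℂ n} {Sy : Sys V Var}
  {L : Type} [Field L] [Algebra ℂ L]

theorem exists_resEquiv (P : KP V L) (h : Function.Surjective P.ev) :
    ∃ e : V.ResField P.x ≃ₐ[ℂ] L, ∀ (f : V.FnField) (hf : f ∈ loc P.x),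
      e (E (W := V.toIntegralKScheme) P.x f) = P.ev ⟨f, hf⟩ := by
  have h1 := ev_surjective (W := V.toIntegralKScheme) P.x
  have h2 : RingHom.ker (ev (W := V.toIntegralKScheme) P.x).toRingHom ≤
      RingHom.ker P.ev.toRingHom := fun f hf => (P.ev_zero f).2 ((ev_zero _ f).1 hf)
  refine ⟨AlgEquiv.ofBijective (AlgHom.liftOfSurjective _ h1 P.ev h2) ⟨RingHom.injective _,
    AlgHom.liftOfSurjective_surjective _ h1 _ h2 h⟩, fun f hf => ?_⟩
  rw [E_eq hf]
  exact AlgHom.liftOfSurjective_apply _ h1 _ h2 _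

theorem ev_surj {b : ℕ} {P : KP V L} {v : Var → L} (hv : P.Rep Sy v) (hb : Blk b v)
    (h : ∀ f : L, ∃ (d : D) (a a' : R), Hmg d a ∧ Hmg d a' ∧ aeval v a' ≠ 0 ∧
      f * aeval v a' = aeval v a) : Function.Surjective P.ev := by
  intro f
  obtain ⟨d, a, a', ha, ha', h0, hf⟩ := h f
  rw [hb.aeval_hmg ha'] at h0 hf
  rw [hb.aeval_hmg ha] at hf
  obtain ⟨c, hc⟩ := Sy.cov P.x
  have h1 := homogeneousComponent_isHomogeneous (dg b d) a
  have h2 := homogeneousComponent_isHomogeneous (dg b d) a'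
  have h3 := (van_iff hv hc h2).not.1 h0
  refine ⟨⟨_, R270.Dic327.Pt.div_mem (ratio_mem hc h1) (ratio_mem hc h2) h3⟩, ?_⟩
  rw [P.ev_div (ratio_mem hc h1) (ratio_mem hc h2) h3, ev_ratio hv hc h1, ev_ratio hv hc h2,
    div_div_div_cancel_right₀ (pow_ne_zero _ (hv.ne hc)), ← hf, mul_div_cancel_right₀ _ h0]

theorem spec_of_cen (hVA : Sy.VA) {P : KP V L} {v : Var → L} (hv : P.Rep Sy v) {P' : KP V ℂ}
    {x : Pt} (hx : P'.Rep Sy x) (Q : Pl ℂ L) {c : L}
    (h : ∀ w, Q.v (c * v w - algebraMap ℂ L (x w)) < 1) :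
    ∃ hs : P.x ⤳ P'.x, ∀ f (hf : f ∈ loc P'.x), Q.v (P.ev ⟨f, loc_le hs hf⟩) ≤ 1 := by
  have key : ∀ {m : ℕ} {p : R}, p.IsHomogeneous m →
      Q.v (c ^ m * aeval v p - algebraMap ℂ L (eval x p)) < 1 := fun hp => by
    rw [← aeval_smul_hom _ _ hp]
    exact v_aeval Q h _
  have hs : P.x ⤳ P'.x := (le_iff_spec hVA hv hx).1 (cI_le_iff.2 fun m p hp h0 => by
    have h1 := key hp
    rw [h0, mul_zero, zero_sub, Valuation.map_neg] at h1
    by_contra h2
    exact h1.ne (Q.const _ h2))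
  refine ⟨hs, fun f hf => ?_⟩
  obtain ⟨a, ha⟩ := Sy.cov P'.x
  obtain ⟨m, p, q, hp, hq, hqv, hpq⟩ := exists_forms hVA ha hf
  have h1 := v_eq_of_sub Q ((van_iff hx ha hq).not.2 hqv) (key hq)
  have h2 := v_le_of_sub Q (key hp)
  rwa [← ev_forms hv (loc_le hs hf) hp hq hpq, mul_left_comm, map_mul, h1, mul_one] at h2

end Pts

section Rat

variable {V : SmoothProjectiveVariety ℂ 2} {Sy : Sys V Var}

theorem coheight_of_trdeg {ξ : V.X} (h : Algebra.trdeg ℂ (V.ResField ξ) = 1) :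
    coheight ξ = 1 := by
  have h1 : ξ ≠ genericPoint V.X := by
    rintro rfl
    obtain ⟨e, -⟩ := exists_resEquiv (V := V) ⟨genericPoint V.X,
      (locA V.toIntegralKScheme _).val, fun f => ⟨fun h0 => by
        rw [show (f : V.FnField) = 0 from h0]; exact zero_mem_van _,
        fun h0 => by_contra fun h1 => notMem_van_generic h1 h0⟩⟩
      fun f => ⟨⟨f, mem_loc_generic f⟩, rfl⟩
    rw [e.trdeg_eq, trdeg_eq V] at h
    norm_num at h
  have h2 : ¬ IsClosed ({ξ} : Set V.X) := fun hc => by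
    rw [← (AlgEquiv.ofBijective (Algebra.ofId ℂ _) (bij_of_closed hc)).trdeg_eq,
      trdeg_eq_zero] at h
    exact zero_ne_one h
  rw [R274.Int2_375.isClosed_singleton_iff, not_forall] at h2
  obtain ⟨y, hy⟩ := h2
  rw [Classical.not_imp] at hy
  have h3 := (coheight_succ_le_of_specializes hy.1 (Ne.symm hy.2)).trans
    (coheight_le (ofSPV V) y)
  refine le_antisymm ?_ (one_le_coheight_of_ne_genericPoint h1)
  exact (ENat.add_le_add_iff_right ENat.one_ne_top).1 h3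

variable {b : ℕ} (hS : Supp b Sy.t) (hVA : Sy.VA)
include hVA

theorem crv_mem (C : Crv (cone b Sy.t hS)) (c : Pl ℂ C.K → Pt) (hc : ∀ Q, C.Cen Q (c Q))
    {f : C.K} (hf : f ≠ 0) :
    ((divf (k := ℂ) f).mapDomain c).mapDomain (pt Sy) ∈ Rat (ofSPV V) := by
  by_cases h0 : C.ξ = 0
  · have : divf (k := ℂ) f = 0 := by
      ext Q
      obtain ⟨hx, a, ha⟩ := hc Q
      obtain ⟨v, hv⟩ := Function.ne_iff.1 hx.1
      have h1 := ha v
      rw [h0, Pi.zero_apply, mul_zero, zero_sub, Valuation.map_neg, Q.const _ hv] at h1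
      exact absurd h1 (lt_irrefl _)
    rw [this, Finsupp.mapDomain_zero, Finsupp.mapDomain_zero]
    exact zero_mem _
  have hle : cI Sy.t ≤ cI C.ξ := cI_le_iff'.2 fun r hr => C.hI r ((cone_I hS).ge hr)
  obtain ⟨P, hP⟩ := exists_rep hVA h0 hle
  obtain ⟨e, he⟩ := exists_resEquiv P (ev_surj hP (hS.blk.of_le hle) C.gen)
  have hξ : coheight P.x = 1 := coheight_of_trdeg (e.trdeg_eq.trans trdeg_one)
  obtain ⟨_, _, _, _⟩ := exists_ctx (V := ofSPV V) hξ
  have h1 := cyc_mem_Rat (V := ofSPV V) hξ (e.symm f)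
  rw [cyc, divf_plE e ((map_ne_zero _).2 hf), e.apply_symm_apply, ← Finsupp.mapDomain_comp] at h1
  rw [← Finsupp.mapDomain_comp]
  convert h1 using 2
  funext Q
  obtain ⟨hx, a, ha⟩ := hc Q
  obtain ⟨P', hP', h2⟩ := exists_rep_of_mem hS hVA hx
  obtain ⟨hs, h3⟩ := spec_of_cen hVA hP hP' Q ha
  refine (h2.trans ((ctr_eq_iff (V := ofSPV V)).2 ⟨hs, fun h => ?_, fun g hg => ?_⟩).symm :)
  · exact not_isClosed (V := ofSPV V) hξ (h ▸ closed_of_pt P')
  · rw [plE_v, he g (loc_le hs hg)]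
    exact h3 g hg

/-- **rational equivalence on the cone implies rational equivalence on the surface** -/
theorem ratEq_le {z : Pt →₀ ℤ} (hz : z ∈ RatEq (cone b Sy.t hS)) :
    z.mapDomain (pt Sy) ∈ Rat (ofSPV V) := by
  refine (AddSubgroup.closure_le ((Rat (ofSPV V)).comap
    (Finsupp.mapDomain.addMonoidHom (pt Sy)))).2 ?_ hz
  rintro _ (⟨x, hx, c, hc, rfl⟩ | ⟨C, c, f, hc, hf, rfl⟩)
  · rw [SetLike.mem_coe, AddSubgroup.mem_comap, map_sub]
    simp only [Finsupp.mapDomain.addMonoidHom_apply, Finsupp.mapDomain_single]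
    rw [pt_smul hS hVA hx hc, sub_self]
    exact zero_mem _
  · exact crv_mem hS hVA C c hc hf

theorem tors_of_ratEq {m : ℤ} (h : ∀ x ∈ (cone b Sy.t hS).pts, ∀ y ∈ (cone b Sy.t hS).pts,
    m • (Finsupp.single x 1 - Finsupp.single y 1 : Pt →₀ ℤ) ∈ RatEq (cone b Sy.t hS))
    {x y : V.X} (hx : IsClosed ({x} : Set V.X)) (hy : IsClosed ({y} : Set V.X)) :
    m • (cls (ofSPV V) x - cls (ofSPV V) y) = 0 := by
  obtain ⟨x, hx', rfl⟩ := pt_surj hS hVA hx
  obtain ⟨y, hy', rfl⟩ := pt_surj hS hVA hy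
  have h1 := ratEq_le hS hVA (h x hx' y hy')
  rw [← Finsupp.mapDomain.addMonoidHom_apply, map_zsmul, map_sub] at h1
  simp only [Finsupp.mapDomain.addMonoidHom_apply, Finsupp.mapDomain_single] at h1
  exact (QuotientAddGroup.eq_zero_iff _).2 h1

end Rat

section Ext

variable {n N : ℕ} {V : SmoothProjectiveVariety ℂ n}

/-- a finite system placed on the block `b` -/
def extS (b : ℕ) (S₀ : Sys V (Fin N)) : Sys V Var where
  t := tv b S₀.t
  cov x := by
    obtain ⟨a, h0, ha⟩ := S₀.cov x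
    refine ⟨vr b a, by rwa [tv_vr], fun v => ?_⟩
    rcases tv_cases b S₀.t v with h | ⟨i, rfl⟩
    · rw [h, zero_div]; exact zero_mem _
    · rw [tv_vr, tv_vr]; exact ha i

theorem extS_D (b : ℕ) (S₀ : Sys V (Fin N)) (a : Fin N) : (extS b S₀).D (vr b a) = S₀.D a := by
  ext x
  change (tv b S₀.t _ ≠ 0 ∧ ∀ v, tv b S₀.t v / tv b S₀.t _ ∈ loc x) ↔ _ ∧ _
  rw [tv_vr]
  refine and_congr_right fun _ => ⟨fun h i => by simpa using h (vr b i), fun h v => ?_⟩
  rcases tv_cases b S₀.t v with h1 | ⟨i, rfl⟩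
  · rw [h1, zero_div]; exact zero_mem _
  · rw [tv_vr]; exact h i

theorem extS_VA (b : ℕ) {S₀ : Sys V (Fin N)} (h : S₀.VA) : (extS b S₀).VA where
  aff v hv := by
    obtain ⟨a, rfl⟩ := (tv_cases b S₀.t v).resolve_left hv
    rw [extS_D]
    exact h.aff a (fun h0 => hv ((tv_vr b _ a).trans h0))
  gen v hv f hf := by
    obtain ⟨a, rfl⟩ := (tv_cases b S₀.t v).resolve_left hv
    rw [extS_D] at hf
    obtain ⟨r, p, hp, rfl⟩ := h.gen a (fun h0 => hv ((tv_vr b _ a).trans h0)) f hf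
    exact ⟨r, _, hp.rename_isHomogeneous, by
      rw [← aeval_rename_vr b, ← tv_vr b S₀.t a]; rfl⟩

theorem Sys_ne (S₀ : Sys V (Fin N)) : S₀.t ≠ 0 := fun h =>
  let ⟨a, ha, _⟩ := S₀.cov (genericPoint V.X); ha (congrFun h a)

theorem dAt_rename {σ : Type} [Fintype σ] (g : σ → Var) (x ξ : Pt) (p : MvPolynomial σ ℂ) :
    dAt x ξ (rename g p) = ∑ a, aeval (fun a => x (g a)) (pderiv a p) * ξ (g a) := by
  classical
  induction p using MvPolynomial.induction_on with
  | C c => simp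
  | add p q hp hq => simp only [map_add, dAt_add, hp, hq, add_mul, Finset.sum_add_distrib]
  | mul_X p i hp =>
    have h1 : eval x (rename g p) = aeval (fun a => x (g a)) p := aeval_rename (g := x) g p
    simp only [map_mul, rename_X, dAt_mul, dAt_X, eval_X, hp, h1, Derivation.leibniz,
      smul_eq_mul, map_add, add_mul, Finset.sum_add_distrib, aeval_X, Finset.mul_sum, mul_assoc,
      pderiv_X, Pi.single_apply, apply_ite, map_one, map_zero, ite_mul, one_mul, zero_mul, mul_zero,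
      Finset.sum_ite_eq, Finset.mem_univ, if_true]

theorem finrank_tan_le (b : ℕ) {S₀ : Sys V (Fin N)} (h : S₀.VA) {x : Pt}
    (hx : x ∈ (cone b (tv b S₀.t) (tv_supp b (Sys_ne S₀))).pts) :
    Module.finrank ℂ ((cone b (tv b S₀.t) (tv_supp b (Sys_ne S₀))).Tan x) ≤ n + 1 := by
  let g : (Σ _ : Unit, Fin N) → Var := fun a => vr b a.2
  have key : ∀ p ∈ R270.Dic327.eqs fun _ : Unit => S₀, rename g p ∈ cI (tv b S₀.t) := by
    rintro p ⟨⟨d, hd⟩, h0⟩
    have h1 : (rename g p).IsHomogeneous (d ()) := by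
      refine IsHomogeneous.rename_isHomogeneous fun m hm => ?_
      have h2 := congrFun (hd hm) ()
      rw [Finsupp.weight_apply, Finsupp.sum, Finset.sum_apply] at h2
      rw [Finsupp.weight_apply, Finsupp.sum, ← h2]
      simp
    rw [mem_cI_hom h1, aeval_rename, ← h0]
    congr 2
    exact funext fun a => tv_vr b _ _
  have hz : ∀ {y : Pt}, (∀ v, tv b S₀.t v = 0 → y v = 0) → (∀ i : Fin N, y (vr b i) = 0) →
      y = 0 := fun h1 h2 => funext fun v => (tv_cases b S₀.t v).elim (h1 v) fun ⟨i, hi⟩ => hi ▸ h2 i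
  have h1 := R270.Cn7_611.finrank_TanS (S := fun _ : Unit => S₀) (i₀ := ()) h
    (v := fun _ i => x (vr b i)) (fun p hp => by
      have := cI_le_iff'.1 hx.2 _ (key p hp)
      rwa [aeval_rename] at this) fun _ h0 => hx.1 (hz
        (fun v hv => X_mem_cI.1 (hx.2 (X_mem_cI.2 hv))) (congrFun h0))
  rw [Fintype.card_unit] at h1
  rw [← h1]
  refine LinearMap.finrank_le_finrank_of_injective (f := ((LinearMap.funLeft ℂ ℂ g).domRestrict
    _).codRestrict _ fun ξ p hp => ?_) ((injective_iff_map_eq_zero _).2 fun ξ h0 => ?_)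
  · exact (dAt_rename g x ξ p).symm.trans (ξ.2 _ ((cone_I _).ge (key p hp)))
  · refine Subtype.ext (hz (fun v hv => ?_) fun i => congrFun (congrArg Subtype.val h0) ⟨(), i⟩)
    simpa using ξ.2 _ ((cone_I _).ge (X_mem_cI.2 hv))

/-- **the cone over a smooth surface is smooth of dimension three** -/
theorem cone_sm {V : SmoothProjectiveVariety ℂ 2} (b : ℕ) {S₀ : Sys V (Fin N)} (h : S₀.VA) :
    (cone b (tv b S₀.t) (tv_supp b (Sys_ne S₀))).Sm 3 :=
  Jac.sm_of_le (fun _ hx => finrank_tan_le b h hx) fun _ hx =>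
    le_ldim (Sy := extS b S₀) _ (extS_VA b h) hx

end Ext

end

end Crest.Agent.N265.Br
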