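import Mathlib
import Crest.Agent.N265.Br.Cech

/-!
# Row 265, bridge, part 11 (helper42): rational equivalence of zero-cycles

* `cen_ctr` : every place of `κ(ξ)` has a centre (properness);
* `cyc ξ a` : the divisor of `a ∈ κ(ξ)` pushed forward to the surface; `Rat V`, `CH0 V`;
* `cyc_apply_ord` : coefficients of `cyc` are lengths;
* `s0403_of_rat` : the statement S0403 for two points with `[x] - [y] ∈ Rat`.
-/

set_option autoImplicit false
set_option linter.unusedSectionVars false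
set_option linter.style.haveILetI false

open AlgebraicGeometry CategoryTheory Order TopologicalSpace
open Crest.AlgGeometry.Prelude
open Crest.Agent.R274.Br179
open Crest.Agent.R270.Len1_790 Crest.Agent.R270.Crv_110
open Crest.Agent.R013.RR7_948 Crest.Agent.R013.RR11_948

namespace Crest.Agent.N265.Br

universe w u

noncomputable section

open IsLocalRing

theorem ord_equiv {R S : Type u} [CommRing R] [CommRing S] (e : R ≃+* S) (x : R) :
    Ring.ord S (e x) = Ring.ord R x := by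
  let _ : Algebra R S := e.toRingHom.toAlgebra
  have h1 : Module.length R (S ⧸ Ideal.span {e x}) = Module.length S (S ⧸ Ideal.span {e x}) :=
    Module.length_eq_of_surjective (R := S) (S := R) (M := S ⧸ Ideal.span {e x}) e.surjective
  have h2 : Ideal.span {e x} = (Ideal.span {x}).map (algebraMap R S) := by
    rw [Ideal.map_span, Set.image_singleton]
    rfl
  let e' : R ≃ₐ[R] S := AlgEquiv.ofRingEquiv (f := e) fun _ => rfl
  rw [Ring.ord, Ring.ord, ← h1]
  exact (Ideal.quotientEquivAlg (Ideal.span {x}) (Ideal.span {e x}) e' h2).toLinearEquiv.length_eq.symm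

/-! ### integral closed subschemes -/

section Sub

variable {X : Scheme.{u}}

theorem exists_sub (ξ : X) : ∃ (C : Scheme.{u}) (_ : IsIntegral C) (ι : C ⟶ X)
    (_ : IsClosedImmersion ι), ι (genericPoint C) = ξ := by
  let f := X.fromSpecResidueField ξ
  let p : Spec (X.residueField ξ) := closedPoint (X.residueField ξ)
  have hgen : IsGenericPoint (f.toImage p) (Set.univ : Set f.image) := by
    have h1 := f.toImage.denseRange
    rw [isGenericPoint_def, ← h1.closure_range]
    congr 1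
    ext z
    simp only [Set.mem_singleton_iff, Set.mem_range]
    exact ⟨fun h => ⟨p, h.symm⟩, fun ⟨q, hq⟩ => by rw [← hq, Subsingleton.elim q p]⟩
  have hirr : IrreducibleSpace f.image :=
    (irreducibleSpace_def _).2 hgen.isIrreducible
  have hst : ∀ x : f.image, _root_.IsReduced (f.image.presheaf.stalk x) := by
    intro x
    obtain ⟨U, hU, hx⟩ := exists_affine (f.imageι x)
    have h1 : IsAffineOpen (f.imageι ⁻¹ᵁ U) := hU.preimage _
    have h2 : _root_.IsReduced Γ(f.image, f.imageι ⁻¹ᵁ U) :=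
      isReduced_of_injective _ (f.toImage_app_injective ⟨U, hU⟩)
    let _ := TopCat.Presheaf.algebra_section_stalk f.image.presheaf (⟨x, hx⟩ : f.imageι ⁻¹ᵁ U)
    have := h1.isLocalization_stalk ⟨x, hx⟩
    exact isReduced_localizationPreserves (h1.primeIdealOf ⟨x, hx⟩).asIdeal.primeCompl _ h2
  have hred : IsReduced f.image := isReduced_of_isReduced_stalk _
  have hint : IsIntegral f.image := isIntegral_of_irreducibleSpace_of_isReduced _
  refine ⟨f.image, hint, f.imageι, inferInstance, ?_⟩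
  rw [(genericPoint_spec f.image).eq hgen, ← Scheme.Hom.comp_apply, f.toImage_imageι]
  exact Scheme.fromSpecResidueField_apply ξ p

variable (X) in
/-- an integral curve with a nonzero rational function -/
structure Cv where
  /-- the curve -/
  C : Scheme.{u}
  [int : IsIntegral C]
  [noeth : IsLocallyNoetherian C]
  /-- the embedding -/
  ι : C ⟶ X
  cl : IsClosedImmersion ι
  /-- the function -/
  g : C.functionField
  codim : coheight (ι.base (genericPoint C)) = 1
  ne : g ≠ 0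

attribute [instance] Cv.int Cv.noeth

/-- the push-forward of the divisor -/
def Cv.val (F : Cv X) (p : X) : ℤ := ∑ᶠ z ∈ F.ι.base ⁻¹' {p}, Scheme.ord F.g z

/-- the inverse function -/
def Cv.inv (F : Cv X) : Cv X := { F with g := F.g⁻¹, ne := inv_ne_zero F.ne }

theorem Cv.val_inv (F : Cv X) (p : X) : F.inv.val p = - F.val p := by
  simp only [Cv.val, Cv.inv, ord_inv, finsum_neg_distrib]
  rfl

variable (X) in
/-- rational equivalence to zero as in S0403 -/
def RatS : AddSubgroup (X →₀ ℤ) where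
  carrier := {c | ∃ (n : ℕ) (F : Fin n → Cv X), ∀ p, IsClosed ({p} : Set X) →
    c p = ∑ i, (F i).val p}
  zero_mem' := ⟨0, fun i => i.elim0, fun p _ => by simp⟩
  add_mem' := by
    rintro c c' ⟨n, F, h⟩ ⟨m, G, h'⟩
    refine ⟨n + m, Fin.append F G, fun p hp => ?_⟩
    rw [Finsupp.add_apply, h p hp, h' p hp, Fin.sum_univ_add]
    simp
  neg_mem' := by
    rintro c ⟨n, F, h⟩
    refine ⟨n, fun i => (F i).inv, fun p hp => ?_⟩
    simp [h p hp, Cv.val_inv]

end Sub

variable {k : Type u} [Field k] [IsAlgClosed k] [CharZero k]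

section Ctx

variable {n : ℕ} {V : SmPr k n} {ξ : V.X}
  [Algebra (RatFunc k) (V.ResField ξ)] [IsScalarTower k (RatFunc k) (V.ResField ξ)]
  [FiniteDimensional (RatFunc k) (V.ResField ξ)] [Algebra.IsSeparable (RatFunc k) (V.ResField ξ)]

local notation "𝐖" => SmPr.toIntegralKScheme V

/-- **every place has a centre** -/
theorem cen_ctr (Q : Pl k (V.ResField ξ)) : Cen (W := 𝐖) Q (ctr Q) := by
  have hp := V.proper
  have hE : ValuativeCriterion.Existence V.toBase := by
    have h1 : UniversallyClosed V.toBase := inferInstance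
    rw [UniversallyClosed.eq_valuativeCriterion] at h1
    exact h1.1
  let c : k →+* OQ Q := (algebraMap k (V.ResField ξ)).codRestrict _ (algebraMap_mem_OQ Q)
  have w : V.X.fromSpecResidueField ξ ≫ V.toBase =
      Spec.map (CommRingCat.ofHom (algebraMap (OQ Q) (V.ResField ξ))) ≫
        Spec.map (CommRingCat.ofHom c) := by
    rw [Scheme.fromSpecResidueField, Category.assoc,
      Crest.Agent.R270.Iso_927.fromSpecStalk_toBase, ← Spec.map_comp, ← Spec.map_comp]
    rfl
  obtain ⟨l, hl₁, -⟩ := (hE { R := OQ Q, K := V.ResField ξ, commSq := ⟨w⟩, .. }).exists_lift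
  dsimp only at hl₁
  have hs : ξ ⤳ l (closedPoint (OQ Q)) := by
    have h1 := Scheme.fromSpecResidueField_apply ξ (closedPoint (V.X.residueField ξ))
    rw [← hl₁, Scheme.Hom.comp_apply] at h1
    exact (specializes_of_eq h1.symm).trans ((specializes_closedPoint _).map l.continuous)
  have h2 : Scheme.stalkClosedPointTo l ≫ CommRingCat.ofHom (algebraMap (OQ Q) (V.ResField ξ)) =
      V.X.presheaf.stalkSpecializes hs ≫ V.X.residue ξ := by
    apply Spec.map_injective
    rw [← cancel_mono (V.X.fromSpecStalk (l (closedPoint (OQ Q)))), Spec.map_comp, Spec.map_comp,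
      Category.assoc, Category.assoc, Scheme.Spec_stalkClosedPointTo_fromSpecStalk,
      Scheme.SpecMap_stalkSpecializes_fromSpecStalk]
    exact hl₁
  have h3 : ∀ f ∈ loc (l (closedPoint (OQ Q))), Q.v (E (W := 𝐖) ξ f) ≤ 1 := by
    rintro _ ⟨a, rfl⟩
    have h4 := ConcreteCategory.congr_hom h2 a
    have h5 : E (W := 𝐖) ξ (algebraMap _ V.X.functionField a) =
        V.X.residue ξ (V.X.presheaf.stalkSpecializes hs a) := by
      rw [E_eq (loc_le hs ⟨a, rfl⟩)]
      refine congrArg (V.X.residue ξ).hom ((stE ξ).symm_apply_eq.2 (Subtype.ext ?_))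
      exact (algebraMap_spec hs a).symm
    rw [h5]
    exact (congrArg (fun b => Q.v b ≤ 1) h4).mp (Scheme.stalkClosedPointTo l a).2
  have h4 : Cen (W := 𝐖) Q (l (closedPoint (OQ Q))) := by
    refine ⟨hs, fun h => OQ_ne_top Q (eq_top_iff.2 fun a _ => ?_), h3⟩
    obtain ⟨f, hf, rfl⟩ := exists_E (W := 𝐖) a
    exact h3 f (by rw [h]; exact hf)
  rwa [ctr_eq h4]

theorem ctr_eq_iff {Q : Pl k (V.ResField ξ)} {y : V.X} : ctr Q = y ↔ Cen (W := 𝐖) Q y :=
  ⟨fun h => h ▸ cen_ctr Q, ctr_eq⟩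

variable (ξ) in
/-- the divisor of a function on the curve `ξ`, as a zero-cycle -/
def cyc (a : V.ResField ξ) : V.X →₀ ℤ := (divf (k := k) a).mapDomain ctr

theorem cyc_mul {a b : V.ResField ξ} (ha : a ≠ 0) (hb : b ≠ 0) :
    cyc ξ (a * b) = cyc ξ a + cyc ξ b := by
  rw [cyc, divf_mul ha hb, Finsupp.mapDomain_add]; rfl

theorem cyc_one : cyc ξ (1 : V.ResField ξ) = 0 := by
  rw [cyc, divf_one, Finsupp.mapDomain_zero]

theorem cyc_inv {a : V.ResField ξ} (ha : a ≠ 0) : cyc ξ a⁻¹ = - cyc ξ a := by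
  have h := cyc_mul ha (inv_ne_zero ha)
  rw [mul_inv_cancel₀ ha, cyc_one] at h
  exact (neg_eq_of_add_eq_zero_right h.symm).symm

theorem cyc_apply (a : V.ResField ξ) (y : V.X) {S : Finset (Pl k (V.ResField ξ))}
    (hS : ∀ Q, Q ∈ S ↔ Cen (W := 𝐖) Q y) : cyc ξ a y = ∑ Q ∈ S, divf (k := k) a Q := by
  classical
  rw [cyc, Finsupp.mapDomain, Finsupp.sum_apply, Finsupp.sum,
    ← Finset.sum_filter_add_sum_filter_not _ (· ∈ S), Finset.sum_eq_zero (s := Finset.filter
      (fun Q => ¬ Q ∈ S) _) fun Q hQ => Finsupp.single_eq_of_ne' fun h =>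
        (Finset.mem_filter.1 hQ).2 ((hS Q).2 (ctr_eq_iff.1 h)), add_zero]
  refine Finset.sum_subset_zero_on_sdiff (fun Q hQ => (Finset.mem_filter.1 hQ).2)
    (fun Q hQ => ?_) fun Q hQ => ?_
  · rw [Finset.mem_sdiff, Finset.mem_filter, not_and', Finsupp.notMem_support_iff] at hQ
    exact hQ.2 hQ.1
  · rw [ctr_eq ((hS Q).1 (Finset.mem_filter.1 hQ).2), Finsupp.single_eq_same]

theorem cyc_apply_of_not {a : V.ResField ξ} {y : V.X} (h : ¬ (ξ ⤳ y ∧ y ≠ ξ)) :
    cyc ξ a y = 0 := by
  rw [cyc_apply a y (S := ∅) fun Q => ⟨by simp, fun hQ => (h ⟨hQ.1, hQ.2.1⟩).elim⟩]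
  rfl

theorem dom_iff_cen {y : V.X} (h : ξ ⤳ y) (hne : y ≠ ξ) (Q : Pl k (V.ResField ξ)) :
    Dom (Rg (W := 𝐖) h) Q ↔ Cen (W := 𝐖) Q y := by
  rw [dom_iff_le (essFT h)]
  exact ⟨fun hQ => ⟨h, hne, fun f hf => hQ _ (mem_Rg.2 ⟨f, hf, rfl⟩)⟩, fun hQ => hQ.le⟩

/-- **coefficients are lengths** -/
theorem cyc_apply_ord {y : V.X} (h : ξ ⤳ y) (hne : y ≠ ξ) (a : Rg (W := 𝐖) h)
    (ha : (a : V.ResField ξ) ≠ 0) :
    cyc ξ (a : V.ResField ξ) y = (Ring.ord (Rg (W := 𝐖) h) a).toNat := by
  have htop : Rg (W := 𝐖) h ≠ ⊤ := by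
    obtain ⟨s, hs, hsξ⟩ := exists_van h hne
    intro h0
    refine inv_notMem_Rg h hs (fun h1 => hsξ ((E_eq_zero ?_).1 h1)) (h0 ▸ trivial)
    exact loc_le h (van_subset_loc y hs)
  obtain ⟨hfin, h1⟩ := lenK (Rg (W := 𝐖) h) (essFT h) htop a ha
  rw [h1, cyc_apply _ y fun Q => hfin.mem_toFinset.trans (dom_iff_cen h hne Q)]

end Ctx

variable (V : SmPr k 2)

local notation "𝐖" => SmPr.toIntegralKScheme V

/-- zero-cycles rationally equivalent to zero -/
def Rat : AddSubgroup (V.X →₀ ℤ) := AddSubgroup.closure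
  {c | ∃ (ξ : V.X) (_ : coheight ξ = 1) (_ : Algebra (RatFunc k) (V.ResField ξ))
    (_ : IsScalarTower k (RatFunc k) (V.ResField ξ))
    (_ : FiniteDimensional (RatFunc k) (V.ResField ξ))
    (_ : Algebra.IsSeparable (RatFunc k) (V.ResField ξ)) (a : V.ResField ξ), a ≠ 0 ∧ c = cyc ξ a}

/-- cycles modulo rational equivalence of zero-cycles -/
abbrev CH0 : Type u := (V.X →₀ ℤ) ⧸ Rat V

/-- the class of a point -/
def cls (x : V.X) : CH0 V := QuotientAddGroup.mk (Finsupp.single x 1)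

variable {V}

theorem cyc_mem_Rat {ξ : V.X} (hξ : coheight ξ = 1) [Algebra (RatFunc k) (V.ResField ξ)]
    [IsScalarTower k (RatFunc k) (V.ResField ξ)] [FiniteDimensional (RatFunc k) (V.ResField ξ)]
    [Algebra.IsSeparable (RatFunc k) (V.ResField ξ)] (a : V.ResField ξ) : cyc ξ a ∈ Rat V := by
  by_cases ha : a = 0
  · rw [ha, cyc, divf, dif_pos rfl, Finsupp.mapDomain_zero]
    exact zero_mem _
  · exact AddSubgroup.subset_closure ⟨ξ, hξ, _, _, _, _, a, ha, rfl⟩

section Main

variable {C : Scheme.{u}} [IsIntegral C] [IsLocallyNoetherian C] (ι : C ⟶ V.X) [IsClosedImmersion ι]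

/-- the function field of the curve -/
def psi : V.ResField (ι (genericPoint C)) ≃+* C.functionField :=
  haveI : IsLocalHom (ι.stalkMap (genericPoint C)).hom := inferInstance
  RingEquiv.ofBijective (ResidueField.lift (S := C.functionField) (ι.stalkMap (genericPoint C)).hom)
    ⟨RingHom.injective _, fun g => by
      obtain ⟨a, rfl⟩ := ι.stalkMap_surjective (genericPoint C) g
      exact ⟨residue _ a, ResidueField.lift_residue_apply _ a⟩⟩

theorem psi_E (z : C) (a : V.X.presheaf.stalk (ι z)) :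
    psi ι (E (W := 𝐖) (ι (genericPoint C)) (algebraMap _ V.X.functionField a)) =
      algebraMap _ C.functionField (ι.stalkMap z a) := by
  have hs : ι (genericPoint C) ⤳ ι z := (genericPoint_specializes z).map ι.continuous
  have h5 : E (W := 𝐖) (ι (genericPoint C)) (algebraMap _ V.X.functionField a) =
      V.X.residue _ (V.X.presheaf.stalkSpecializes hs a) := by
    rw [E_eq (loc_le hs ⟨a, rfl⟩)]
    refine congrArg (V.X.residue _).hom ((stE _).symm_apply_eq.2 (Subtype.ext ?_))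
    exact (algebraMap_spec hs a).symm
  rw [h5]
  exact (ResidueField.lift_residue_apply _ _).trans
    (ι.stalkSpecializes_stalkMap_apply _ _ (genericPoint_specializes z) a)

theorem coheight_sub (hξ : coheight (ι (genericPoint C)) = 1) {z : C}
    (hz : z ≠ genericPoint C) : coheight z = 1 := by
  refine le_antisymm ?_ (one_le_coheight_of_ne_genericPoint hz)
  rw [show (1 : ℕ∞) = ((1 : ℕ) : ℕ∞) from rfl, Order.coheight_le_coe_iff]
  intro w hw
  have h1 : w ⤳ z := hw.le
  have h2 : w = genericPoint C := by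
    by_contra h
    have h3 := eq_of_spec hξ ((genericPoint_specializes w).map ι.continuous)
      (fun h4 => h (ι.isClosedEmbedding.injective h4)) (h1.map ι.continuous)
    exact hw.ne (ι.isClosedEmbedding.injective h3)
  have h3 : coheight w = 0 := by
    rw [h2, Order.coheight_eq_zero]
    exact fun v _ => genericPoint_specializes v
  rw [h3]
  norm_num

variable [Algebra (RatFunc k) (V.ResField (ι (genericPoint C)))]
  [IsScalarTower k (RatFunc k) (V.ResField (ι (genericPoint C)))]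
  [FiniteDimensional (RatFunc k) (V.ResField (ι (genericPoint C)))]
  [Algebra.IsSeparable (RatFunc k) (V.ResField (ι (genericPoint C)))]

theorem ord_psi (hξ : coheight (ι (genericPoint C)) = 1) {z : C} (hz : z ≠ genericPoint C)
    {a : V.ResField (ι (genericPoint C))} (ha : a ≠ 0) :
    Scheme.ord (psi ι a) z = cyc _ a (ι z) := by
  have hs : ι (genericPoint C) ⤳ ι z := (genericPoint_specializes z).map ι.continuous
  have hne : ι z ≠ ι (genericPoint C) := fun h => hz (ι.isClosedEmbedding.injective h)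
  have hz1 := coheight_sub ι hξ hz
  have hmem : ∀ r : Rg (W := 𝐖) hs, psi ι r ∈ loc z := by
    rintro ⟨r, hr⟩
    obtain ⟨_, ⟨b, rfl⟩, rfl⟩ := mem_Rg.1 hr
    exact ⟨_, (psi_E ι z b).symm⟩
  let θ₀ : Rg (W := 𝐖) hs →+* loc z :=
    ((psi ι).toRingHom.comp (Rg (W := 𝐖) hs).val.toRingHom).codRestrict _ hmem
  have hθ : Function.Bijective θ₀ := by
    refine ⟨fun r s h => Subtype.ext ((psi ι).injective (congrArg Subtype.val h)), ?_⟩
    rintro ⟨_, b, rfl⟩
    obtain ⟨c, rfl⟩ := ι.stalkMap_surjective z b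
    exact ⟨⟨_, mem_Rg.2 ⟨_, ⟨c, rfl⟩, rfl⟩⟩, Subtype.ext (psi_E ι z c)⟩
  let θ := (RingEquiv.ofBijective θ₀ hθ).trans (stE z).symm
  have key : ∀ r : Rg (W := 𝐖) hs, r.1 ≠ 0 → Scheme.ord (psi ι r) z = cyc _ r.1 (ι z) := by
    intro r hr
    have h1 : psi ι r = algebraMap _ C.functionField (θ r) :=
      congrArg Subtype.val ((stE z).apply_symm_apply (θ₀ r)).symm
    have h2 : θ r ≠ 0 := (map_ne_zero_iff _ θ.injective).2 fun h => hr (congrArg Subtype.val h)
    have : Ring.KrullDimLE 1 (C.presheaf.stalk z) := krullDimLE_of_coheight_le hz1.le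
    obtain ⟨m, hm⟩ := ENat.ne_top_iff_exists.1
      (Ring.ord_ne_top (a := θ r) (mem_nonZeroDivisors_of_ne_zero h2))
    rw [cyc_apply_ord hs hne r hr, ← ord_equiv θ, ← hm, ENat.toNat_natCast,
      Scheme.ord_eq_iff hz1 ((map_ne_zero _).2 hr), h1, Scheme.ordHom, Ring.ordFrac_eq_ord _ h2,
      Ring.ordMonoidWithZeroHom_eq_coe _ (mem_nonZeroDivisors_of_ne_zero h2) hm.symm]
  obtain ⟨r, hr, s, hs', hs0, hrs⟩ := (essFT hs).frac a
  have hr0 : r ≠ 0 := hrs ▸ mul_ne_zero hs0 ha
  have h1 := key ⟨r, hr⟩ hr0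
  have h2 := key ⟨s, hs'⟩ hs0
  simp only at h1 h2
  rw [← hrs, map_mul, Scheme.ord_mul ((map_ne_zero _).2 hs0) ((map_ne_zero _).2 ha),
    cyc_mul hs0 ha, Finsupp.add_apply, h2] at h1
  exact add_left_cancel h1

end Main

theorem rat_le : Rat V ≤ RatS V.X := by
  refine (AddSubgroup.closure_le _).2 ?_
  rintro _ ⟨ξ, hξ, _, _, _, _, a, ha, rfl⟩
  obtain ⟨C, _, ι, _, rfl⟩ := exists_sub ξ
  have : IsLocallyNoetherian C := LocallyOfFiniteType.isLocallyNoetherian ι
  refine ⟨1, fun _ => ⟨C, ι, ‹_›, psi ι a, hξ, (map_ne_zero _).2 ha⟩, fun p hp => ?_⟩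
  rw [Fin.sum_univ_one, Cv.val]
  by_cases h : ∃ z, ι z = p
  · obtain ⟨z, rfl⟩ := h
    have h1 : ι.base ⁻¹' {ι z} = {z} := by
      ext w
      exact ι.isClosedEmbedding.injective.eq_iff
    rw [h1, finsum_mem_singleton, ord_psi ι hξ (fun h => not_isClosed hξ (h ▸ hp)) ha]
  · have h1 : ι.base ⁻¹' {p} = ∅ := Set.eq_empty_of_forall_notMem fun z hz => h ⟨z, hz⟩
    rw [h1, finsum_mem_empty]
    refine cyc_apply_of_not fun h2 => h ?_
    exact ι.isClosedEmbedding.isClosed_range.closure_subset_iff.2 (Set.singleton_subset_iff.2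
      ⟨_, rfl⟩) (specializes_iff_mem_closure.1 h2.1)

/-- **S0403 for two rationally equivalent points** -/
theorem s0403_of_rat (x y : V.X) (h : cls V x = cls V y) :
    ∃ (n : ℕ) (C : Fin n → Scheme.{u}) (_ : ∀ k, IsIntegral (C k))
      (_ : ∀ k, IsLocallyNoetherian (C k)) (ι : ∀ k, C k ⟶ V.X)
      (_ : ∀ k, IsClosedImmersion (ι k)) (g : ∀ k, (C k).functionField),
      (∀ k, Order.coheight ((ι k).base (genericPoint (C k))) = 1) ∧ (∀ k, g k ≠ 0) ∧
      ∀ p : V.X, IsClosed ({p} : Set V.X) →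
        ({x} : Set V.X).indicator (1 : V.X → ℤ) p - ({y} : Set V.X).indicator 1 p =
          ∑ k, ∑ᶠ z ∈ (ι k).base ⁻¹' {p}, Scheme.ord (g k) z := by
  classical
  obtain ⟨n, F, hF⟩ := rat_le (QuotientAddGroup.eq_iff_sub_mem.1 h)
  refine ⟨n, fun i => (F i).C, fun i => (F i).int, fun i => (F i).noeth, fun i => (F i).ι,
    fun i => (F i).cl, fun i => (F i).g, fun i => (F i).codim, fun i => (F i).ne, fun p hp => ?_⟩
  refine Eq.trans ?_ (hF p hp)
  simp [Set.indicator_apply, Finsupp.single_apply, eq_comm]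

/-- Bloch's conjecture in the language of `SmV` -/
def Bloch : Prop := ∀ (V : SmoothProjectiveVariety ℂ 2) (M : Model V),
  Subsingleton (((R274.Brg883.smV M).fam 0).H 1) → Subsingleton (((R274.Brg883.smV M).fam 0).H 2) →
    ∀ x y : V.X, IsClosed ({x} : Set V.X) → IsClosed ({y} : Set V.X) →
      cls (ofSPV V) x = cls (ofSPV V) y

/-- **the bridge** -/
theorem s0403_of_bloch (H : Bloch) (S : Scheme.{0}) [IsIntegral S] (f : S ⟶ Spec (.of ℂ))
    [SmoothOfRelativeDimension 2 f] [IsProper f]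
    (hq : Subsingleton (Sheaf.H ((SheafOfModules.toSheaf S.ringCatSheaf).obj
      (SheafOfModules.unit S.ringCatSheaf)) 1 : Type))
    (hpg : Subsingleton (Sheaf.H ((SheafOfModules.toSheaf S.ringCatSheaf).obj
      (SheafOfModules.unit S.ringCatSheaf)) 2 : Type))
    (x y : S) (hx : IsClosed ({x} : Set S)) (hy : IsClosed ({y} : Set S)) :
    ∃ (n : ℕ) (C : Fin n → Scheme.{0}) (_ : ∀ k, IsIntegral (C k))
      (_ : ∀ k, IsLocallyNoetherian (C k)) (ι : ∀ k, C k ⟶ S)
      (_ : ∀ k, IsClosedImmersion (ι k)) (g : ∀ k, (C k).functionField),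
      (∀ k, Order.coheight ((ι k).base (genericPoint (C k))) = 1) ∧ (∀ k, g k ≠ 0) ∧
      ∀ p : S, IsClosed ({p} : Set S) →
        ({x} : Set S).indicator (1 : S → ℤ) p - ({y} : Set S).indicator 1 p =
          ∑ k, ∑ᶠ z ∈ (ι k).base ⁻¹' {p}, Scheme.ord (g k) z := by
  obtain ⟨M⟩ := exists_model (ofScheme S f hq)
  exact s0403_of_rat (V := ofSPV (ofScheme S f hq)) x y
    (H _ M (@H1_smV _ _ _ _ M _ hq) (@H2_smV _ _ _ _ M _ _ hpg) x y hx hy)

end

end Crest.Agent.N265.Br
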