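import Crest.Agent.N265.Br.DicR
import Crest.Agent.N265.Br.Ver
import Crest.Agent.N265.Div.Main

/-!
# Row 265, bridge, part 17 (helper42): existence of `Surf`, the final reduction

* `exists_surf` : a smooth projective surface with `q = p_g = 0` gives a `Surf`;
* `bloch_of_torsStmt`, `s0403_of_torsStmt` : S0403 follows from `TorsStmt`.
-/

set_option autoImplicit false
set_option linter.unusedSectionVars false

open AlgebraicGeometry CategoryTheory Order TopologicalSpace MvPolynomial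
open Crest.AlgGeometry.Prelude
open Crest.Agent.R274 Crest.Agent.R274.Br179 Crest.Agent.R274.Brg883
open Crest.Agent.R274.SnapB_99 (Sec)
open Crest.Agent.R270.Dic327 (Sys)

namespace Crest.Agent.N265.Br

noncomputable section

universe u

variable {k : Type u} [Field k] [IsAlgClosed k] {n : ℕ} {V : SmoothProjectiveVariety k n}
  (M : Model V)

/-- the evaluation of forms in the function field -/
abbrev ph := Br179.phi (V := V.toIntegralKScheme) M.ι

/-- normalised coordinates of the embedding -/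
def uu (j : Fin (M.N + 1)) : V.FnField := (ph M (M.Y 0))⁻¹ * tco (V := V.toIntegralKScheme) M.ι j

theorem aeval_uu {p : MvPolynomial (Fin (M.N + 1)) k} {e : ℕ} (hp : p.IsHomogeneous e) :
    aeval (uu M) p = ph M p / ph M (M.Y 0) ^ e := by
  rw [div_eq_inv_mul, ← inv_pow]
  exact eval₂_smul_hom _ _ _ hp

/-- linear forms -/
def UU : Submodule k V.FnField := Submodule.span k (Set.range (uu M))

theorem mem_UU_pow {p : MvPolynomial (Fin (M.N + 1)) k} {e : ℕ} (hp : p.IsHomogeneous e) :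
    ph M p / ph M (M.Y 0) ^ e ∈ UU M ^ e := mem_span_pow.2 ⟨p, hp, aeval_uu M hp⟩

theorem U_single (i : Fin (n + 1)) : M.U {i} = Dp (V := V.toIntegralKScheme) M.ι (M.Y i) := by
  ext x
  exact (mem_UI M.ι).trans (by simp)

theorem TT_le_UU : TT (smV M) ≤ UU M := by
  refine Submodule.span_le.2 (Set.range_subset_iff.2 fun i => ?_)
  have := mem_UU_pow M (M.hY i)
  rwa [pow_one, pow_one] at this

theorem UU_le : UU M ≤ SnapB_99.Sec (smV M).T (smV M).h := by
  refine Submodule.span_le.2 (Set.range_subset_iff.2 fun j => ?_)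
  have h := (mem_sec_nsmul (smV M) 1 (uu M j)).2 fun i => mem_reg.2 fun x hx => by
    have h1 := ratio_mem_loc M.ι M.hι (X_mem_one j) (M.hY i) (x := x) (U_single M i ▸ hx)
    convert h1 using 1
    have := M.y_ne 0
    rw [pow_one, Br179.phi_X, uu, smV_X, Model.X_t, Model.t]
    field_simp
  rwa [one_smul] at h

theorem exists_forms_deg : ∃ d0 : ℕ, ∀ d, d0 ≤ d →
    SnapB_99.Sec (smV M).T (d • (smV M).h) ≤ UU M ^ d := by
  refine sec_le_forms _ (TT_le_UU M) fun e i g hg => ?_
  have h1 : (M.t i ^ e)⁻¹ * g ∈ reg (M.U {i} : Set V.X) := (mem_sec_nsmul _ e g).1 hg i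
  rw [U_single] at h1
  obtain ⟨r, a, ha, h2⟩ := exists_of_mem_reg M.ι M.hι M.hcl (M.hY i) one_pos (M.y_ne i) h1
  rw [mul_one] at ha
  refine ⟨r, ?_⟩
  have h3 : M.t i ^ r * g = ph M a / ph M (M.Y 0) ^ r * M.t i ^ e := by
    rw [inv_mul_eq_iff_eq_mul₀ (pow_ne_zero _ (M.t_ne i))] at h2
    have := M.y_ne i
    rw [h2, Model.t, div_pow]
    field_simp
  rw [smV_X, Model.X_t, h3, pow_add]
  exact Submodule.mul_mem_mul (mem_UU_pow M ha)
    (Submodule.pow_mem_pow _ (TT_le_UU M (Submodule.subset_span ⟨i, rfl⟩)) e)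

section Sys

variable {M} {d N : ℕ} {s : Fin N → V.FnField} {p : Fin N → MvPolynomial (Fin (M.N + 1)) k}
  (hp : ∀ a, (p a).IsHomogeneous d) (hs : ∀ a, s a = ph M (p a) / ph M (M.Y 0) ^ d)
  (ht : ∀ i, M.t i ^ d ∈ Submodule.span k (Set.range s))
include hp hs

theorem s_div (a b : Fin N) : s b / s a = ph M (p b) / ph M (p a) := by
  rw [hs, hs, div_div_div_cancel_right₀ (pow_ne_zero _ (M.y_ne 0))]

theorem s_div_t (a : Fin N) (i : Fin (n + 1)) : s a / M.t i ^ d = ph M (p a) / ph M (M.Y i ^ d) := by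
  rw [hs, Model.t, div_pow, div_div_div_cancel_right₀ (pow_ne_zero _ (M.y_ne 0)), map_pow]

theorem mem_of_Dp {a : Fin N} {x : V.X} (hx : x ∈ Dp (V := V.toIntegralKScheme) M.ι (p a)) :
    s a ≠ 0 ∧ ∀ b, s b / s a ∈ loc x :=
  ⟨by rw [hs]; exact div_ne_zero (phi_ne_zero M.ι M.hι (hp a) hx) (pow_ne_zero _ (M.y_ne 0)),
    fun b => by rw [s_div hp hs]; exact ratio_mem_loc M.ι M.hι (hp b) (hp a) hx⟩

theorem van_of_notMem {a : Fin N} {x : V.X} {i : Fin (n + 1)}
    (hi : x ∈ Dp (V := V.toIntegralKScheme) M.ι (M.Y i))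
    (hx : x ∉ Dp (V := V.toIntegralKScheme) M.ι (p a)) : s a / M.t i ^ d ∈ van x := by
  have h1 : (M.Y i ^ d).IsHomogeneous d := by
    simpa using IsHomogeneous.pow (M.hY i) d
  rw [s_div_t hp hs, ratio_mem_van_iff M.ι M.hι (hp a) h1]
  · exact hx
  · exact fun h => hi ((M.ι x).isPrime.mem_of_pow_mem d h)

include ht

theorem exists_Dp (x : V.X) : ∃ a, x ∈ Dp (V := V.toIntegralKScheme) M.ι (p a) := by
  by_contra h
  obtain ⟨i, hi⟩ := M.hcov x
  have key : ∀ f ∈ Submodule.span k (Set.range s), f / M.t i ^ d ∈ van x := by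
    intro f hf
    induction hf using Submodule.span_induction with
    | mem y hy =>
      obtain ⟨a, rfl⟩ := hy
      exact van_of_notMem hp hs hi fun h1 => h ⟨a, h1⟩
    | zero => rw [zero_div]; exact zero_mem_van x
    | add _ _ _ _ h h' => rw [add_div]; exact add_mem_van h h'
    | smul c y _ h =>
      rw [Algebra.smul_def, mul_div_assoc]
      exact mul_mem_van (const_mem_loc V.toIntegralKScheme x c) h
  have := key _ (ht i)
  rw [div_self (pow_ne_zero _ (M.t_ne i))] at this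
  exact one_notMem_van x this

/-- the system given by forms of degree `d` -/
def sysD : Sys V (Fin N) where
  t := s
  cov x := let ⟨a, ha⟩ := exists_Dp hp hs ht x; ⟨a, mem_of_Dp hp hs ha⟩

theorem sysD_D (a : Fin N) :
    (sysD hp hs ht).D a = (Dp (V := V.toIntegralKScheme) M.ι (p a) : Set V.X) := by
  refine Set.ext fun x => ⟨fun hx => by_contra fun h => ?_, fun hx => mem_of_Dp hp hs hx⟩
  obtain ⟨i, hi⟩ := M.hcov x
  have key : ∀ f ∈ Submodule.span k (Set.range s), f / s a ∈ loc x := by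
    intro f hf
    induction hf using Submodule.span_induction with
    | mem y hy =>
      obtain ⟨b, rfl⟩ := hy
      exact hx.2 b
    | zero => rw [zero_div]; exact zero_mem _
    | add _ _ _ _ h h' => rw [add_div]; exact add_mem h h'
    | smul c y _ h =>
      rw [Algebra.smul_def, mul_div_assoc]
      exact mul_mem (const_mem_loc V.toIntegralKScheme x c) h
  have := mul_mem_van (key _ (ht i)) (van_of_notMem hp hs hi h)
  rw [div_mul_div_cancel₀ (show s a ≠ 0 from hx.1), div_self (pow_ne_zero _ (M.t_ne i))] at this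
  exact one_notMem_van x this

theorem sysD_VA (hd : 0 < d)
    (hg : ∀ r, UU M ^ (r * d) ≤ Submodule.span k (Set.range s) ^ r) : (sysD hp hs ht).VA where
  aff a _ := ⟨_, affine_Dp M.ι M.hcl (hp a) hd, (sysD_D hp hs ht a).symm⟩
  gen a ha f hf := by
    rw [sysD_D] at hf
    have h0 : ph M (p a) ≠ 0 := fun h => ha ((hs a).trans (by rw [h, zero_div]))
    obtain ⟨r, q, hq, rfl⟩ := exists_of_mem_reg M.ι M.hι M.hcl (hp a) hd h0 hf
    obtain ⟨q', hq', h1⟩ := mem_span_pow.1 (hg r (mem_UU_pow M hq))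
    refine ⟨r, q', hq', ?_⟩
    change _ = aeval s q' / s a ^ r
    rw [h1, hs, div_pow, ← pow_mul, mul_comm d,
      div_div_div_cancel_right₀ (pow_ne_zero _ (M.y_ne 0))]

end Sys

/-- **complete, normally generated, very ample systems without higher cohomology** -/
theorem exists_sys : ∃ (d : ℕ) (_ : 0 < d) (N : ℕ) (S₀ : Sys V (Fin N)), S₀.VA ∧
    LinearIndependent k S₀.t ∧
    (∀ m : ℕ, SnapB_99.Sec (smV M).T (m • d • (smV M).h) = Submodule.span k (Set.range S₀.t) ^ m) ∧
    ∀ m i : ℕ, 0 < m → 0 < i → Subsingleton (((smV M).fam (m • d • (smV M).h)).H i) := by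
  obtain ⟨d0, h0⟩ := exists_forms_deg M
  obtain ⟨d1, h1⟩ := sec_eq_pow (smV M)
  obtain ⟨d2, h2⟩ := Chg1_750.serre_van (smV M).hyp 0
  set d := d0 + d1 + d2 + 1 with hd
  have := Chg1_750.finite_Sec (S := (smV M).T) (d • (smV M).h)
  let b := Module.finBasis k (SnapB_99.Sec (smV M).T (d • (smV M).h))
  let s := fun a => (b a : V.FnField)
  have hsp : Submodule.span k (Set.range s) = SnapB_99.Sec (smV M).T (d • (smV M).h) := by
    rw [show s = Submodule.subtype _ ∘ b from rfl, Set.range_comp, ← Submodule.map_span, b.span_eq,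
      Submodule.map_subtype_top]
  choose p hp hs using fun a => mem_span_pow.1 (h0 d (by omega) (b a).2)
  have hs' : ∀ a, s a = ph M (p a) / ph M (M.Y 0) ^ d := fun a => (hs a).symm.trans (aeval_uu M (hp a))
  have ht : ∀ i, M.t i ^ d ∈ Submodule.span k (Set.range s) := fun i => by
    rw [hsp]
    exact Chg1_750.sec_pow (t_mem_sec (smV M) i) d
  refine ⟨d, by omega, _, sysD hp hs' ht, sysD_VA hp hs' ht (by omega) fun r => ?_,
    b.linearIndependent.map' _ (Submodule.ker_subtype _), fun m => ?_, fun m i hm hi => ?_⟩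
  · rw [hsp, ← h1 d (by omega), smul_smul]
    exact pow_le_sec (UU_le M) _
  · exact (h1 d (by omega) m).trans (congrArg (· ^ m) hsp.symm)
  · have := h2 (m * d) (le_trans (by omega) (Nat.le_mul_of_pos_left d hm)) i hi
    rwa [zero_add, ← smul_smul] at this

/-- **the surface** -/
theorem exists_surf {V : SmoothProjectiveVariety ℂ 2} (M : Model V)
    (h1 : Subsingleton (((smV M).fam 0).H 1)) (h2 : Subsingleton (((smV M).fam 0).H 2)) :
    ∃ (Sg : Surf) (Sy : Sys V Var) (hS : Supp 0 Sy.t), Sy.VA ∧ Sg.S 0 = cone 0 Sy.t hS := by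
  obtain ⟨d, hd, N, S₀, hVA, hli, hgen, hvan⟩ := exists_sys M
  refine ⟨{ F := V.FnField, V := pw (smV M) hd, N := N, t := S₀.t, ne := Sys_ne S₀, li := hli
            gen := fun m f => ?_, van := fun m i hi => ?_
            ok := fun b => surfOK (Sy := extS b S₀) _ (extS_VA b hVA)
            sm := fun b => cone_sm b hVA }, extS 0 S₀, _, extS_VA 0 hVA, rfl⟩
  · rw [← mem_span_pow, ← hgen]
    rfl
  · rcases Nat.eq_zero_or_pos m with rfl | hm
    · rw [zero_smul]
      obtain rfl | rfl | h : i = 1 ∨ i = 2 ∨ 2 < i := by omega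
      exacts [h1, h2, Ses_781.H_subsingleton_of_lt _ h]
    · exact hvan m i hm hi

theorem tors_of_torsStmt (H : TorsStmt) : Div.Tors := fun _ M h1 h2 => by
  obtain ⟨Sg, Sy, hS, hVA, h⟩ := exists_surf M h1 h2
  obtain ⟨m, hm, H⟩ := H Sg
  rw [h] at H
  exact ⟨m, hm, fun _ _ hx hy => tors_of_ratEq hS hVA H hx hy⟩

theorem bloch_of_torsStmt (H : TorsStmt) : Bloch := Div.bloch_of_tors (tors_of_torsStmt H)

/-- **S0403 from the torsion statement** -/
theorem s0403_of_torsStmt (H : TorsStmt) (S : Scheme.{0}) [IsIntegral S] (f : S ⟶ Spec (.of ℂ))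
    [SmoothOfRelativeDimension 2 f] [IsProper f]
    (hq : Subsingleton (Sheaf.H ((SheafOfModules.toSheaf S.ringCatSheaf).obj
      (SheafOfModules.unit S.ringCatSheaf)) 1 : Type))
    (hpg : Subsingleton (Sheaf.H ((SheafOfModules.toSheaf S.ringCatSheaf).obj
      (SheafOfModules.unit S.ringCatSheaf)) 2 : Type))
    (x y : S) (hx : IsClosed ({x} : Set S)) (hy : IsClosed ({y} : Set S)) :
    ∃ (n : ℕ) (C : Fin n → Scheme.{0}) (_ : ∀ k, IsIntegral (C k))
      (_ : ∀ k, IsLocallyNoetherian (C k)) (ι : ∀ k, C k ⟶ S)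
      (_ : ∀ k, IsClosedImmersion (ι k)) (g : ∀ k, (C k).functionField),
      (∀ k, Order.coheight ((ι k).base (genericPoint (C k))) = 1) ∧ (∀ k, g k ≠ 0) ∧
      ∀ p : S, IsClosed ({p} : Set S) →
        ({x} : Set S).indicator (1 : S → ℤ) p - ({y} : Set S).indicator 1 p =
          ∑ k, ∑ᶠ z ∈ (ι k).base ⁻¹' {p}, Scheme.ord (g k) z :=
  s0403_of_bloch (bloch_of_torsStmt H) S f hq hpg x y hx hy

end

end Crest.Agent.N265.Br
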